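import Mathlib

-- ▼ part R155/DefsR
section

/-!
R155 (Thorp shuffle), Part R: definitions for analysis on `L²(G)`, `G` a finite group.
-/

set_option autoImplicit false
set_option linter.unusedSectionVars false
set_option linter.unusedSimpArgs false
set_option linter.unusedVariables false

namespace Crest.Agent.R155

open Finset Equiv

section L2
variable {G : Type} [Group G] [Fintype G] [DecidableEq G]
variable {H : Type} [Group H] [Fintype H] [DecidableEq H]

/-- Real functions on a finite type with the (unnormalised) `ℓ²` inner product. -/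
abbrev L2 (G : Type) [Fintype G] : Type := EuclideanSpace ℝ G

/-- The point mass at `g`. -/
noncomputable def dl (g : G) : L2 G := EuclideanSpace.single g (1 : ℝ)

/-- Left translation `(lt a f) g = f (a⁻¹ * g)`. -/
noncomputable def lt (a : G) : L2 G ≃ₗᵢ[ℝ] L2 G :=
  LinearIsometryEquiv.piLpCongrLeft 2 ℝ ℝ (Equiv.mulLeft a)

/-- Right translation `(rt b f) g = f (g * b)`. -/
noncomputable def rt (b : G) : L2 G ≃ₗᵢ[ℝ] L2 G :=
  LinearIsometryEquiv.piLpCongrLeft 2 ℝ ℝ (Equiv.mulRight b⁻¹)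

/-- `K` is invariant under all left translations. -/
def InvL (K : Submodule ℝ (L2 G)) : Prop := ∀ a : G, ∀ f ∈ K, lt a f ∈ K

/-- `K` is invariant under all right translations. -/
def InvR (K : Submodule ℝ (L2 G)) : Prop := ∀ b : G, ∀ f ∈ K, rt b f ∈ K

/-- `K` is invariant under all left and right translations. -/
def BiInv (K : Submodule ℝ (L2 G)) : Prop := InvL K ∧ InvR K

/-- Minimal nonzero bi-invariant subspace. -/
def MinBi (K : Submodule ℝ (L2 G)) : Prop :=
  BiInv K ∧ K ≠ ⊥ ∧ ∀ K' : Submodule ℝ (L2 G), K' ≤ K → BiInv K' → K' = ⊥ ∨ K' = K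

/-- Left convolution by a function `e` on `H`, transported by a homomorphism `j : H →* G`:
`cvH j e f = ∑ h, e h • lt (j h) f`. -/
noncomputable def cvH (j : H →* G) (e : H → ℝ) : L2 G →ₗ[ℝ] L2 G :=
  ∑ h : H, e h • ((lt (j h)).toLinearEquiv : L2 G →ₗ[ℝ] L2 G)

/-- Left convolution by a function on `G` itself. -/
noncomputable def cv (F : G → ℝ) : L2 G →ₗ[ℝ] L2 G := cvH (MonoidHom.id G) F

/-- Orthogonal projection onto `K`. -/
noncomputable def pr (K : Submodule ℝ (L2 G)) : L2 G →ₗ[ℝ] L2 G :=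
  (K.starProjection : L2 G →L[ℝ] L2 G)

/-- The "identity element" of a bi-invariant subspace `I`: the projection of the point mass at
`1` onto `I`, as a function. -/
noncomputable def idem (I : Submodule ℝ (L2 H)) : H → ℝ := fun h => (pr I (dl 1)) h

/-- `j` conjugated by `g`. -/
def cj (g : G) (j : H →* G) : H →* G := (MulAut.conj g).toMonoidHom.comp j

/-- Restriction of `f ∈ L²(G)` to the right coset `j(H) g`, as a function on `H`. -/
noncomputable def res (j : H →* G) (g : G) : L2 G →ₗ[ℝ] L2 H where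
  toFun f := WithLp.toLp 2 (fun h => f (j h * g))
  map_add' f f' := by ext h; simp
  map_smul' c f := by ext h; simp

/-- Sum of all left invariant subspaces of dimension at most `x`. -/
noncomputable def smallIdeal (H : Type) [Group H] [Fintype H] (x : ℕ) : Submodule ℝ (L2 H) :=
  sSup {U : Submodule ℝ (L2 H) | InvL U ∧ Module.finrank ℝ U ≤ x}

end L2

section Juntas
variable (α : Type) [Fintype α] [DecidableEq α]

/-- Indicator of `{g | g (a i) = b i for all i}`. -/
noncomputable def jf {α : Type} [Fintype α] [DecidableEq α] {k : ℕ} (a b : Fin k ↪ α) :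
    L2 (Perm α) :=
  WithLp.toLp 2 (fun g => if ∀ i, g (a i) = b i then (1 : ℝ) else 0)

/-- Span of the indicators of `g ∘ a = b` for `k`-tuples. -/
noncomputable def junta (k : ℕ) : Submodule ℝ (L2 (Perm α)) :=
  Submodule.span ℝ (Set.range (fun p : (Fin k ↪ α) × (Fin k ↪ α) => jf p.1 p.2))

/-- Multiplication by the sign character. -/
noncomputable def sgnMul : L2 (Perm α) →ₗ[ℝ] L2 (Perm α) where
  toFun f := WithLp.toLp 2 (fun g => ((Equiv.Perm.sign g : ℤ) : ℝ) * f g)
  map_add' f f' := by ext h; simp [mul_add]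
  map_smul' c f := by ext h; simp [mul_left_comm]

/-- Sign times juntas. -/
noncomputable def sjunta (k : ℕ) : Submodule ℝ (L2 (Perm α)) := (junta α k).map (sgnMul α)

/-- Level `k` : `k`-juntas orthogonal to `(k-1)`-juntas. -/
noncomputable def lev (k : ℕ) : Submodule ℝ (L2 (Perm α)) := junta α k ⊓ (junta α (k-1))ᗮ

end Juntas


end Crest.Agent.R155
end

-- ▼ part R155/BasicR

/-!
R155, Part R: basic facts on translations, projections, convolutions.
-/

set_option autoImplicit false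
set_option linter.unusedSectionVars false
set_option linter.unusedSimpArgs false
set_option linter.unusedVariables false

namespace Crest.Agent.R155

open Finset Equiv

section
variable {G : Type} [Group G] [Fintype G] [DecidableEq G]
variable {H : Type} [Group H] [Fintype H] [DecidableEq H]

@[simp] theorem lt_apply (a : G) (f : L2 G) (g : G) : lt a f g = f (a⁻¹ * g) := by
  simp [lt, LinearIsometryEquiv.piLpCongrLeft_apply, Equiv.piCongrLeft']

@[simp] theorem rt_apply (b : G) (f : L2 G) (g : G) : rt b f g = f (g * b) := by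
  simp [rt, LinearIsometryEquiv.piLpCongrLeft_apply, Equiv.piCongrLeft']

theorem dl_apply (g x : G) : (dl g : L2 G) x = if x = g then 1 else 0 := by
  simp [dl, Pi.single_apply]

@[simp] theorem res_apply (j : H →* G) (g : G) (f : L2 G) (h : H) : res j g f h = f (j h * g) := rfl

theorem lt_mul (a b : G) (f : L2 G) : lt (a * b) f = lt a (lt b f) := by
  ext g; simp [mul_assoc]

theorem rt_mul (a b : G) (f : L2 G) : rt (a * b) f = rt a (rt b f) := by
  ext g; simp [mul_assoc]

@[simp] theorem lt_one (f : L2 G) : lt (1 : G) f = f := by ext g; simp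

@[simp] theorem rt_one (f : L2 G) : rt (1 : G) f = f := by ext g; simp

theorem lt_rt (a b : G) (f : L2 G) : lt a (rt b f) = rt b (lt a f) := by
  ext g; simp [mul_assoc]

@[simp] theorem lt_dl (a g : G) : lt a (dl g : L2 G) = dl (a * g) := by
  ext x; simp only [lt_apply, dl_apply, inv_mul_eq_iff_eq_mul]

@[simp] theorem rt_dl (b g : G) : rt b (dl g : L2 G) = dl (g * b⁻¹) := by
  ext x; simp only [rt_apply, dl_apply, ← eq_mul_inv_iff_mul_eq]

theorem inner_def' (f g : L2 G) : inner ℝ f g = ∑ x, f x * g x := by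
  simp [PiLp.inner_apply, mul_comm]

theorem norm_sq_def (f : L2 G) : ‖f‖ ^ 2 = ∑ x, f x ^ 2 := by
  rw [EuclideanSpace.norm_sq_eq]; simp

@[simp] theorem inner_dl (g : G) (f : L2 G) : inner ℝ (dl g) f = f g := by
  rw [inner_def']; simp [dl_apply]

@[simp] theorem inner_dl' (g : G) (f : L2 G) : inner ℝ f (dl g) = f g := by
  rw [inner_def']; simp [dl_apply]

theorem inner_lt (a : G) (f g : L2 G) : inner ℝ (lt a f) g = inner ℝ f (lt a⁻¹ g) := by
  have := (lt a).inner_map_map f (lt a⁻¹ g)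
  rw [← this, ← lt_mul]; simp

theorem inner_rt (a : G) (f g : L2 G) : inner ℝ (rt a f) g = inner ℝ f (rt a⁻¹ g) := by
  have := (rt a).inner_map_map f (rt a⁻¹ g)
  rw [← this, ← rt_mul]; simp

theorem norm_lt (a : G) (f : L2 G) : ‖lt a f‖ = ‖f‖ := (lt a).norm_map f



theorem eq_sum_dl (f : L2 G) : f = ∑ g, f g • (dl g : L2 G) := by
  ext x; simp [dl_apply]

/-! ### invariance -/

theorem InvL.orth {K : Submodule ℝ (L2 G)} (hK : InvL K) : InvL Kᗮ := by
  intro a f hf
  rw [Submodule.mem_orthogonal] at hf ⊢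
  intro u hu
  rw [real_inner_comm, inner_lt, real_inner_comm]
  exact hf _ (hK _ _ hu)

theorem InvR.orth {K : Submodule ℝ (L2 G)} (hK : InvR K) : InvR Kᗮ := by
  intro a f hf
  rw [Submodule.mem_orthogonal] at hf ⊢
  intro u hu
  rw [real_inner_comm, inner_rt, real_inner_comm]
  exact hf _ (hK _ _ hu)

theorem BiInv.orth {K : Submodule ℝ (L2 G)} (hK : BiInv K) : BiInv Kᗮ := ⟨hK.1.orth, hK.2.orth⟩

theorem InvL.inf {K L : Submodule ℝ (L2 G)} (hK : InvL K) (hL : InvL L) : InvL (K ⊓ L) :=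
  fun a f hf => ⟨hK a f hf.1, hL a f hf.2⟩

theorem InvR.inf {K L : Submodule ℝ (L2 G)} (hK : InvR K) (hL : InvR L) : InvR (K ⊓ L) :=
  fun a f hf => ⟨hK a f hf.1, hL a f hf.2⟩

theorem BiInv.inf {K L : Submodule ℝ (L2 G)} (hK : BiInv K) (hL : BiInv L) : BiInv (K ⊓ L) :=
  ⟨hK.1.inf hL.1, hK.2.inf hL.2⟩

theorem invL_iff_map {K : Submodule ℝ (L2 G)} :
    InvL K ↔ ∀ a : G, K.map ((lt a).toLinearEquiv : L2 G →ₗ[ℝ] L2 G) ≤ K := by
  constructor
  · rintro h a _ ⟨f, hf, rfl⟩; exact h a f hf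
  · intro h a f hf; exact h a ⟨f, hf, rfl⟩

theorem invR_iff_map {K : Submodule ℝ (L2 G)} :
    InvR K ↔ ∀ a : G, K.map ((rt a).toLinearEquiv : L2 G →ₗ[ℝ] L2 G) ≤ K := by
  constructor
  · rintro h a _ ⟨f, hf, rfl⟩; exact h a f hf
  · intro h a f hf; exact h a ⟨f, hf, rfl⟩

theorem InvL.sup {K L : Submodule ℝ (L2 G)} (hK : InvL K) (hL : InvL L) : InvL (K ⊔ L) := by
  rw [invL_iff_map] at *
  intro a
  rw [Submodule.map_sup]
  exact sup_le_sup (hK a) (hL a)

theorem InvR.sup {K L : Submodule ℝ (L2 G)} (hK : InvR K) (hL : InvR L) : InvR (K ⊔ L) := by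
  rw [invR_iff_map] at *
  intro a
  rw [Submodule.map_sup]
  exact sup_le_sup (hK a) (hL a)

theorem BiInv.sup {K L : Submodule ℝ (L2 G)} (hK : BiInv K) (hL : BiInv L) : BiInv (K ⊔ L) :=
  ⟨hK.1.sup hL.1, hK.2.sup hL.2⟩

/-! ### projections -/

theorem pr_mem (K : Submodule ℝ (L2 G)) (f : L2 G) : pr K f ∈ K := by
  simp [pr]

theorem pr_of_mem {K : Submodule ℝ (L2 G)} {f : L2 G} (hf : f ∈ K) : pr K f = f := by
  simpa [pr] using (Submodule.starProjection_eq_self_iff (K := K)).2 hf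

theorem sub_pr_mem (K : Submodule ℝ (L2 G)) (f : L2 G) : f - pr K f ∈ Kᗮ := by
  simp [pr]

theorem pr_eq_of {K : Submodule ℝ (L2 G)} {f u : L2 G} (hu : u ∈ K) (h : f - u ∈ Kᗮ) :
    pr K f = u := by
  simpa [pr] using Submodule.eq_starProjection_of_mem_orthogonal hu h

theorem inner_pr_left (K : Submodule ℝ (L2 G)) (f g : L2 G) :
    inner ℝ (pr K f) g = inner ℝ f (pr K g) := by
  have h1 : inner ℝ (pr K f) (g - pr K g) = 0 := (sub_pr_mem K g) _ (pr_mem K f)
  have h2 : inner ℝ (pr K g) (f - pr K f) = 0 := (sub_pr_mem K f) _ (pr_mem K g)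
  rw [inner_sub_right, sub_eq_zero] at h1 h2
  rw [h1, real_inner_comm, ← h2, real_inner_comm]

theorem pr_lt {K : Submodule ℝ (L2 G)} (hK : InvL K) (a : G) (f : L2 G) :
    pr K (lt a f) = lt a (pr K f) := by
  apply pr_eq_of (hK _ _ (pr_mem K f))
  rw [← map_sub]
  exact hK.orth _ _ (sub_pr_mem K f)

theorem pr_rt {K : Submodule ℝ (L2 G)} (hK : InvR K) (a : G) (f : L2 G) :
    pr K (rt a f) = rt a (pr K f) := by
  apply pr_eq_of (hK _ _ (pr_mem K f))
  rw [← map_sub]
  exact hK.orth _ _ (sub_pr_mem K f)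


theorem norm_sq_pr_add (K : Submodule ℝ (L2 G)) (f : L2 G) :
    ‖f‖ ^ 2 = ‖pr K f‖ ^ 2 + ‖f - pr K f‖ ^ 2 := by
  have h2 : inner ℝ (pr K f) (f - pr K f) = 0 := (sub_pr_mem K f) _ (pr_mem K f)
  have := norm_add_sq_real (pr K f) (f - pr K f)
  rw [h2] at this
  simpa using this

/-! ### convolutions -/

theorem cvH_apply' (j : H →* G) (e : H → ℝ) (f : L2 G) :
    cvH j e f = ∑ h, e h • lt (j h) f := by
  simp [cvH]

theorem cvH_apply (j : H →* G) (e : H → ℝ) (f : L2 G) (g : G) :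
    cvH j e f g = ∑ h, e h * f ((j h)⁻¹ * g) := by
  simp [cvH_apply']

theorem cv_apply' (F : G → ℝ) (f : L2 G) : cv F f = ∑ a, F a • lt a f := by
  simp [cv, cvH_apply']

theorem cv_apply (F : G → ℝ) (f : L2 G) (g : G) : cv F f g = ∑ a, F a * f (a⁻¹ * g) := by
  simp [cv, cvH_apply]

theorem cvH_rt (j : H →* G) (e : H → ℝ) (b : G) (f : L2 G) :
    cvH j e (rt b f) = rt b (cvH j e f) := by
  simp [cvH_apply', lt_rt]

theorem cv_rt (F : G → ℝ) (b : G) (f : L2 G) : cv F (rt b f) = rt b (cv F f) := cvH_rt _ _ _ _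

theorem cvH_mem {K : Submodule ℝ (L2 G)} (hK : InvL K) (j : H →* G) (e : H → ℝ) {f : L2 G}
    (hf : f ∈ K) : cvH j e f ∈ K := by
  rw [cvH_apply']
  exact K.sum_mem fun h _ => K.smul_mem _ (hK _ _ hf)

theorem cv_mem {K : Submodule ℝ (L2 G)} (hK : InvL K) (F : G → ℝ) {f : L2 G}
    (hf : f ∈ K) : cv F f ∈ K := cvH_mem hK _ _ hf

theorem pr_cvH {K : Submodule ℝ (L2 G)} (hK : InvL K) (j : H →* G) (e : H → ℝ) (f : L2 G) :
    pr K (cvH j e f) = cvH j e (pr K f) := by
  simp [cvH_apply', pr_lt hK]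

theorem pr_cv {K : Submodule ℝ (L2 G)} (hK : InvL K) (F : G → ℝ) (f : L2 G) :
    pr K (cv F f) = cv F (pr K f) := pr_cvH hK _ _ _

theorem norm_cvH_le (j : H →* G) (e : H → ℝ) (f : L2 G) :
    ‖cvH j e f‖ ≤ (∑ h, |e h|) * ‖f‖ := by
  rw [cvH_apply', Finset.sum_mul]
  refine (norm_sum_le _ _).trans (Finset.sum_le_sum fun h _ => ?_)
  rw [norm_smul, norm_lt, Real.norm_eq_abs]

theorem norm_cv_le (F : G → ℝ) (f : L2 G) : ‖cv F f‖ ≤ (∑ h, |F h|) * ‖f‖ := norm_cvH_le _ _ _

/-- adjoint of a convolution -/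
theorem inner_cvH (j : H →* G) (e : H → ℝ) (f g : L2 G) :
    inner ℝ (cvH j e f) g = inner ℝ f (cvH j (fun h => e h⁻¹) g) := by
  simp only [cvH_apply', sum_inner, inner_sum, inner_smul_left, inner_smul_right, inner_lt]
  rw [← Equiv.sum_comp (Equiv.inv H)]
  simp

/-- relation with restriction to cosets -/
theorem res_cvH (j : H →* G) (e : H → ℝ) (g : G) (f : L2 G) :
    res j g (cvH j e f) = cv e (res j g f) := by
  ext h
  simp [cvH_apply, cv_apply, mul_assoc]

theorem res_lt (j : H →* G) (h : H) (g : G) (f : L2 G) :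
    res j g (lt (j h) f) = lt h (res j g f) := by
  ext x; simp [mul_assoc]

theorem ext_res (j : H →* G) {f f' : L2 G} (h : ∀ g, res j g f = res j g f') : f = f' := by
  ext g
  have := congrArg (fun u : L2 H => u 1) (h g)
  simpa using this

/-- composition of two convolutions along homomorphisms with commuting ranges -/
theorem cvH_comm {H' : Type} [Group H'] [Fintype H'] [DecidableEq H'] (j : H →* G) (j' : H' →* G)
    (hc : ∀ h h', j h * j' h' = j' h' * j h) (e : H → ℝ) (e' : H' → ℝ) (f : L2 G) :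
    cvH j e (cvH j' e' f) = cvH j' e' (cvH j e f) := by
  simp only [cvH_apply', map_sum, map_smul, Finset.smul_sum]
  rw [Finset.sum_comm]
  refine Finset.sum_congr rfl fun h _ => Finset.sum_congr rfl fun h' _ => ?_
  rw [← lt_mul, ← lt_mul, hc, smul_comm]

/-! ### idempotents -/

/-- convolution by `idem I` is the projection onto `I` for right invariant `I`. -/
theorem cv_idem {I : Submodule ℝ (L2 G)} (hI : InvR I) (f : L2 G) : cv (idem I) f = pr I f := by
  conv_rhs => rw [eq_sum_dl f, map_sum]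
  have key : ∀ x : G, pr I (f x • dl x) = f x • rt x⁻¹ (pr I (dl 1)) := by
    intro x; rw [map_smul, ← pr_rt hI]; simp
  rw [Finset.sum_congr rfl fun x _ => key x]
  ext g
  rw [cv_apply]
  simp only [WithLp.ofLp_sum, WithLp.ofLp_smul, Finset.sum_apply, Pi.smul_apply,
    rt_apply, smul_eq_mul]
  rw [← Equiv.sum_comp ((Equiv.inv G).trans (Equiv.mulLeft g))]
  refine Finset.sum_congr rfl fun x _ => ?_
  simp [idem, mul_comm]

theorem idem_inv {I : Submodule ℝ (L2 G)} (hI : InvL I) (h : G) : idem I h⁻¹ = idem I h := by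
  unfold idem
  rw [← inner_dl h⁻¹ (pr I (dl 1)), ← inner_pr_left]
  have : pr I (dl h⁻¹) = lt h⁻¹ (pr I (dl 1)) := by rw [← pr_lt hI]; simp
  rw [this, inner_dl']; simp

/-- `card H * ∑ (idem I)^2 = dim I`. -/
theorem card_mul_sum_idem_sq {I : Submodule ℝ (L2 H)} (hI : InvL I) :
    (Fintype.card H : ℝ) * ∑ h, idem I h ^ 2 = Module.finrank ℝ I := by
  have h1 : ∑ h, idem I h ^ 2 = ‖pr I (dl 1)‖ ^ 2 := by rw [norm_sq_def]; rfl
  have h2 : ∀ h : H, ‖pr I (dl h)‖ ^ 2 = ‖pr I (dl 1)‖ ^ 2 := by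
    intro h
    have : pr I (dl h) = lt h (pr I (dl 1)) := by rw [← pr_lt hI]; simp
    rw [this, norm_lt]
  have h3 : ∑ h : H, ‖pr I (dl h)‖ ^ 2 = Module.finrank ℝ I := by
    let b := stdOrthonormalBasis ℝ I
    have h4 : ∀ h : H, ‖pr I (dl h)‖ ^ 2 = ∑ i, ((b i : L2 H) h) ^ 2 := by
      intro h
      have h5 : ‖pr I (dl h)‖ ^ 2 = ‖(⟨pr I (dl h), pr_mem _ _⟩ : I)‖ ^ 2 := rfl
      rw [h5, ← b.sum_sq_norm_inner_right]
      refine Finset.sum_congr rfl fun i _ => ?_
      have h6 : inner ℝ (b i) (⟨pr I (dl h), pr_mem _ _⟩ : I) = (b i : L2 H) h := by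
        change inner ℝ (b i : L2 H) (pr I (dl h)) = _
        rw [← inner_pr_left, pr_of_mem (b i).2, inner_dl']
      rw [h6]; simp
    rw [Finset.sum_congr rfl fun h _ => h4 h, Finset.sum_comm]
    have h7 : ∀ i, ∑ h, ((b i : L2 H) h) ^ 2 = 1 := by
      intro i
      rw [← norm_sq_def]
      have : ‖(b i : L2 H)‖ = 1 := b.orthonormal.1 i
      rw [this]; simp
    simp [h7]
  rw [h1, ← h3, Finset.sum_congr rfl fun h _ => h2 h]
  simp

theorem card_mul_norm_pr_dl {I : Submodule ℝ (L2 H)} (hI : InvL I) :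
    (Fintype.card H : ℝ) * ‖pr I (dl 1)‖ ^ 2 = Module.finrank ℝ I := by
  rw [← card_mul_sum_idem_sq hI, norm_sq_def]; rfl

/-- the convolution along `j` by `idem I` acts cosetwise as the projection onto `I`. -/
theorem res_cvH_idem (j : H →* G) {I : Submodule ℝ (L2 H)} (hI : InvR I) (g : G) (f : L2 G) :
    res j g (cvH j (idem I) f) = pr I (res j g f) := by
  rw [res_cvH, cv_idem hI]

theorem cvH_idem_idem (j : H →* G) {I : Submodule ℝ (L2 H)} (hI : InvR I) (f : L2 G) :
    cvH j (idem I) (cvH j (idem I) f) = cvH j (idem I) f := by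
  apply ext_res j
  intro g
  rw [res_cvH_idem j hI, res_cvH_idem j hI, pr_of_mem (pr_mem _ _)]

theorem inner_cvH_idem (j : H →* G) {I : Submodule ℝ (L2 H)} (hI : InvL I) (f g : L2 G) :
    inner ℝ (cvH j (idem I) f) g = inner ℝ f (cvH j (idem I) g) := by
  rw [inner_cvH]; simp [idem_inv hI]

/-- if every coset restriction of `f` is in `I` then the convolution by `idem I` fixes `f`. -/
theorem cvH_idem_of_res (j : H →* G) {I : Submodule ℝ (L2 H)} (hI : InvR I) {f : L2 G}
    (hf : ∀ g, res j g f ∈ I) : cvH j (idem I) f = f := by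
  apply ext_res j
  intro g
  rw [res_cvH_idem j hI, pr_of_mem (hf g)]


end

end Crest.Agent.R155
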