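import Crest.Agent.R155.DefsN

/-!
R155, Part N, task Chain: total variation of the marginals from the `ℓ²` distances of the conditional
laws of the next card.
-/

set_option autoImplicit false
set_option linter.unusedSectionVars false
set_option linter.unusedVariables false

namespace Crest.Agent.R155

open Finset Crest.ProbabilityR.Shuffle

/-- Initial state for environment `E` and next card at `y`: weight `1[p = y] - 1/(2m - |E|)`. -/
noncomputable def ini {m : ℕ} (E : Finset (Fin (2 * m))) (y : Fin (2 * m)) :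
    Fin (2 * m) → Option ℝ := fun p =>
  if p ∈ E then none else some ((if p = y then 1 else 0) - 1 / ((2 * m : ℕ) - (E.card : ℝ)))

theorem chn_stepPos_inj (m : ℕ) (c : Fin m → Bool) : Function.Injective (stepPos m c) := by
  intro x y h
  have hx := x.isLt
  have hy := y.isLt
  have hmx : x.val % m < m := Nat.mod_lt _ (by omega)
  have hmy : y.val % m < m := Nat.mod_lt _ (by omega)
  have hval : (stepPos m c x).val = (stepPos m c y).val := by rw [h]
  simp only [stepPos] at hval
  have hmod : x.val % m = y.val % m := by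
    split at hval <;> split at hval <;> omega
  have hc : c ⟨x.val % m, hmx⟩ = c ⟨y.val % m, hmy⟩ := by
    congr 1
    exact Fin.ext hmod
  rw [hc] at hval
  have hhalf : (m ≤ x.val) ↔ (m ≤ y.val) := by
    by_cases h1 : m ≤ x.val <;> by_cases h2 : m ≤ y.val <;>
      cases hcy : c ⟨y.val % m, hmy⟩ <;> simp [h1, h2, hcy] at hval ⊢ <;> omega
  apply Fin.ext
  have e1 := Nat.mod_add_div x.val m
  have e2 := Nat.mod_add_div y.val m
  have d1 : x.val / m < 2 := Nat.div_lt_of_lt_mul (by omega)
  have d2 : y.val / m < 2 := Nat.div_lt_of_lt_mul (by omega)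
  have hd : x.val / m = y.val / m := by
    have hm : 0 < m := by omega
    by_cases h1 : m ≤ x.val
    · have h2 := hhalf.1 h1
      have a1 : 1 ≤ x.val / m := (Nat.le_div_iff_mul_le hm).2 (by omega)
      have a2 : 1 ≤ y.val / m := (Nat.le_div_iff_mul_le hm).2 (by omega)
      omega
    · have h2 : ¬ m ≤ y.val := fun h => h1 (hhalf.2 h)
      rw [Nat.div_eq_of_lt (by omega), Nat.div_eq_of_lt (by omega)]
  rw [← e1, ← e2, hmod, hd]

theorem chn_iterPos_inj (m : ℕ) : ∀ (t : ℕ) (cs : Fin t → Fin m → Bool),
    Function.Injective (iterPos m t cs)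
  | 0, _ => fun _ _ h => h
  | t + 1, cs => fun _ _ h =>
      chn_iterPos_inj m t (fun i => cs i.castSucc) (chn_stepPos_inj m (cs (Fin.last t)) h)

/-- number of the pair landing at `p` -/
def chnU {m : ℕ} (p : Fin (2 * m)) : Fin m := ⟨p.val / 2, by have := p.isLt; omega⟩

/-- lower position of the pair landing at `p` -/
def chnLo {m : ℕ} (p : Fin (2 * m)) : Fin (2 * m) := ⟨p.val / 2, by have := p.isLt; omega⟩

/-- upper position of the pair landing at `p` -/
def chnHi {m : ℕ} (p : Fin (2 * m)) : Fin (2 * m) := ⟨p.val / 2 + m, by have := p.isLt; omega⟩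

/-- the position going to `p` -/
def chnPre {m : ℕ} (c : Fin m → Bool) (p : Fin (2 * m)) : Fin (2 * m) :=
  if c (chnU p) = decide (p.val % 2 = 1) then chnLo p else chnHi p

theorem chn_stepPos_of {m : ℕ} (c : Fin m → Bool) (a : Fin (2 * m)) (u : Fin m)
    (hu : a.val % m = u.val) (b : Bool) (hb : decide (m ≤ a.val) = b) :
    (stepPos m c a).val = 2 * u.val + (if xor b (c u) then 1 else 0) := by
  rcases u with ⟨u, hu'⟩
  simp only at hu
  subst hu
  subst hb
  rfl

theorem chn_stepPos_pre {m : ℕ} (c : Fin m → Bool) (p : Fin (2 * m)) :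
    stepPos m c (chnPre c p) = p := by
  have hp := p.isLt
  have hu : p.val / 2 < m := by omega
  have h1 : (p.val / 2) % m = p.val / 2 := Nat.mod_eq_of_lt hu
  have h2 : (p.val / 2 + m) % m = p.val / 2 := by rw [Nat.add_mod_right, h1]
  apply Fin.ext
  unfold chnPre
  by_cases hc : c (chnU p) = decide (p.val % 2 = 1)
  · rw [if_pos hc, chn_stepPos_of c (chnLo p) (chnU p) h1 false
      (by rw [decide_eq_false_iff_not]; show ¬ (m ≤ p.val / 2); omega), hc]
    show 2 * (p.val / 2) + _ = p.val
    by_cases hb : p.val % 2 = 1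
    · simp [hb]; omega
    · simp [hb]; omega
  · have h5 : c (chnU p) = !(decide (p.val % 2 = 1)) := by
      cases hcc : c (chnU p) <;> cases hd : decide (p.val % 2 = 1) <;> simp_all
    rw [if_neg hc, chn_stepPos_of c (chnHi p) (chnU p) h2 true
      (by rw [decide_eq_true_iff]; show m ≤ p.val / 2 + m; omega), h5]
    show 2 * (p.val / 2) + _ = p.val
    by_cases hb : p.val % 2 = 1
    · simp [hb]; omega
    · simp [hb]; omega

theorem chn_stepPos_eq_iff {m : ℕ} (c : Fin m → Bool) (a p : Fin (2 * m)) :
    stepPos m c a = p ↔ a = chnPre c p := by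
  constructor
  · intro h
    apply chn_stepPos_inj m c
    rw [h, chn_stepPos_pre]
  · rintro rfl
    exact chn_stepPos_pre c p

theorem chn_stStep {β : Type} (f : β → β → Bool → β × β) (m : ℕ) (c : Fin m → Bool)
    (s : Fin (2 * m) → β) (p : Fin (2 * m)) :
    stStep f m c s p =
      if p.val % 2 = 1 then (f (s (chnLo p)) (s (chnHi p)) (c (chnU p))).2
      else (f (s (chnLo p)) (s (chnHi p)) (c (chnU p))).1 := rfl

/-- if not both contents are free, the content at `p` comes from `pre p`. -/
theorem chn_step_notfree {m : ℕ} (c : Fin m → Bool) (w : Fin (2 * m) → Option ℝ)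
    (p : Fin (2 * m)) (h : w (chnLo p) = none ∨ w (chnHi p) = none) :
    stStep mg m c w p = w (chnPre c p) := by
  rw [chn_stStep]
  unfold chnPre
  rcases h with h | h
  · rw [h]
    cases hw : w (chnHi p) with
    | none =>
      by_cases hb : p.val % 2 = 1 <;> cases hc : c (chnU p) <;> simp [hb, mg, h, hw]
    | some b =>
      by_cases hb : p.val % 2 = 1 <;> cases hc : c (chnU p) <;> simp [hb, mg, h, hw]
  · rw [h]
    cases hw : w (chnLo p) with
    | none =>
      by_cases hb : p.val % 2 = 1 <;> cases hc : c (chnU p) <;> simp [hb, mg, h, hw]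
    | some b =>
      by_cases hb : p.val % 2 = 1 <;> cases hc : c (chnU p) <;> simp [hb, mg, h, hw]

/-- flip a coin -/
def chnFlip {m : ℕ} (u : Fin m) (c : Fin m → Bool) : Fin m → Bool :=
  Function.update c u (!(c u))

theorem chn_flip_flip {m : ℕ} (u : Fin m) (c : Fin m → Bool) :
    chnFlip u (chnFlip u c) = c := by
  unfold chnFlip
  simp

theorem chn_sum_flip {m : ℕ} (u : Fin m) (X : (Fin m → Bool) → ℝ) :
    ∑ c, X (chnFlip u c) = ∑ c, X c :=
  Fintype.sum_bijective (chnFlip u) (Function.Involutive.bijective (chn_flip_flip u)) _ _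
    (fun _ => rfl)

theorem chn_val_pre_add {m : ℕ} (c : Fin m → Bool) (w : Fin (2 * m) → Option ℝ)
    (p : Fin (2 * m)) :
    val (w (chnPre c p)) + val (w (chnPre (chnFlip (chnU p) c) p)) =
      val (w (chnLo p)) + val (w (chnHi p)) := by
  unfold chnPre chnFlip
  cases hc : c (chnU p) <;> by_cases hb : p.val % 2 = 1 <;> simp [hb, add_comm]

theorem chn_stepPos_flip {m : ℕ} (c : Fin m → Bool) (p a : Fin (2 * m))
    (h1 : a ≠ chnLo p) (h2 : a ≠ chnHi p) :
    stepPos m (chnFlip (chnU p) c) a = stepPos m c a := by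
  have ha := a.isLt
  have hp := p.isLt
  have hne : (⟨a.val % m, Nat.mod_lt _ (by omega)⟩ : Fin m) ≠ chnU p := by
    intro h
    have h3 : a.val % m = p.val / 2 := congrArg Fin.val h
    by_cases h4 : a.val < m
    · apply h1
      apply Fin.ext
      rw [Nat.mod_eq_of_lt h4] at h3
      exact h3
    · apply h2
      apply Fin.ext
      have h5 : a.val % m = a.val - m := by
        rw [Nat.mod_eq_sub_mod (by omega), Nat.mod_eq_of_lt (by omega)]
      show a.val = p.val / 2 + m
      omega
  apply Fin.ext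
  have hmod : a.val % m < m := Nat.mod_lt _ (by omega)
  rw [chn_stepPos_of _ a ⟨a.val % m, hmod⟩ rfl _ rfl, chn_stepPos_of c a ⟨a.val % m, hmod⟩ rfl _ rfl]
  unfold chnFlip
  rw [Function.update_of_ne hne]

/-- one-step identity -/
theorem chn_one_step {m : ℕ} {ι : Type} (a : ι → Fin (2 * m)) (w : Fin (2 * m) → Option ℝ)
    (ha : ∀ i, w (a i) = none) (G : (ι → Fin (2 * m)) → ℝ) (p : Fin (2 * m)) :
    ∑ c : Fin m → Bool, G (fun i => stepPos m c (a i)) * val (stStep mg m c w p) =
      ∑ c : Fin m → Bool, G (fun i => stepPos m c (a i)) * val (w (chnPre c p)) := by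
  by_cases h : w (chnLo p) = none ∨ w (chnHi p) = none
  · exact Finset.sum_congr rfl fun c _ => by rw [chn_step_notfree c w p h]
  · push Not at h
    obtain ⟨h1, h2⟩ := h
    obtain ⟨α, hα⟩ := Option.ne_none_iff_exists'.1 h1
    obtain ⟨β, hβ⟩ := Option.ne_none_iff_exists'.1 h2
    have hst : ∀ c : Fin m → Bool, val (stStep mg m c w p) = (α + β) / 2 := by
      intro c
      rw [chn_stStep, hα, hβ]
      by_cases hb : p.val % 2 = 1 <;> simp [hb, mg, val]
    have hG : ∀ c : Fin m → Bool, G (fun i => stepPos m (chnFlip (chnU p) c) (a i)) =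
        G (fun i => stepPos m c (a i)) := by
      intro c
      congr 1
      funext i
      apply chn_stepPos_flip
      · intro h; rw [← h] at h1; exact h1 (ha i)
      · intro h; rw [← h] at h2; exact h2 (ha i)
    have hsum : ∑ c : Fin m → Bool, G (fun i => stepPos m c (a i)) * val (w (chnPre c p)) =
        ∑ c : Fin m → Bool, G (fun i => stepPos m c (a i)) *
          val (w (chnPre (chnFlip (chnU p) c) p)) := by
      rw [← chn_sum_flip (chnU p)]
      exact Finset.sum_congr rfl fun c _ => by rw [hG]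
    have h2' : 2 * ∑ c : Fin m → Bool, G (fun i => stepPos m c (a i)) * val (w (chnPre c p)) =
        2 * ∑ c : Fin m → Bool, G (fun i => stepPos m c (a i)) * val (stStep mg m c w p) := by
      rw [two_mul]
      nth_rewrite 2 [hsum]
      rw [← Finset.sum_add_distrib, Finset.mul_sum]
      refine Finset.sum_congr rfl fun c _ => ?_
      rw [← mul_add, chn_val_pre_add, hst, hα, hβ]
      simp only [val, Option.getD_some]
      ring
    linarith

theorem chn_sum_snoc {A : Type} [Fintype A] (T : ℕ) (X : (Fin (T + 1) → A) → ℝ) :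
    ∑ cs, X cs = ∑ cs' : Fin T → A, ∑ c : A, X (Fin.snoc (α := fun _ => A) cs' c) := by
  rw [← (Fin.snocEquiv (fun _ : Fin (T + 1) => A)).sum_comp, Fintype.sum_prod_type,
    Finset.sum_comm]
  rfl

theorem chn_stRun_snoc {β : Type} (f : β → β → Bool → β × β) (m T : ℕ)
    (cs : Fin T → Fin m → Bool) (c : Fin m → Bool) (s : Fin (2 * m) → β) :
    stRun f m (T + 1) (Fin.snoc (α := fun _ => Fin m → Bool) cs c) s =
      stStep f m c (stRun f m T cs s) := by
  simp only [stRun, Fin.snoc_last, Fin.snoc_castSucc]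

theorem chn_iterPos_snoc (m T : ℕ) (cs : Fin T → Fin m → Bool) (c : Fin m → Bool)
    (x : Fin (2 * m)) :
    iterPos m (T + 1) (Fin.snoc (α := fun _ => Fin m → Bool) cs c) x =
      stepPos m c (iterPos m T cs x) := by
  simp only [iterPos, Fin.snoc_last, Fin.snoc_castSucc]

theorem chn_none (m : ℕ) (s : Fin (2 * m) → Option ℝ) (x : Fin (2 * m)) (hx : s x = none) :
    ∀ (T : ℕ) (cs : Fin T → Fin m → Bool), stRun mg m T cs s (iterPos m T cs x) = none
  | 0, _ => hx
  | T + 1, cs => by
    have ih := chn_none m s x hx T (fun i => cs i.castSucc)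
    simp only [stRun, iterPos]
    set a := iterPos m T (fun i => cs i.castSucc) x
    set w := stRun mg m T (fun i => cs i.castSucc) s
    set c := cs (Fin.last T)
    have h1 : a = chnPre c (stepPos m c a) := (chn_stepPos_eq_iff c a _).1 rfl
    rw [chn_step_notfree, ← h1, ih]
    by_contra hcon
    push Not at hcon
    rw [h1] at ih
    unfold chnPre at ih
    split at ih
    · exact hcon.1 ih
    · exact hcon.2 ih

/-- conditional law of the free cards given the environment -/
theorem chn_cond {m : ℕ} {ι : Type} (s : Fin (2 * m) → Option ℝ) (x : ι → Fin (2 * m))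
    (hx : ∀ i, s (x i) = none) : ∀ (T : ℕ) (G : (ι → Fin (2 * m)) → ℝ) (p : Fin (2 * m)),
    ∑ cs : Fin T → Fin m → Bool,
      G (fun i => iterPos m T cs (x i)) * val (stRun mg m T cs s p) =
    ∑ cs : Fin T → Fin m → Bool,
      G (fun i => iterPos m T cs (x i)) *
        ∑ q, if iterPos m T cs q = p then val (s q) else 0
  | 0, G, p => by
    refine Finset.sum_congr rfl fun cs _ => ?_
    have h : ∑ q, (if iterPos m 0 cs q = p then val (s q) else 0) = val (s p) := by
      exact (Finset.sum_eq_single p (fun q _ hq => if_neg hq)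
        (fun h => absurd (Finset.mem_univ _) h)).trans (if_pos rfl)
    rw [h]
    rfl
  | T + 1, G, p => by
    rw [chn_sum_snoc, chn_sum_snoc]
    have h1 : ∀ cs' : Fin T → Fin m → Bool, ∑ c : Fin m → Bool,
        G (fun i => iterPos m (T + 1) (Fin.snoc (α := fun _ => Fin m → Bool) cs' c) (x i)) *
          val (stRun mg m (T + 1) (Fin.snoc (α := fun _ => Fin m → Bool) cs' c) s p) =
        ∑ c : Fin m → Bool, G (fun i => stepPos m c (iterPos m T cs' (x i))) *
          val (stRun mg m T cs' s (chnPre c p)) := by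
      intro cs'
      rw [← chn_one_step (fun i => iterPos m T cs' (x i)) (stRun mg m T cs' s)
        (fun i => chn_none m s (x i) (hx i) T cs') G p]
      refine Finset.sum_congr rfl fun c _ => ?_
      rw [chn_stRun_snoc]
      simp only [chn_iterPos_snoc]
    simp_rw [h1]
    rw [Finset.sum_comm]
    conv_rhs => rw [Finset.sum_comm]
    refine Finset.sum_congr rfl fun c _ => ?_
    rw [chn_cond s x hx T (fun a => G (fun i => stepPos m c (a i))) (chnPre c p)]
    refine Finset.sum_congr rfl fun cs' _ => ?_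
    simp only [chn_iterPos_snoc, chn_stepPos_eq_iff]


theorem chn_avg_sum {Ω ι : Type} [Fintype Ω] (s : Finset ι) (X : ι → Ω → ℝ) :
    avg (fun ω => ∑ i ∈ s, X i ω) = ∑ i ∈ s, avg (X i) := by
  unfold avg
  rw [Finset.sum_comm, Finset.sum_div]

theorem chn_avg_abs {Ω : Type} [Fintype Ω] (X : Ω → ℝ) : |avg X| ≤ avg (fun ω => |X ω|) := by
  unfold avg
  rw [abs_div, Nat.abs_cast]
  exact div_le_div_of_nonneg_right (Finset.abs_sum_le_sum_abs _ _) (Nat.cast_nonneg _)

/-- Jensen for the square root of a sum of squares. -/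
theorem chn_avg_sqrt {Ω ι : Type} [Fintype Ω] [Fintype ι] (X : Ω → ι → ℝ) (V : ℝ) (hV0 : 0 ≤ V)
    (hV : avg (fun ω => ∑ i, X ω i ^ 2) ≤ V) :
    avg (fun ω => ∑ i, |X ω i|) ≤ Real.sqrt (Fintype.card ι * V) := by
  apply Real.le_sqrt_of_sq_le
  unfold avg at *
  by_cases hΩ : (Fintype.card Ω : ℝ) = 0
  · rw [hΩ]
    simp only [div_zero]
    rw [zero_pow two_ne_zero]
    positivity
  have hpos : (0 : ℝ) < Fintype.card Ω := lt_of_le_of_ne (Nat.cast_nonneg _) (Ne.symm hΩ)
  have h1 : (∑ ω, ∑ i, |X ω i|) ^ 2 ≤ Fintype.card Ω * ∑ ω, (∑ i, |X ω i|) ^ 2 := by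
    have := sq_sum_le_card_mul_sum_sq (s := (Finset.univ : Finset Ω)) (f := fun ω => ∑ i, |X ω i|)
    simpa using this
  have h2 : ∀ ω, (∑ i, |X ω i|) ^ 2 ≤ Fintype.card ι * ∑ i, X ω i ^ 2 := by
    intro ω
    have := sq_sum_le_card_mul_sum_sq (s := (Finset.univ : Finset ι)) (f := fun i => |X ω i|)
    simpa using this
  have h3 : (∑ ω, ∑ i, |X ω i|) ^ 2 ≤
      Fintype.card Ω * (Fintype.card ι * ∑ ω, ∑ i, X ω i ^ 2) := by
    refine h1.trans (mul_le_mul_of_nonneg_left ?_ hpos.le)
    rw [Finset.mul_sum]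
    exact Finset.sum_le_sum fun ω _ => h2 ω
  have h4 : ∑ ω, ∑ i, X ω i ^ 2 ≤ V * Fintype.card Ω := (div_le_iff₀ hpos).1 hV
  rw [div_pow, div_le_iff₀ (by positivity)]
  calc (∑ ω, ∑ i, |X ω i|) ^ 2 ≤ Fintype.card Ω * (Fintype.card ι * ∑ ω, ∑ i, X ω i ^ 2) := h3
    _ ≤ Fintype.card Ω * (Fintype.card ι * (V * Fintype.card Ω)) := by gcongr
    _ = Fintype.card ι * V * (Fintype.card Ω : ℝ) ^ 2 := by ring

/-- the law of the first `k` cards -/
noncomputable def chnP (m T : ℕ) {k : ℕ} (x : Fin k → Fin (2 * m)) (z : Fin k → Fin (2 * m)) : ℝ :=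
  avg (fun cs : Fin T → Fin m → Bool => if (∀ i, iterPos m T cs (x i) = z i) then 1 else 0)

/-- the uniform law -/
noncomputable def chnQ (m : ℕ) {k : ℕ} (z : Fin k → Fin (2 * m)) : ℝ :=
  if Function.Injective z then
          (((2 * m - k).factorial : ℝ) / ((2 * m).factorial : ℝ)) else 0

theorem chn_key (m T : ℕ) {k : ℕ} (hk : k + 1 ≤ 2 * m) (x : Fin (k + 1) ↪ Fin (2 * m))
    (z : Fin k → Fin (2 * m)) (p : Fin (2 * m)) :
    chnP m T x (Fin.snoc (α := fun _ => Fin (2 * m)) z p) -
      chnQ m (Fin.snoc (α := fun _ => Fin (2 * m)) z p) =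
    avg (fun cs : Fin T → Fin m → Bool =>
      (if (fun i : Fin k => iterPos m T cs (x i.castSucc)) = z then 1 else 0) *
        val (stRun mg m T cs (ini (Finset.univ.image (fun i : Fin k => x i.castSucc))
          (x (Fin.last k))) p)) +
    (if p ∈ Set.range z then 0 else 1 / ((2 * m : ℕ) - (k : ℝ)) *
      (chnP m T (fun i => x i.castSucc) z - chnQ m z)) := by
  classical
  set E : Finset (Fin (2 * m)) := Finset.univ.image (fun i : Fin k => x i.castSucc) with hE
  set y := x (Fin.last k) with hy
  have hEcard : E.card = k := by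
    rw [hE, Finset.card_image_of_injective _ (fun a b h => Fin.castSucc_injective k (x.injective h)),
      Finset.card_univ, Fintype.card_fin]
  have hyE : y ∉ E := by
    intro h
    obtain ⟨i, _, hi⟩ := Finset.mem_image.1 h
    exact (Fin.castSucc_lt_last i).ne (x.injective hi)
  set c : ℝ := 1 / ((2 * m : ℕ) - (k : ℝ)) with hc
  -- the law
  have hcond := chn_cond (ini E y) (fun i : Fin k => x i.castSucc)
    (fun i => if_pos (Finset.mem_image_of_mem _ (Finset.mem_univ i))) T
    (fun a => if a = z then 1 else 0) p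
  have hpt : ∀ cs : Fin T → Fin m → Bool,
      (if (fun i : Fin k => iterPos m T cs (x i.castSucc)) = z then (1 : ℝ) else 0) *
        (∑ q, if iterPos m T cs q = p then val (ini E y q) else 0) =
      (if (∀ i, iterPos m T cs (x i) = (Fin.snoc (α := fun _ => Fin (2 * m)) z p :
        Fin (k + 1) → Fin (2 * m)) i) then 1 else 0) -
      (if p ∈ Set.range z then 0 else c) *
        (if (∀ i : Fin k, iterPos m T cs (x i.castSucc) = z i) then 1 else 0) := by
    intro cs
    have hinj := chn_iterPos_inj m T cs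
    have hbij := Finite.injective_iff_bijective.1 hinj
    obtain ⟨q0, hq0⟩ := hbij.2 p
    have hsum : (∑ q, if iterPos m T cs q = p then val (ini E y q) else 0) = val (ini E y q0) := by
      rw [Finset.sum_eq_single q0 (fun q _ hq => if_neg (fun h => hq (hinj (h.trans hq0.symm))))
        (fun h => absurd (Finset.mem_univ _) h)]
      exact if_pos hq0
    have hiff : (∀ i, iterPos m T cs (x i) = (Fin.snoc (α := fun _ => Fin (2 * m)) z p :
        Fin (k + 1) → Fin (2 * m)) i) ↔
        (∀ i : Fin k, iterPos m T cs (x i.castSucc) = z i) ∧ q0 = y := by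
      rw [Fin.forall_fin_succ']
      simp only [Fin.snoc_castSucc, Fin.snoc_last]
      constructor
      · rintro ⟨h1, h2⟩
        exact ⟨h1, hinj (hq0.trans h2.symm)⟩
      · rintro ⟨h1, h2⟩
        refine ⟨h1, ?_⟩
        rw [← hy, ← h2, hq0]
    rw [hsum]
    by_cases hz : (fun i : Fin k => iterPos m T cs (x i.castSucc)) = z
    · have hz' : ∀ i : Fin k, iterPos m T cs (x i.castSucc) = z i := fun i => congrFun hz i
      rw [if_pos hz, if_pos hz', one_mul, mul_one]
      have hr : q0 ∈ E ↔ p ∈ Set.range z := by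
        rw [hE, Finset.mem_image]
        constructor
        · rintro ⟨i, _, hi⟩
          exact ⟨i, by rw [← hz' i, hi, hq0]⟩
        · rintro ⟨i, hi⟩
          refine ⟨i, Finset.mem_univ _, hinj ?_⟩
          rw [hq0, hz' i, hi]
      by_cases hp : p ∈ Set.range z
      · have h1 : ini E y q0 = none := if_pos (hr.2 hp)
        have h2 : q0 ≠ y := fun h => hyE (h ▸ hr.2 hp)
        rw [h1, if_pos hp, if_neg (fun h => h2 (hiff.1 h).2)]
        simp [val]
      · have h1 : ini E y q0 = some ((if q0 = y then 1 else 0) - 1 / ((2 * m : ℕ) - (E.card : ℝ))) :=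
          if_neg (fun h => hp (hr.1 h))
        rw [h1, if_neg hp, hEcard]
        simp only [val, Option.getD_some]
        congr 1
        by_cases h2 : q0 = y
        · rw [if_pos h2, if_pos (hiff.2 ⟨hz', h2⟩)]
        · rw [if_neg h2, if_neg (fun h => h2 (hiff.1 h).2)]
    · have hz' : ¬ ∀ i : Fin k, iterPos m T cs (x i.castSucc) = z i := fun h => hz (funext h)
      rw [if_neg hz, if_neg hz', if_neg (fun h => hz' (hiff.1 h).1)]
      ring
  have hP : avg (fun cs : Fin T → Fin m → Bool =>
      (if (fun i : Fin k => iterPos m T cs (x i.castSucc)) = z then 1 else 0) *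
        val (stRun mg m T cs (ini E y) p)) =
      chnP m T x (Fin.snoc (α := fun _ => Fin (2 * m)) z p) -
        (if p ∈ Set.range z then 0 else c) * chnP m T (fun i => x i.castSucc) z := by
    unfold chnP avg
    rw [hcond, Finset.sum_congr rfl fun cs _ => hpt cs, Finset.sum_sub_distrib, ← Finset.mul_sum,
      sub_div, mul_div_assoc]
  have hQ : chnQ m (Fin.snoc (α := fun _ => Fin (2 * m)) z p) =
      (if p ∈ Set.range z then 0 else c) * chnQ m z := by
    unfold chnQ
    by_cases hp : p ∈ Set.range z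
    · rw [if_neg (fun h => (Fin.snoc_injective_iff.1 h).2 hp), if_pos hp, zero_mul]
    · rw [if_neg hp]
      by_cases hz : Function.Injective z
      · rw [if_pos (Fin.snoc_injective_iff.2 ⟨hz, hp⟩), if_pos hz]
        have h1 : 2 * m - k = (2 * m - (k + 1)) + 1 := by omega
        have h2 : ((2 * m - k).factorial : ℝ) =
            ((2 * m : ℕ) - (k : ℝ)) * ((2 * m - (k + 1)).factorial : ℝ) := by
          rw [h1, Nat.factorial_succ, Nat.cast_mul]
          congr 1
          rw [← h1, Nat.cast_sub (by omega)]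
        have h3 : ((2 * m : ℕ) - (k : ℝ)) ≠ 0 := by
          rw [sub_ne_zero]
          intro h
          have : 2 * m = k := by exact_mod_cast h
          omega
        rw [h2, hc]
        field_simp
      · rw [if_neg (fun h => hz (Fin.snoc_injective_iff.1 h).1), if_neg hz, mul_zero]
  rw [hP, hQ]
  by_cases hp : p ∈ Set.range z
  · simp [hp]
  · simp only [hp, if_false]
    ring

theorem chn_step (m T : ℕ) {k : ℕ} (hk : k + 1 ≤ 2 * m) (V : ℝ) (hV0 : 0 ≤ V)
    (hV : ∀ E : Finset (Fin (2 * m)), E.card < k + 1 → ∀ y, y ∉ E →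
      avg (fun cs : Fin T → Fin m → Bool => ∑ p, val (stRun mg m T cs (ini E y) p) ^ 2) ≤ V)
    (x : Fin (k + 1) ↪ Fin (2 * m)) :
    ∑ z : Fin (k + 1) → Fin (2 * m), |chnP m T x z - chnQ m z| ≤ Real.sqrt (2 * m * V) +
      ∑ z : Fin k → Fin (2 * m), |chnP m T (fun i => x i.castSucc) z - chnQ m z| := by
  classical
  set E : Finset (Fin (2 * m)) := Finset.univ.image (fun i : Fin k => x i.castSucc) with hE
  set y := x (Fin.last k) with hy
  have hEcard : E.card = k := by
    rw [hE, Finset.card_image_of_injective _ (fun a b h => Fin.castSucc_injective k (x.injective h)),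
      Finset.card_univ, Fintype.card_fin]
  have hyE : y ∉ E := by
    intro h
    obtain ⟨i, _, hi⟩ := Finset.mem_image.1 h
    exact (Fin.castSucc_lt_last i).ne (x.injective hi)
  set c : ℝ := 1 / ((2 * m : ℕ) - (k : ℝ)) with hc
  have hc0 : 0 < (2 * m : ℕ) - (k : ℝ) := by
    rw [sub_pos]
    exact_mod_cast (by omega : k < 2 * m)
  have hcpos : 0 < c := by rw [hc]; positivity
  rw [chn_sum_snoc]
  have hterm : ∀ (z : Fin k → Fin (2 * m)) (p : Fin (2 * m)),
      |chnP m T x (Fin.snoc (α := fun _ => Fin (2 * m)) z p) -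
        chnQ m (Fin.snoc (α := fun _ => Fin (2 * m)) z p)| ≤
      avg (fun cs : Fin T → Fin m → Bool =>
        (if (fun i : Fin k => iterPos m T cs (x i.castSucc)) = z then 1 else 0) *
          |val (stRun mg m T cs (ini E y) p)|) +
      (if p ∈ Set.range z then 0 else c * |chnP m T (fun i => x i.castSucc) z - chnQ m z|) := by
    intro z p
    rw [chn_key m T hk x z p]
    refine (abs_add_le _ _).trans (add_le_add ?_ ?_)
    · refine (chn_avg_abs _).trans (le_of_eq ?_)
      congr 1
      funext cs
      rw [abs_mul]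
      congr 1
      split <;> simp
    · split
      · simp
      · rw [abs_mul, abs_of_pos hcpos]
  refine (Finset.sum_le_sum fun z _ => Finset.sum_le_sum fun p _ => hterm z p).trans ?_
  simp_rw [Finset.sum_add_distrib]
  refine add_le_add ?_ (Finset.sum_le_sum fun z _ => ?_)
  · have h1 : ∑ z : Fin k → Fin (2 * m), ∑ p, avg (fun cs : Fin T → Fin m → Bool =>
        (if (fun i : Fin k => iterPos m T cs (x i.castSucc)) = z then 1 else 0) *
          |val (stRun mg m T cs (ini E y) p)|) =
        avg (fun cs : Fin T → Fin m → Bool => ∑ p, |val (stRun mg m T cs (ini E y) p)|) := by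
      rw [Finset.sum_comm, chn_avg_sum]
      refine Finset.sum_congr rfl fun p _ => ?_
      rw [← chn_avg_sum]
      congr 1
      funext cs
      rw [← Finset.sum_mul]
      simp
    rw [h1]
    have h2 := chn_avg_sqrt (fun (cs : Fin T → Fin m → Bool) (p : Fin (2 * m)) =>
      val (stRun mg m T cs (ini E y) p)) V hV0 (hV E (by omega) y hyE)
    have h3 : (Fintype.card (Fin (2 * m)) : ℝ) = 2 * m := by
      rw [Fintype.card_fin]; push_cast; ring
    rw [h3] at h2
    exact h2
  · by_cases hz : Function.Injective z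
    · have h1 : ∑ p, (if p ∈ Set.range z then 0 else
          c * |chnP m T (fun i => x i.castSucc) z - chnQ m z|) =
          ((2 * m : ℕ) - (k : ℝ)) * (c * |chnP m T (fun i => x i.castSucc) z - chnQ m z|) := by
        have h2 : ∀ p, (if p ∈ Set.range z then 0 else
          c * |chnP m T (fun i => x i.castSucc) z - chnQ m z|) =
          (if p ∈ (Finset.univ.image z)ᶜ then
            c * |chnP m T (fun i => x i.castSucc) z - chnQ m z| else 0) := by
          intro p
          have h3 : p ∈ (Finset.univ.image z)ᶜ ↔ ¬ p ∈ Set.range z := by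
            simp
          by_cases h4 : p ∈ Set.range z
          · rw [if_pos h4, if_neg (fun h => h3.1 h h4)]
          · rw [if_neg h4, if_pos (h3.2 h4)]
        rw [Finset.sum_congr rfl fun p _ => h2 p, Finset.sum_ite_mem, Finset.univ_inter,
          Finset.sum_const, nsmul_eq_mul, Finset.card_compl,
          Finset.card_image_of_injective _ hz, Finset.card_univ, Fintype.card_fin,
          Fintype.card_fin, Nat.cast_sub (by omega)]
      rw [h1, hc, ← mul_assoc, mul_one_div_cancel hc0.ne', one_mul]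
    · have h1 : chnP m T (fun i => x i.castSucc) z = 0 := by
        unfold chnP avg
        rw [Finset.sum_eq_zero, zero_div]
        intro cs _
        rw [if_neg]
        intro h
        apply hz
        intro a b hab
        rw [← h a, ← h b] at hab
        exact Fin.castSucc_injective k (x.injective (chn_iterPos_inj m T cs hab))
      have h2 : chnQ m z = 0 := if_neg hz
      rw [h1, h2]
      simp

/-- Let `x : Fin k → positions` be injective, `E_i = {x 0, …, x (i-1)}`,
`P^i(z) = P(σ x_t = z_t for t < i)`. With the state `w = stRun mg m T cs (ini E_i (x i))`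
(so `none` exactly on `σ(E_i)`, weights `p - 1/(2m-i)`), for all `z` and `y`:
`P(σ x_{<i} = z, σ x_i = y) = E [1(σ x_{<i} = z) (val (w y) + 1/(2m-i))]` if `y ∉ range z`, by
induction on `T` (average over the last row of coins; flipping the coin of a pair of free
positions does not change the positions of the environment). Hence
`‖P^{i+1} - U^{i+1}‖₁ ≤ E ∑_y |val (w y)| + ‖P^i - U^i‖₁ ≤ √(2m V) + ‖P^i - U^i‖₁`. -/
theorem chain (m T k : ℕ) (hk : k ≤ 2 * m) (V : ℝ) (hV0 : 0 ≤ V)
    (hV : ∀ E : Finset (Fin (2 * m)), E.card < k → ∀ y, y ∉ E →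
      avg (fun cs : Fin T → Fin m → Bool => ∑ p, val (stRun mg m T cs (ini E y) p) ^ 2) ≤ V)
    (x : Fin k ↪ Fin (2 * m)) :
    ∑ z : Fin k → Fin (2 * m),
      |avg (fun cs : Fin T → Fin m → Bool => if (∀ i, iterPos m T cs (x i) = z i) then 1 else 0) -
        (if Function.Injective z then
          (((2 * m - k).factorial : ℝ) / ((2 * m).factorial : ℝ)) else 0)| ≤
      (k : ℝ) * Real.sqrt (2 * m * V) := by
  change ∑ z : Fin k → Fin (2 * m), |chnP m T x z - chnQ m z| ≤ (k : ℝ) * Real.sqrt (2 * m * V)
  induction k with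
  | zero =>
    have h1 : ∀ z : Fin 0 → Fin (2 * m), |chnP m T x z - chnQ m z| = 0 := by
      intro z
      have h2 : chnP m T x z = 1 := by
        unfold chnP avg
        rw [Finset.sum_congr rfl fun cs _ => if_pos (fun i : Fin 0 => i.elim0)]
        rw [Finset.sum_const, nsmul_eq_mul, mul_one, Finset.card_univ, div_self]
        exact_mod_cast Fintype.card_ne_zero
      have h3 : chnQ m z = 1 := by
        unfold chnQ
        rw [if_pos (Function.injective_of_subsingleton z), Nat.sub_zero, div_self]
        exact_mod_cast (Nat.factorial_pos _).ne'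
      rw [h2, h3, sub_self, abs_zero]
    rw [Finset.sum_congr rfl fun z _ => h1 z]
    simp
  | succ k ih =>
    have h1 := chn_step m T hk V hV0 hV x
    have h2 := ih (by omega) (fun E hE y hy => hV E (by omega) y hy)
      ⟨fun i => x i.castSucc, fun a b h => Fin.castSucc_injective k (x.injective h)⟩
    have h3 : ∑ z : Fin k → Fin (2 * m), |chnP m T (fun i => x i.castSucc) z - chnQ m z| ≤
        (k : ℝ) * Real.sqrt (2 * m * V) := h2
    refine h1.trans ?_
    push_cast
    linarith

end Crest.Agent.R155
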