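import Mathlib
import Crest.Prelude.Def_Shuffle

/-!
R155 (Thorp shuffle), Part N: definitions for the network lemma.
-/

set_option autoImplicit false
set_option linter.unusedSectionVars false
set_option linter.unusedVariables false

namespace Crest.Agent.R155

open Finset

/-- Binary words; the second component is the lowest bit. -/
def Cube : ℕ → Type
  | 0 => Unit
  | n + 1 => Cube n × Bool

instance Cube.instFintype : (n : ℕ) → Fintype (Cube n)
  | 0 => inferInstanceAs (Fintype Unit)
  | n + 1 => letI := Cube.instFintype n; inferInstanceAs (Fintype (Cube n × Bool))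

instance Cube.instDecidableEq : (n : ℕ) → DecidableEq (Cube n)
  | 0 => inferInstanceAs (DecidableEq Unit)
  | n + 1 => letI := Cube.instDecidableEq n; inferInstanceAs (DecidableEq (Cube n × Bool))

instance Cube.instNonempty : (n : ℕ) → Nonempty (Cube n)
  | 0 => inferInstanceAs (Nonempty Unit)
  | n + 1 => letI := Cube.instNonempty n; inferInstanceAs (Nonempty (Cube n × Bool))

/-- average over a finite type -/
noncomputable def avg {Ω : Type} [Fintype Ω] (X : Ω → ℝ) : ℝ := (∑ ω, X ω) / (Fintype.card Ω : ℝ)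

section Gen
variable {β : Type}

/-- Merge two arrays of size `2^ℓ` pairwise: the pair at `z` is sent to positions `(z, false)`,
`(z, true)` according to the rule `f` and the coin `c z`. -/
def mergeL (f : β → β → Bool → β × β) {ℓ : ℕ} (x0 x1 : Cube ℓ → β) (c : Cube ℓ → Bool) :
    Cube (ℓ + 1) → β :=
  fun p => if p.2 then (f (x0 p.1) (x1 p.1) (c p.1)).2 else (f (x0 p.1) (x1 p.1) (c p.1)).1

/-- left half (lowest bit `0`) of an array -/
def half0 {ℓ : ℕ} (s : Cube (ℓ + 1) → β) : Cube ℓ → β := fun z => s (z, false)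

/-- right half (lowest bit `1`) of an array -/
def half1 {ℓ : ℕ} (s : Cube (ℓ + 1) → β) : Cube ℓ → β := fun z => s (z, true)

/-- Expectation of `Φ` over one butterfly of size `2^ℓ` started from `s`: independent butterflies on
the two halves (lowest bit fixed), then a merging layer with independent fair coins. -/
noncomputable def EBg (f : β → β → Bool → β × β) :
    (ℓ : ℕ) → ((Cube ℓ → β) → ℝ) → (Cube ℓ → β) → ℝ
  | 0, Φ, s => Φ s
  | ℓ + 1, Φ, s =>
      EBg f ℓ (fun x0 => EBg f ℓ (fun x1 => avg (fun c : Cube ℓ → Bool => Φ (mergeL f x0 x1 c)))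
        (half1 s)) (half0 s)

/-- One shuffle step acting on an array of contents (cf. `stepPos`): the contents at `u`, `u + m`
go to `2u`, `2u+1` by the rule `f` and the coin `c u`. -/
def stStep (f : β → β → Bool → β × β) (m : ℕ) (c : Fin m → Bool) (s : Fin (2 * m) → β) :
    Fin (2 * m) → β := fun p =>
  have hp : p.val / 2 < m := by have := p.isLt; omega
  let r := f (s ⟨p.val / 2, by omega⟩) (s ⟨p.val / 2 + m, by omega⟩) (c ⟨p.val / 2, hp⟩)
  if p.val % 2 = 1 then r.2 else r.1

/-- `t` shuffle steps (cf. `iterPos`). -/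
def stRun (f : β → β → Bool → β × β) (m : ℕ) :
    (t : ℕ) → (Fin t → Fin m → Bool) → (Fin (2 * m) → β) → (Fin (2 * m) → β)
  | 0, _, s => s
  | t + 1, cs, s => stStep f m (cs (Fin.last t)) (stRun f m t (fun i => cs i.castSucc) s)

end Gen

/-- States: `none` = environment card, `some r` = free position with weight `r`. -/
abbrev St (ℓ : ℕ) : Type := Cube ℓ → Option ℝ

/-- Merging rule: two free positions average; a free and an environment one are placed by the coin. -/
noncomputable def mg : Option ℝ → Option ℝ → Bool → Option ℝ × Option ℝ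
  | some a, some b, _ => (some ((a + b) / 2), some ((a + b) / 2))
  | some a, none, c => if c then (none, some a) else (some a, none)
  | none, some b, c => if c then (some b, none) else (none, some b)
  | none, none, _ => (none, none)

/-- expectation over one butterfly of states -/
noncomputable abbrev EB (ℓ : ℕ) (Φ : St ℓ → ℝ) (s : St ℓ) : ℝ := EBg mg ℓ Φ s

/-- weight -/
noncomputable def val (o : Option ℝ) : ℝ := o.getD 0

/-- environment indicator -/
noncomputable def ei (o : Option ℝ) : ℝ := if o.isNone then 1 else 0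

/-- squared `ℓ²` norm of the weights -/
noncomputable def nrm2 {ℓ : ℕ} (s : St ℓ) : ℝ := ∑ z, val (s z) ^ 2

/-- total weight -/
noncomputable def tot {ℓ : ℕ} (s : St ℓ) : ℝ := ∑ z, val (s z)

/-- number of environment cards -/
noncomputable def env {ℓ : ℕ} (s : St ℓ) : ℝ := ∑ z, ei (s z)

/-- sum of the squares of the total weights of the classes of size `2^τ` (all but the top `τ` bits
fixed); `(tot s)^2` if `ℓ ≤ τ`. -/
noncomputable def clsSq (τ : ℕ) : (ℓ : ℕ) → St ℓ → ℝ
  | 0, s => (tot s) ^ 2
  | ℓ + 1, s => if ℓ + 1 ≤ τ then (tot s) ^ 2 else clsSq τ ℓ (half0 s) + clsSq τ ℓ (half1 s)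

/-- all classes of size `2^τ` have at most `(1-ρ) 2^τ` environment cards -/
def Good (ρ : ℝ) (τ : ℕ) : (ℓ : ℕ) → St ℓ → Prop
  | 0, s => env s ≤ (1 - ρ) * 2 ^ 0
  | ℓ + 1, s => if ℓ + 1 ≤ τ then env s ≤ (1 - ρ) * 2 ^ (ℓ + 1) else
      Good ρ τ ℓ (half0 s) ∧ Good ρ τ ℓ (half1 s)

/-! Generate the equation lemmas here, once, so that importing modules share them. -/


end Crest.Agent.R155
private theorem rz_6168821805 : type_of% @_root_.Crest.Agent.R155.EBg.eq_def := @_root_.Crest.Agent.R155.EBg.eq_def -- L53
private theorem rz_2521a6cb63 : type_of% @_root_.Crest.Agent.R155.EBg.eq_1 := @_root_.Crest.Agent.R155.EBg.eq_1 -- L53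
private theorem rz_1f57b9dbe0 : type_of% @_root_.Crest.Agent.R155.Good.eq_def := @_root_.Crest.Agent.R155.Good.eq_def -- L111
private theorem rz_97d2e7f0ee : type_of% @_root_.Crest.Agent.R155.Good.eq_1 := @_root_.Crest.Agent.R155.Good.eq_1 -- L111
private theorem rz_1f99d2b840 : type_of% @_root_.Crest.Agent.R155.clsSq.eq_def := @_root_.Crest.Agent.R155.clsSq.eq_def -- L106
private theorem rz_78a89318b5 : type_of% @_root_.Crest.Agent.R155.clsSq.eq_1 := @_root_.Crest.Agent.R155.clsSq.eq_1 -- L106
private theorem rz_529fdadf18 : type_of% @_root_.Crest.Agent.R155.mg.eq_1 := @_root_.Crest.Agent.R155.mg.eq_1 -- L80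
private theorem rz_e01b6fe588 : type_of% @_root_.Crest.Agent.R155.mg.eq_def := @_root_.Crest.Agent.R155.mg.eq_def -- L80
private theorem rz_5aca60e0fe : type_of% @_root_.Crest.Agent.R155.stRun.eq_def := @_root_.Crest.Agent.R155.stRun.eq_def -- L69
private theorem rz_7118da39a1 : type_of% @_root_.Crest.Agent.R155.stRun.eq_1 := @_root_.Crest.Agent.R155.stRun.eq_1 -- L69
private theorem rz_b4b2b29c32 : type_of% @_root_.Crest.ProbabilityR.Shuffle.iterPos.eq_def := @_root_.Crest.ProbabilityR.Shuffle.iterPos.eq_def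
private theorem rz_87d693fc60 : type_of% @_root_.Crest.ProbabilityR.Shuffle.iterPos.eq_1 := @_root_.Crest.ProbabilityR.Shuffle.iterPos.eq_1
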