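import Crest.Agent.R155.DefsN
import Crest.Agent.R155.Junta

-- ▼ part R155/NBasic
section

/-!
R155, Part N, task NBasic: basic facts on the butterfly expectation.
-/

set_option autoImplicit false
set_option linter.unusedSectionVars false
set_option linter.unusedVariables false

namespace Crest.Agent.R155

open Finset

theorem card_cube (ℓ : ℕ) : Fintype.card (Cube ℓ) = 2 ^ ℓ := by
  induction ℓ with
  | zero => exact Fintype.card_unit
  | succ n ih =>
    have h : Fintype.card (Cube (n + 1)) = Fintype.card (Cube n × Bool) := rfl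
    rw [h, Fintype.card_prod, ih, Fintype.card_bool, pow_succ]

theorem sum_cube_succ' {ℓ : ℕ} (X : Cube (ℓ + 1) → ℝ) :
    ∑ p, X p = ∑ z : Cube ℓ, (X (z, false) + X (z, true)) := by
  have h : ∑ p, X p = ∑ z : Cube ℓ, ∑ b : Bool, X (z, b) :=
    Fintype.sum_prod_type (α₁ := Cube ℓ) (α₂ := Bool) (fun p => X p)
  rw [h]
  refine Finset.sum_congr rfl fun z _ => ?_
  rw [Fintype.sum_bool, add_comm]

theorem sum_cube_succ {ℓ : ℕ} (X : Cube (ℓ + 1) → ℝ) :
    ∑ p, X p = ∑ z : Cube ℓ, X (z, false) + ∑ z : Cube ℓ, X (z, true) := by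
  rw [sum_cube_succ', Finset.sum_add_distrib]

section avg
variable {Ω : Type} [Fintype Ω] [Nonempty Ω]

theorem avg_const (a : ℝ) : avg (fun _ : Ω => a) = a := by
  have h : (Fintype.card Ω : ℝ) ≠ 0 := by
    exact_mod_cast Fintype.card_ne_zero
  unfold avg
  rw [Finset.sum_const, Finset.card_univ, nsmul_eq_mul]
  field_simp

theorem avg_add (X Y : Ω → ℝ) : avg (fun ω => X ω + Y ω) = avg X + avg Y := by
  unfold avg
  rw [Finset.sum_add_distrib, add_div]

theorem avg_mul_left (a : ℝ) (X : Ω → ℝ) : avg (fun ω => a * X ω) = a * avg X := by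
  unfold avg
  rw [← Finset.mul_sum, mul_div_assoc]

theorem avg_mono {X Y : Ω → ℝ} (h : ∀ ω, X ω ≤ Y ω) : avg X ≤ avg Y := by
  unfold avg
  exact div_le_div_of_nonneg_right (Finset.sum_le_sum fun ω _ => h ω) (Nat.cast_nonneg _)

theorem avg_sum {ι : Type} (s : Finset ι) (X : ι → Ω → ℝ) :
    avg (fun ω => ∑ i ∈ s, X i ω) = ∑ i ∈ s, avg (X i) := by
  unfold avg
  rw [Finset.sum_comm, Finset.sum_div]

end avg

/-- independent coins: products -/
theorem avg_prod {ι : Type} [Fintype ι] [DecidableEq ι] (X : ι → Bool → ℝ) :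
    avg (fun c : ι → Bool => ∏ i, X i (c i)) = ∏ i, (X i false + X i true) / 2 := by
  have h1 : ∑ c : ι → Bool, ∏ i, X i (c i) = ∏ i, ∑ b : Bool, X i b := by
    rw [Finset.prod_univ_sum, Fintype.piFinset_univ]
  unfold avg
  rw [h1, Finset.prod_div_distrib]
  congr 1
  · refine Finset.prod_congr rfl fun v _ => ?_
    rw [Fintype.sum_bool, add_comm]
  · simp

/-- independent coins: the average of a sum of functions of single coins -/
theorem avg_coin {ι : Type} [Fintype ι] [DecidableEq ι] (i : ι) (X : Bool → ℝ) :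
    avg (fun c : ι → Bool => X (c i)) = (X false + X true) / 2 := by
  have h := avg_prod (ι := ι) (fun w b => if w = i then X b else 1)
  have e1 : (fun c : ι → Bool => ∏ w, (if w = i then X (c w) else 1)) = fun c => X (c i) := by
    funext c
    rw [Finset.prod_ite_eq' Finset.univ i]
    simp
  have e2 : ∏ w, ((if w = i then X false else (1 : ℝ)) + (if w = i then X true else 1)) / 2
      = (X false + X true) / 2 := by
    have : ∀ w, ((if w = i then X false else (1 : ℝ)) + (if w = i then X true else 1)) / 2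
        = if w = i then (X false + X true) / 2 else 1 := by
      intro w; split_ifs <;> norm_num
    simp_rw [this]
    rw [Finset.prod_ite_eq' Finset.univ i]
    simp
  rw [e1, e2] at h
  exact h

section EBg
variable {β : Type} (f : β → β → Bool → β × β)

theorem EBg_const (ℓ : ℕ) (a : ℝ) (s : Cube ℓ → β) : EBg f ℓ (fun _ => a) s = a := by
  induction ℓ with
  | zero => rfl
  | succ n ih =>
    simp only [EBg, avg_const, ih]

theorem EBg_add (ℓ : ℕ) (Φ Ψ : (Cube ℓ → β) → ℝ) (s : Cube ℓ → β) :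
    EBg f ℓ (fun x => Φ x + Ψ x) s = EBg f ℓ Φ s + EBg f ℓ Ψ s := by
  induction ℓ with
  | zero => rfl
  | succ n ih =>
    simp only [EBg, avg_add, ih]

theorem EBg_mul_left (ℓ : ℕ) (a : ℝ) (Φ : (Cube ℓ → β) → ℝ) (s : Cube ℓ → β) :
    EBg f ℓ (fun x => a * Φ x) s = a * EBg f ℓ Φ s := by
  induction ℓ with
  | zero => rfl
  | succ n ih =>
    simp only [EBg, avg_mul_left, ih]

theorem EBg_sum (ℓ : ℕ) {ι : Type} (t : Finset ι) (Φ : ι → (Cube ℓ → β) → ℝ) (s : Cube ℓ → β) :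
    EBg f ℓ (fun x => ∑ i ∈ t, Φ i x) s = ∑ i ∈ t, EBg f ℓ (Φ i) s := by
  induction ℓ with
  | zero => rfl
  | succ n ih =>
    simp only [EBg, avg_sum, ih]

/-- monotonicity along an invariant: if `R` is a relation preserved by merging layers.
`R ℓ s x` = "`x` is reachable from `s`". -/
theorem EBg_mono_on (R : (ℓ : ℕ) → (Cube ℓ → β) → (Cube ℓ → β) → Prop)
    (hR0 : ∀ s, R 0 s s)
    (hR : ∀ ℓ (s : Cube (ℓ + 1) → β) (x0 x1 : Cube ℓ → β) (c : Cube ℓ → Bool),
      R ℓ (half0 s) x0 → R ℓ (half1 s) x1 → R (ℓ + 1) s (mergeL f x0 x1 c))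
    (ℓ : ℕ) (Φ Ψ : (Cube ℓ → β) → ℝ) (s : Cube ℓ → β) (h : ∀ x, R ℓ s x → Φ x ≤ Ψ x) :
    EBg f ℓ Φ s ≤ EBg f ℓ Ψ s := by
  induction ℓ with
  | zero => exact h s (hR0 s)
  | succ n ih =>
    simp only [EBg]
    refine ih _ _ _ fun x0 h0 => ?_
    refine ih _ _ _ fun x1 h1 => ?_
    refine avg_mono fun c => ?_
    exact h _ (hR n s x0 x1 c h0 h1)

theorem EBg_mono (ℓ : ℕ) (Φ Ψ : (Cube ℓ → β) → ℝ) (s : Cube ℓ → β) (h : ∀ x, Φ x ≤ Ψ x) :
    EBg f ℓ Φ s ≤ EBg f ℓ Ψ s :=
  EBg_mono_on f (fun _ _ _ => True) (fun _ => trivial) (fun _ _ _ _ _ _ _ => trivial) ℓ Φ Ψ s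
    fun x _ => h x

end EBg

theorem nrm2_succ {ℓ : ℕ} (s : St (ℓ + 1)) : nrm2 s = nrm2 (half0 s) + nrm2 (half1 s) :=
  sum_cube_succ _

theorem tot_succ {ℓ : ℕ} (s : St (ℓ + 1)) : tot s = tot (half0 s) + tot (half1 s) :=
  sum_cube_succ _

theorem env_succ {ℓ : ℕ} (s : St (ℓ + 1)) : env s = env (half0 s) + env (half1 s) :=
  sum_cube_succ _

theorem val_mg (a b : Option ℝ) (c : Bool) :
    val (mg a b c).1 + val (mg a b c).2 = val a + val b := by
  rcases a with _ | a <;> rcases b with _ | b <;> cases c <;> simp [mg, val]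

theorem ei_mg (a b : Option ℝ) (c : Bool) :
    ei (mg a b c).1 + ei (mg a b c).2 = ei a + ei b := by
  rcases a with _ | a <;> rcases b with _ | b <;> cases c <;> simp [mg, ei]

theorem val_sq_mg_le (a b : Option ℝ) (c : Bool) :
    val (mg a b c).1 ^ 2 + val (mg a b c).2 ^ 2 ≤ val a ^ 2 + val b ^ 2 := by
  rcases a with _ | a <;> rcases b with _ | b <;> cases c <;> simp [mg, val] <;>
    nlinarith [sq_nonneg (a - b)]

theorem tot_mergeL {ℓ : ℕ} (x0 x1 : St ℓ) (c : Cube ℓ → Bool) :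
    tot (mergeL mg x0 x1 c) = tot x0 + tot x1 := by
  unfold tot
  rw [sum_cube_succ', ← Finset.sum_add_distrib]
  exact Finset.sum_congr rfl fun z _ => val_mg _ _ _

theorem env_mergeL {ℓ : ℕ} (x0 x1 : St ℓ) (c : Cube ℓ → Bool) :
    env (mergeL mg x0 x1 c) = env x0 + env x1 := by
  unfold env
  rw [sum_cube_succ', ← Finset.sum_add_distrib]
  exact Finset.sum_congr rfl fun z _ => ei_mg _ _ _

theorem nrm2_mergeL_le {ℓ : ℕ} (x0 x1 : St ℓ) (c : Cube ℓ → Bool) :
    nrm2 (mergeL mg x0 x1 c) ≤ nrm2 x0 + nrm2 x1 := by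
  unfold nrm2
  rw [sum_cube_succ', ← Finset.sum_add_distrib]
  exact Finset.sum_le_sum fun z _ => val_sq_mg_le _ _ _

/-- total weight and number of environment cards are conserved, the `ℓ²` norm does not increase. -/
theorem EB_mono_on (ℓ : ℕ) (Φ Ψ : St ℓ → ℝ) (s : St ℓ)
    (h : ∀ x : St ℓ, tot x = tot s → env x = env s → nrm2 x ≤ nrm2 s → Φ x ≤ Ψ x) :
    EB ℓ Φ s ≤ EB ℓ Ψ s := by
  refine EBg_mono_on mg (fun ℓ s x => tot x = tot s ∧ env x = env s ∧ nrm2 x ≤ nrm2 s)
    (fun s => ⟨rfl, rfl, le_refl _⟩) ?_ ℓ Φ Ψ s (fun x hx => h x hx.1 hx.2.1 hx.2.2)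
  rintro ℓ s x0 x1 c ⟨t0, e0, n0⟩ ⟨t1, e1, n1⟩
  refine ⟨?_, ?_, ?_⟩
  · rw [tot_mergeL, t0, t1, ← tot_succ]
  · rw [env_mergeL, e0, e1, ← env_succ]
  · rw [nrm2_succ s]
    exact (nrm2_mergeL_le _ _ _).trans (add_le_add n0 n1)

theorem val_mg_avg1 (a b : Option ℝ) :
    (val (mg a b false).1 + val (mg a b true).1) / 2 = (val a + val b) / 2 := by
  rcases a with _ | a <;> rcases b with _ | b <;> simp [mg, val]

theorem val_mg_avg2 (a b : Option ℝ) :
    (val (mg a b false).2 + val (mg a b true).2) / 2 = (val a + val b) / 2 := by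
  rcases a with _ | a <;> rcases b with _ | b <;> simp [mg, val]

theorem ei_mg_avg1 (a b : Option ℝ) :
    (ei (mg a b false).1 + ei (mg a b true).1) / 2 = (ei a + ei b) / 2 := by
  rcases a with _ | a <;> rcases b with _ | b <;> simp [mg, ei]

theorem ei_mg_avg2 (a b : Option ℝ) :
    (ei (mg a b false).2 + ei (mg a b true).2) / 2 = (ei a + ei b) / 2 := by
  rcases a with _ | a <;> rcases b with _ | b <;> simp [mg, ei]

theorem avg_val_mergeL {ℓ : ℕ} (x0 x1 : St ℓ) (z : Cube ℓ) (b : Bool) :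
    avg (fun c : Cube ℓ → Bool => val (mergeL mg x0 x1 c (z, b))) =
      (val (x0 z) + val (x1 z)) / 2 := by
  cases b
  · rw [← val_mg_avg1]
    exact avg_coin z (fun t => val (mg (x0 z) (x1 z) t).1)
  · rw [← val_mg_avg2]
    exact avg_coin z (fun t => val (mg (x0 z) (x1 z) t).2)

theorem avg_ei_mergeL {ℓ : ℕ} (x0 x1 : St ℓ) (z : Cube ℓ) (b : Bool) :
    avg (fun c : Cube ℓ → Bool => ei (mergeL mg x0 x1 c (z, b))) =
      (ei (x0 z) + ei (x1 z)) / 2 := by
  cases b
  · rw [← ei_mg_avg1]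
    exact avg_coin z (fun t => ei (mg (x0 z) (x1 z) t).1)
  · rw [← ei_mg_avg2]
    exact avg_coin z (fun t => ei (mg (x0 z) (x1 z) t).2)

/-- `EBg` of an affine combination, product form: `E[a + b Φ]`. -/
theorem EBg_half_add (ℓ : ℕ) {β : Type} (f : β → β → Bool → β × β) (Φ : (Cube ℓ → β) → ℝ)
    (u : ℝ) (s : Cube ℓ → β) :
    EBg f ℓ (fun x => (Φ x + u) / 2) s = (EBg f ℓ Φ s + u) / 2 := by
  have h : (fun x => (Φ x + u) / 2) = fun x => (1 / 2) * Φ x + u / 2 := by
    funext x; ring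
  rw [h, EBg_add, EBg_mul_left, EBg_const]
  ring

theorem EBg_half_add' (ℓ : ℕ) {β : Type} (f : β → β → Bool → β × β) (Φ : (Cube ℓ → β) → ℝ)
    (u : ℝ) (s : Cube ℓ → β) :
    EBg f ℓ (fun x => (u + Φ x) / 2) s = (u + EBg f ℓ Φ s) / 2 := by
  have h : (fun x => (u + Φ x) / 2) = fun x => (1 / 2) * Φ x + u / 2 := by
    funext x; ring
  rw [h, EBg_add, EBg_mul_left, EBg_const]
  ring

/-- the expected weight at every position is the same -/
theorem EB_val (ℓ : ℕ) (z : Cube ℓ) (s : St ℓ) :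
    EB ℓ (fun x => val (x z)) s = tot s / 2 ^ ℓ := by
  induction ℓ with
  | zero =>
    have h : tot s = val (s z) := by
      unfold tot
      have hz : (Finset.univ : Finset (Cube 0)) = {z} := by
        apply Finset.eq_singleton_iff_unique_mem.mpr
        exact ⟨Finset.mem_univ _, fun x _ => Subsingleton.elim (α := Unit) x z⟩
      rw [hz, Finset.sum_singleton]
    rw [h, pow_zero, div_one]
    rfl
  | succ n ih =>
    obtain ⟨z, b⟩ := z
    simp only [EB, EBg]
    simp_rw [avg_val_mergeL]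
    have h2 : ∀ x0 : St n, EBg mg n (fun x1 => (val (x0 z) + val (x1 z)) / 2) (half1 s) =
        (val (x0 z) + tot (half1 s) / 2 ^ n) / 2 := by
      intro x0
      rw [EBg_half_add']
      have := ih z (half1 s)
      simp only [EB] at this
      rw [this]
    simp_rw [h2]
    rw [EBg_half_add]
    have := ih z (half0 s)
    simp only [EB] at this
    rw [this, tot_succ s, pow_succ]
    field_simp

/-- the probability of an environment card at every position is the same -/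
theorem EB_ei (ℓ : ℕ) (z : Cube ℓ) (s : St ℓ) :
    EB ℓ (fun x => ei (x z)) s = env s / 2 ^ ℓ := by
  induction ℓ with
  | zero =>
    have h : env s = ei (s z) := by
      unfold env
      have hz : (Finset.univ : Finset (Cube 0)) = {z} := by
        apply Finset.eq_singleton_iff_unique_mem.mpr
        exact ⟨Finset.mem_univ _, fun x _ => Subsingleton.elim (α := Unit) x z⟩
      rw [hz, Finset.sum_singleton]
    rw [h, pow_zero, div_one]
    rfl
  | succ n ih =>
    obtain ⟨z, b⟩ := z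
    simp only [EB, EBg]
    simp_rw [avg_ei_mergeL]
    have h2 : ∀ x0 : St n, EBg mg n (fun x1 => (ei (x0 z) + ei (x1 z)) / 2) (half1 s) =
        (ei (x0 z) + env (half1 s) / 2 ^ n) / 2 := by
      intro x0
      rw [EBg_half_add']
      have := ih z (half1 s)
      simp only [EB] at this
      rw [this]
    simp_rw [h2]
    rw [EBg_half_add]
    have := ih z (half0 s)
    simp only [EB] at this
    rw [this, env_succ s, pow_succ]
    field_simp

theorem EB_nrm2_le (ℓ : ℕ) (s : St ℓ) : EB ℓ nrm2 s ≤ nrm2 s := by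
  have h := EB_mono_on ℓ nrm2 (fun _ => nrm2 s) s (fun x _ _ hx => hx)
  have h2 := EBg_const mg ℓ (nrm2 s) s
  simp only [EB] at h ⊢
  rwa [h2] at h

end Crest.Agent.R155
end

-- ▼ part R155/Model
section

/-!
R155, Part N, task Model: `d + 1` steps of the shuffle of `2 * 2^d` cards are one butterfly.

Proof idea: write positions as numbers. `s0 z = s (2z)`, `s1 z = s (2z+1)`. After `i ≤ d` steps the
position `X = (hi, b, lo)` (`lo < 2^i`, `b` one bit, `hi` the rest) contains the content of position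
`(hi, lo)` of the `i`-step run of the size `2^d` shuffle started from `s_b`, whose coins are
`c_b (hi', lo) = c (hi', b, lo)`. The map `c ↦ (c_false, c_true)` is a bijection row by row. For
`i = d` : `X = (b, lo)`, and the last step is the merging layer.
-/

set_option autoImplicit false
set_option linter.unusedSectionVars false
set_option linter.unusedVariables false

namespace Crest.Agent.R155

open Finset

theorem two_pow_succ' (d : ℕ) : 2 ^ (d + 1) = 2 * 2 ^ d := by rw [pow_succ, mul_comm]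

/-- number of a word, the second component being the lowest bit. -/
def cubeNum : (d : ℕ) → Cube d → ℕ
  | 0, _ => 0
  | d + 1, p => 2 * cubeNum d p.1 + (if p.2 then 1 else 0)

theorem cubeNum_lt : (d : ℕ) → (z : Cube d) → cubeNum d z < 2 ^ d
  | 0, _ => by simp [cubeNum]
  | d + 1, (z, b) => by
    have h1 := cubeNum_lt d z
    have h2 := two_pow_succ' d
    have h3 : cubeNum (d + 1) (z, b) = 2 * cubeNum d z + (if b then 1 else 0) := rfl
    rw [h3]
    split <;> omega

/-- word of a number -/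
def numCube : (d : ℕ) → ℕ → Cube d
  | 0, _ => ()
  | d + 1, x => (numCube d (x / 2), decide (x % 2 = 1))

theorem numCube_cubeNum : (d : ℕ) → (z : Cube d) → numCube d (cubeNum d z) = z
  | 0, _ => rfl
  | d + 1, (z, b) => by
    have h1 := numCube_cubeNum d z
    have h3 : cubeNum (d + 1) (z, b) = 2 * cubeNum d z + (if b then 1 else 0) := rfl
    have h4 : (2 * cubeNum d z + (if b then 1 else 0)) / 2 = cubeNum d z := by
      split <;> omega
    have h5 : decide ((2 * cubeNum d z + (if b then 1 else 0)) % 2 = 1) = b := by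
      cases b <;> simp
    change (numCube d (cubeNum (d + 1) (z, b) / 2), decide (cubeNum (d + 1) (z, b) % 2 = 1)) = (z, b)
    rw [h3, h4, h5, h1]

theorem cubeNum_numCube : (d : ℕ) → (x : ℕ) → x < 2 ^ d → cubeNum d (numCube d x) = x
  | 0, x, h => by
    have : x < 1 := by simpa using h
    simp only [cubeNum]; omega
  | d + 1, x, h => by
    have h2 := two_pow_succ' d
    have h1 := cubeNum_numCube d (x / 2) (by omega)
    change 2 * cubeNum d (numCube d (x / 2)) + (if decide (x % 2 = 1) = true then 1 else 0) = x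
    rw [h1]
    simp only [decide_eq_true_eq]
    split <;> omega

/-- `Cube d` as numbers below `2^d`, the second component being the lowest bit. -/
def cubeFin (d : ℕ) : Cube d ≃ Fin (2 ^ d) where
  toFun z := ⟨cubeNum d z, cubeNum_lt d z⟩
  invFun x := numCube d x.val
  left_inv z := numCube_cubeNum d z
  right_inv x := by ext; exact cubeNum_numCube d x.val x.isLt

/-- positions of the deck of `2 * 2^d` cards -/
def posEquiv (d : ℕ) : Cube (d + 1) ≃ Fin (2 * 2 ^ d) :=
  (cubeFin (d + 1)).trans (finCongr (two_pow_succ' d))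

theorem posEquiv_val (d : ℕ) (z : Cube d) (b : Bool) :
    (posEquiv d (z, b)).val = 2 * (cubeFin d z).val + (if b then 1 else 0) := rfl

namespace Mdl

theorem avg_equiv {Ω Ω' : Type} [Fintype Ω] [Fintype Ω'] (e : Ω ≃ Ω') (X : Ω' → ℝ) :
    avg (fun ω => X (e ω)) = avg X := by
  unfold avg
  rw [Fintype.card_congr e, Equiv.sum_comp e X]

theorem avg_prod' {Ω Ω' : Type} [Fintype Ω] [Fintype Ω'] (X : Ω → Ω' → ℝ) :
    avg (fun p : Ω × Ω' => X p.1 p.2) = avg (fun a => avg (fun b => X a b)) := by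
  unfold avg
  rw [Fintype.sum_prod_type, Fintype.card_prod, ← Finset.sum_div, div_div]
  push_cast
  rw [mul_comm]

theorem avg_comm {Ω Ω' : Type} [Fintype Ω] [Fintype Ω'] (X : Ω → Ω' → ℝ) :
    avg (fun a => avg (fun b => X a b)) = avg (fun b => avg (fun a => X a b)) := by
  unfold avg
  rw [← Finset.sum_div, ← Finset.sum_div, Finset.sum_comm, div_div, div_div, mul_comm]

section
variable {β : Type} (f : β → β → Bool → β × β)

/-- one step of the shuffle, as an operator -/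
noncomputable def A (m : ℕ) (Φ : (Fin (2 * m) → β) → ℝ) : (Fin (2 * m) → β) → ℝ :=
  fun s => avg (fun c : Fin m → Bool => Φ (stStep f m c s))

theorem avg_run (m t : ℕ) (Φ : (Fin (2 * m) → β) → ℝ) (s : Fin (2 * m) → β) :
    avg (fun cs : Fin t → Fin m → Bool => Φ (stRun f m t cs s)) = (A f m)^[t] Φ s := by
  induction t generalizing Φ with
  | zero =>
    simp [avg, stRun]
  | succ t ih =>
    rw [Function.iterate_succ_apply, ← ih]
    rw [← avg_equiv (Fin.snocEquiv (fun _ => Fin m → Bool))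
      (fun cs : Fin (t + 1) → Fin m → Bool => Φ (stRun f m (t + 1) cs s))]
    have h1 : (fun ω : (Fin m → Bool) × (Fin t → Fin m → Bool) =>
        Φ (stRun f m (t + 1) ((Fin.snocEquiv (fun _ => Fin m → Bool)) ω) s)) =
        fun ω => (fun a b => Φ (stStep f m a (stRun f m t b s))) ω.1 ω.2 := by
      funext ω
      simp [stRun, Fin.snocEquiv]
    rw [h1, avg_prod' (fun a b => Φ (stStep f m a (stRun f m t b s))), avg_comm]
    rfl

theorem A_comm (m i : ℕ) {m' : ℕ} (Θ : (Fin (2 * m) → β) → (Fin (2 * m') → β) → ℝ)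
    (x : Fin (2 * m) → β) (y : Fin (2 * m') → β) :
    A f m (fun x' => (A f m')^[i] (fun y' => Θ x' y') y) x =
      (A f m')^[i] (fun y' => A f m (fun x' => Θ x' y') x) y := by
  induction i generalizing Θ with
  | zero => rfl
  | succ i ih =>
    simp only [Function.iterate_succ_apply]
    rw [ih]
    have h1 : (fun y' => A f m (fun x' => A f m' (fun y' => Θ x' y') y') x) =
        A f m' fun y' => A f m (fun x' => Θ x' y') x := by
      funext y'
      simp only [A]
      rw [avg_comm]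
    rw [h1]

theorem split_bound {M m P X : ℕ} (hM : M = 2 * m) (hP : P ∣ m) (hP0 : 0 < P) (hX : X < M) :
    X / (2 * P) * P + X % P < m := by
  obtain ⟨Q, hQ⟩ := hP
  have h1 : X / (2 * P) < Q := by
    rw [Nat.div_lt_iff_lt_mul (by omega)]
    have h2 : Q * (2 * P) = 2 * (P * Q) := by ring
    omega
  have h2 : X % P < P := Nat.mod_lt _ hP0
  have h3 : (X / (2 * P) + 1) * P ≤ Q * P := Nat.mul_le_mul_right _ h1
  have h4 : Q * P = P * Q := mul_comm _ _
  have h5 : (X / (2 * P) + 1) * P = X / (2 * P) * P + P := by ring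
  omega

theorem join_bound {M m P v b : ℕ} (hM : M = 2 * m) (hP : P ∣ m) (hP0 : 0 < P) (hv : v < m)
    (hb : b < 2) : v / P * (2 * P) + b * P + v % P < M := by
  obtain ⟨Q, hQ⟩ := hP
  have h1 : v / P < Q := by
    rw [Nat.div_lt_iff_lt_mul (by omega)]
    rw [mul_comm]; omega
  have h2 : v % P < P := Nat.mod_lt _ hP0
  have h3 : (v / P + 1) * (2 * P) ≤ Q * (2 * P) := Nat.mul_le_mul_right _ h1
  have h4 : Q * (2 * P) = 2 * (P * Q) := by ring
  have h5 : (v / P + 1) * (2 * P) = v / P * (2 * P) + 2 * P := by ring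
  have h6 : b * P ≤ 1 * P := Nat.mul_le_mul_right _ (by omega)
  omega

theorem join_bit {P v b : ℕ} (hP0 : 0 < P) (hb : b < 2) :
    (v / P * (2 * P) + b * P + v % P) / P % 2 = b := by
  have h1 : v / P * (2 * P) + b * P + v % P = v % P + P * (2 * (v / P) + b) := by ring
  rw [h1, Nat.add_mul_div_left _ _ hP0, Nat.div_eq_of_lt (Nat.mod_lt _ hP0)]
  omega

theorem join_mod {P v b : ℕ} : (v / P * (2 * P) + b * P + v % P) % P = v % P := by
  have h1 : v / P * (2 * P) + b * P + v % P = v % P + P * (2 * (v / P) + b) := by ring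
  rw [h1, Nat.add_mul_mod_self_left, Nat.mod_mod]

theorem join_div {P v b : ℕ} (hP0 : 0 < P) (hb : b < 2) :
    (v / P * (2 * P) + b * P + v % P) / (2 * P) = v / P := by
  have h1 : v / P * (2 * P) + b * P + v % P = (b * P + v % P) + (2 * P) * (v / P) := by ring
  have h2 : v % P < P := Nat.mod_lt _ hP0
  have h6 : b * P ≤ 1 * P := Nat.mul_le_mul_right _ (by omega)
  rw [h1, Nat.add_mul_div_left _ _ (by omega), Nat.div_eq_of_lt (by omega), zero_add]

theorem join_small {P v b : ℕ} (hP0 : 0 < P) (hb : b < 2) :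
    (v / P * (2 * P) + b * P + v % P) / (2 * P) * P + (v / P * (2 * P) + b * P + v % P) % P
      = v := by
  rw [join_div hP0 hb, join_mod]
  exact Nat.div_add_mod' v P

theorem join_split {P X : ℕ} (hP0 : 0 < P) :
    (X / (2 * P) * P + X % P) / P * (2 * P) + (X / P % 2) * P + (X / (2 * P) * P + X % P) % P
      = X := by
  have h1 : (X / (2 * P) * P + X % P) / P = X / (2 * P) := by
    rw [Nat.add_comm, Nat.add_mul_div_right _ _ hP0, Nat.div_eq_of_lt (Nat.mod_lt _ hP0), zero_add]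
  have h2 : (X / (2 * P) * P + X % P) % P = X % P := by
    rw [Nat.add_comm, Nat.add_mul_mod_self_right, Nat.mod_mod]
  rw [h1, h2]
  have h3 : X / (2 * P) = X / P / 2 := by rw [Nat.div_div_eq_div_mul, mul_comm]
  have h4 := Nat.div_add_mod' X P
  have h5 : X / P = 2 * (X / P / 2) + X / P % 2 := by omega
  rw [h3]
  calc X / P / 2 * (2 * P) + X / P % 2 * P + X % P
      = (2 * (X / P / 2) + X / P % 2) * P + X % P := by ring
    _ = X := by rw [← h5, h4]

/-- joining -/
def joinF {M m P : ℕ} (hM : M = 2 * m) (hP : P ∣ m) (hP0 : 0 < P) : Fin m ⊕ Fin m → Fin M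
  | Sum.inl v => ⟨v.val / P * (2 * P) + 0 * P + v.val % P, join_bound hM hP hP0 v.isLt (by omega)⟩
  | Sum.inr v => ⟨v.val / P * (2 * P) + 1 * P + v.val % P, join_bound hM hP hP0 v.isLt (by omega)⟩

/-- splitting -/
def splitF {M m P : ℕ} (hM : M = 2 * m) (hP : P ∣ m) (hP0 : 0 < P) (X : Fin M) : Fin m ⊕ Fin m :=
  if X.val / P % 2 = 1 then
      Sum.inr ⟨X.val / (2 * P) * P + X.val % P, split_bound hM hP hP0 X.isLt⟩
    else Sum.inl ⟨X.val / (2 * P) * P + X.val % P, split_bound hM hP hP0 X.isLt⟩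

theorem joinF_splitF {M m P : ℕ} (hM : M = 2 * m) (hP : P ∣ m) (hP0 : 0 < P) (X : Fin M) :
    joinF hM hP hP0 (splitF hM hP hP0 X) = X := by
  have := join_split (X := X.val) hP0
  unfold splitF
  by_cases h : X.val / P % 2 = 1
  · rw [if_pos h]
    ext
    rw [h] at this
    exact this
  · rw [if_neg h]
    ext
    rw [show X.val / P % 2 = 0 by omega] at this
    exact this

theorem splitF_joinF {M m P : ℕ} (hM : M = 2 * m) (hP : P ∣ m) (hP0 : 0 < P) (v : Fin m ⊕ Fin m) :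
    splitF hM hP hP0 (joinF hM hP hP0 v) = v := by
  rcases v with v | v
  · have h1 : ¬ (joinF hM hP hP0 (Sum.inl v)).val / P % 2 = 1 := by
      have : (joinF hM hP hP0 (Sum.inl v)).val / P % 2 = 0 := join_bit hP0 (by omega)
      omega
    unfold splitF
    rw [if_neg h1]
    congr 1
    ext
    exact join_small hP0 (by omega)
  · have h1 : (joinF hM hP hP0 (Sum.inr v)).val / P % 2 = 1 := join_bit hP0 (by omega)
    unfold splitF
    rw [if_pos h1]
    congr 1
    ext
    exact join_small hP0 (by omega)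

/-- splitting of the coins -/
def eC (M m P : ℕ) (hM : M = 2 * m) (hP : P ∣ m) (hP0 : 0 < P) : Fin m ⊕ Fin m ≃ Fin M where
  toFun := joinF hM hP hP0
  invFun := splitF hM hP hP0
  left_inv := splitF_joinF hM hP hP0
  right_inv := joinF_splitF hM hP hP0

/-- average over coins = average over both halves -/
theorem avg_split (M m P : ℕ) (hM : M = 2 * m) (hP : P ∣ m) (hP0 : 0 < P)
    (F : (Fin m → Bool) → (Fin m → Bool) → ℝ) :
    avg (fun c : Fin M → Bool => F (fun v => c (eC M m P hM hP hP0 (Sum.inl v)))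
        (fun v => c (eC M m P hM hP hP0 (Sum.inr v)))) =
      avg (fun c0 : Fin m → Bool => avg (fun c1 : Fin m → Bool => F c0 c1)) := by
  rw [← avg_prod' F]
  rw [← avg_equiv ((Equiv.arrowCongr (eC M m P hM hP hP0).symm (Equiv.refl Bool)).trans
    (Equiv.sumArrowEquivProdArrow (Fin m) (Fin m) Bool))]
  rfl

/-- splitting of the positions: `X = (hi, b, lo)`, `lo < P` -/
def S (M m P : ℕ) (hM : M = 2 * m) (hP : P ∣ 2 * m) (hP0 : 0 < P)
    (x0 x1 : Fin (2 * m) → β) : Fin (2 * M) → β := fun X =>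
  (if X.val / P % 2 = 1 then x1 else x0) ⟨X.val / (2 * P) * P + X.val % P,
    split_bound (by omega) hP hP0 X.isLt⟩

theorem S_apply_one {M m P : ℕ} {hM : M = 2 * m} {hP : P ∣ 2 * m} {hP0 : 0 < P}
    (x0 x1 : Fin (2 * m) → β) {X : Fin (2 * M)} {v : Fin (2 * m)} (h : X.val / P % 2 = 1)
    (hv : X.val / (2 * P) * P + X.val % P = v.val) : S M m P hM hP hP0 x0 x1 X = x1 v := by
  unfold S
  rw [if_pos h]
  congr 1
  ext
  exact hv

theorem S_apply_zero {M m P : ℕ} {hM : M = 2 * m} {hP : P ∣ 2 * m} {hP0 : 0 < P}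
    (x0 x1 : Fin (2 * m) → β) {X : Fin (2 * M)} {v : Fin (2 * m)} (h : ¬ X.val / P % 2 = 1)
    (hv : X.val / (2 * P) * P + X.val % P = v.val) : S M m P hM hP hP0 x0 x1 X = x0 v := by
  unfold S
  rw [if_neg h]
  congr 1
  ext
  exact hv

theorem stStep_apply (m : ℕ) (c : Fin m → Bool) (s : Fin (2 * m) → β) (p : Fin (2 * m))
    (u0 u1 : Fin (2 * m)) (u : Fin m) (h0 : u0.val = p.val / 2) (h1 : u1.val = p.val / 2 + m)
    (hu : u.val = p.val / 2) :
    stStep f m c s p = if p.val % 2 = 1 then (f (s u0) (s u1) (c u)).2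
      else (f (s u0) (s u1) (c u)).1 := by
  obtain ⟨a0, ha0⟩ := u0
  obtain ⟨a1, ha1⟩ := u1
  obtain ⟨a, ha⟩ := u
  simp only at h0 h1 hu
  subst h0 h1 hu
  rfl

theorem small_succ {P p : ℕ} (hP0 : 0 < P) :
    (p / (2 * (2 * P)) * (2 * P) + p % (2 * P)) / 2 = p / 2 / (2 * P) * P + p / 2 % P := by
  have h1 : p / (2 * (2 * P)) = p / 2 / (2 * P) := by rw [Nat.div_div_eq_div_mul]
  have h2 : p % (2 * P) = 2 * (p / 2 % P) + p % 2 := by
    have := Nat.mod_mul (x := p) (a := 2) (b := P)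
    rw [this]; ring
  rw [h1, h2]
  have h3 : p / 2 / (2 * P) * (2 * P) + (2 * (p / 2 % P) + p % 2) =
      2 * (p / 2 / (2 * P) * P + p / 2 % P) + p % 2 := by ring
  rw [h3]
  omega

theorem small_succ_mod {P p : ℕ} :
    (p / (2 * (2 * P)) * (2 * P) + p % (2 * P)) % 2 = p % 2 := by
  have h1 : p / (2 * (2 * P)) * (2 * P) + p % (2 * P) =
      p % (2 * P) + 2 * (p / (2 * (2 * P)) * P) := by ring
  rw [h1, Nat.add_mul_mod_self_left, Nat.mod_mul_right_mod]

theorem bit_add {M m P u : ℕ} (hM : M = 2 * m) (hP : P ∣ m) (hP0 : 0 < P) :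
    (u + M) / P % 2 = u / P % 2 := by
  obtain ⟨Q, hQ⟩ := hP
  have : u + M = u + P * (2 * Q) := by rw [hM, hQ]; ring
  rw [this, Nat.add_mul_div_left _ _ hP0]
  omega

theorem small_add {M m P u : ℕ} (hM : M = 2 * m) (hP : P ∣ m) (hP0 : 0 < P) :
    (u + M) / (2 * P) * P + (u + M) % P = u / (2 * P) * P + u % P + m := by
  obtain ⟨Q, hQ⟩ := hP
  have h1 : u + M = u + (2 * P) * Q := by rw [hM, hQ]; ring
  have h2 : u + M = u + P * (2 * Q) := by rw [hM, hQ]; ring
  have h3 : (u + M) / (2 * P) = u / (2 * P) + Q := by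
    rw [h1, Nat.add_mul_div_left _ _ (by omega)]
  have h4 : (u + M) % P = u % P := by
    rw [h2, Nat.add_mul_mod_self_left]
  rw [h3, h4]
  subst hQ
  ring

theorem S_step {M m P : ℕ} (hM : M = 2 * m) (hP : P ∣ m) (hP' : P ∣ 2 * m)
    (hP'' : 2 * P ∣ 2 * m) (hP0 : 0 < P) (hP0' : 0 < 2 * P) (c : Fin M → Bool)
    (x0 x1 : Fin (2 * m) → β) :
    stStep f M c (S M m P hM hP' hP0 x0 x1) =
      S M m (2 * P) hM hP'' hP0' (stStep f m (fun v => c (eC M m P hM hP hP0 (Sum.inl v))) x0)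
        (stStep f m (fun v => c (eC M m P hM hP hP0 (Sum.inr v))) x1) := by
  funext p
  have hp := p.isLt
  have hbit : p.val / (2 * P) % 2 = p.val / 2 / P % 2 := by rw [Nat.div_div_eq_div_mul]
  have hub : p.val / 2 < M := by omega
  have hsm : p.val / 2 / (2 * P) * P + p.val / 2 % P < m := split_bound hM hP hP0 hub
  have hw : p.val / (2 * (2 * P)) * (2 * P) + p.val % (2 * P) < 2 * m :=
    split_bound (by omega) hP'' hP0' hp
  have hsucc := small_succ (p := p.val) hP0
  have hsuccm := small_succ_mod (p := p.val) (P := P)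
  have hjoin := join_split (X := p.val / 2) hP0
  have hbM : (p.val / 2 + M) / P % 2 = p.val / 2 / P % 2 := bit_add hM hP hP0
  have hsM : (p.val / 2 + M) / (2 * P) * P + (p.val / 2 + M) % P =
      p.val / 2 / (2 * P) * P + p.val / 2 % P + m := small_add hM hP hP0
  rw [stStep_apply f M c _ p ⟨p.val / 2, by omega⟩ ⟨p.val / 2 + M, by omega⟩ ⟨p.val / 2, hub⟩
    rfl rfl rfl]
  by_cases hb : p.val / 2 / P % 2 = 1
  · rw [S_apply_one (X := p) _ _ (v := ⟨_, hw⟩) (by rw [hbit]; exact hb) rfl]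
    rw [S_apply_one x0 x1 (v := ⟨_, (by omega : p.val / 2 / (2 * P) * P + p.val / 2 % P < 2 * m)⟩)
      hb rfl]
    rw [S_apply_one x0 x1 (v := ⟨p.val / 2 / (2 * P) * P + p.val / 2 % P + m, by omega⟩)
      (by rw [← hb]; exact hbM) hsM]
    rw [stStep_apply f m _ x1 ⟨_, hw⟩
      ⟨_, (by omega : p.val / 2 / (2 * P) * P + p.val / 2 % P < 2 * m)⟩
      ⟨p.val / 2 / (2 * P) * P + p.val / 2 % P + m, by omega⟩ ⟨_, hsm⟩ hsucc.symm
      (by rw [hsucc]) hsucc.symm]
    have hc : c (eC M m P hM hP hP0 (Sum.inr ⟨_, hsm⟩)) = c ⟨p.val / 2, hub⟩ := by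
      congr 1
      ext
      rw [hb] at hjoin
      exact hjoin
    simp only [hc, hsuccm]
  · rw [S_apply_zero (X := p) _ _ (v := ⟨_, hw⟩) (by rw [hbit]; exact hb) rfl]
    rw [S_apply_zero x0 x1 (v := ⟨_, (by omega : p.val / 2 / (2 * P) * P + p.val / 2 % P < 2 * m)⟩)
      hb rfl]
    rw [S_apply_zero x0 x1 (v := ⟨p.val / 2 / (2 * P) * P + p.val / 2 % P + m, by omega⟩)
      (by rw [show (p.val / 2 + M) / P % 2 = p.val / 2 / P % 2 from hbM]; exact hb) hsM]
    rw [stStep_apply f m _ x0 ⟨_, hw⟩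
      ⟨_, (by omega : p.val / 2 / (2 * P) * P + p.val / 2 % P < 2 * m)⟩
      ⟨p.val / 2 / (2 * P) * P + p.val / 2 % P + m, by omega⟩ ⟨_, hsm⟩ hsucc.symm
      (by rw [hsucc]) hsucc.symm]
    have hc : c (eC M m P hM hP hP0 (Sum.inl ⟨_, hsm⟩)) = c ⟨p.val / 2, hub⟩ := by
      congr 1
      ext
      rw [show p.val / 2 / P % 2 = 0 by omega] at hjoin
      exact hjoin
    simp only [hc, hsuccm]

theorem S_congr {M m P P' : ℕ} (h : P = P') {hM : M = 2 * m} {hP : P ∣ 2 * m} {hP0 : 0 < P}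
    {hP' : P' ∣ 2 * m} {hP0' : 0 < P'} (x0 x1 : Fin (2 * m) → β) :
    S M m P hM hP hP0 x0 x1 = S M m P' hM hP' hP0' x0 x1 := by
  subst h
  rfl

theorem A_S {M m P : ℕ} (hM : M = 2 * m) (hP : P ∣ m) (hP' : P ∣ 2 * m)
    (hP'' : 2 * P ∣ 2 * m) (hP0 : 0 < P) (hP0' : 0 < 2 * P) (Ψ : (Fin (2 * M) → β) → ℝ)
    (y0 y1 : Fin (2 * m) → β) :
    A f M Ψ (S M m P hM hP' hP0 y0 y1) =
      A f m (fun z0 => A f m (fun z1 => Ψ (S M m (2 * P) hM hP'' hP0' z0 z1)) y1) y0 := by
  simp only [A]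
  rw [← avg_split M m P hM hP hP0 (fun c0 c1 => Ψ (S M m (2 * P) hM hP'' hP0'
    (stStep f m c0 y0) (stStep f m c1 y1)))]
  congr 1
  funext c
  rw [S_step f hM hP hP' hP'' hP0 hP0']

theorem iter_S {M m : ℕ} (hM : M = 2 * m) (i : ℕ) (hi : ∀ j < i, 2 ^ j ∣ m)
    (hP1 : 2 ^ 0 ∣ 2 * m) (hP10 : 0 < 2 ^ 0) (hP : 2 ^ i ∣ 2 * m) (hP0 : 0 < 2 ^ i)
    (Ψ : (Fin (2 * M) → β) → ℝ) (x0 x1 : Fin (2 * m) → β) :
    (A f M)^[i] Ψ (S M m (2 ^ 0) hM hP1 hP10 x0 x1) =
      (A f m)^[i] (fun y0 => (A f m)^[i] (fun y1 => Ψ (S M m (2 ^ i) hM hP hP0 y0 y1)) x1) x0 := by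
  induction i generalizing Ψ with
  | zero => rfl
  | succ i ih =>
    have h2 : 2 * 2 ^ i ∣ 2 * m := by
      rw [← two_pow_succ']; exact hP
    have h3 : 2 ^ i ∣ 2 * m := (Dvd.intro_left 2 rfl).trans h2
    rw [Function.iterate_succ_apply]
    rw [ih (fun j hj => hi j (by omega)) h3 (by positivity) (A f M Ψ)]
    have h4 : ∀ y0 y1, A f M Ψ (S M m (2 ^ i) hM h3 (by positivity) y0 y1) =
        A f m (fun z0 => A f m (fun z1 => Ψ (S M m (2 ^ (i + 1)) hM hP hP0 z0 z1)) y1) y0 := by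
      intro y0 y1
      rw [A_S f hM (hi i (by omega)) h3 h2 (by positivity) (by positivity)]
      congr 1
      funext z0
      congr 1
      funext z1
      rw [S_congr (two_pow_succ' i).symm]
    simp only [h4]
    have h5 : (fun y0 => (A f m)^[i] (fun y1 => A f m (fun z0 => A f m (fun z1 =>
        Ψ (S M m (2 ^ (i + 1)) hM hP hP0 z0 z1)) y1) y0) x1) =
        A f m (fun z0 => (A f m)^[i + 1] (fun z1 =>
          Ψ (S M m (2 ^ (i + 1)) hM hP hP0 z0 z1)) x1) := by
      funext y0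
      simp only [Function.iterate_succ_apply]
      exact (A_comm f m i (fun z0 y1 => A f m (fun z1 =>
        Ψ (S M m (2 ^ (i + 1)) hM hP hP0 z0 z1)) y1) y0 x1).symm
    rw [h5, Function.iterate_succ_apply (A f m) i (fun y0 => (A f m)^[i + 1] (fun y1 =>
      Ψ (S M m (2 ^ (i + 1)) hM hP hP0 y0 y1)) x1)]

theorem merge_eq (d : ℕ) (hP : 2 ^ (d + 1) ∣ 2 * 2 ^ d) (hP0 : 0 < 2 ^ (d + 1))
    (y0 y1 : Fin (2 * 2 ^ d) → β) (c : Cube (d + 1) → Bool) :
    (stStep f (2 ^ (d + 1)) (c ∘ (cubeFin (d + 1)).symm)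
      (S (2 ^ (d + 1)) (2 ^ d) (2 ^ (d + 1)) (two_pow_succ' d) hP hP0 y0 y1)) =
      (mergeL f (y0 ∘ posEquiv d) (y1 ∘ posEquiv d) c) ∘ (posEquiv (d + 1)).symm := by
  funext p
  obtain ⟨⟨z, b⟩, rfl⟩ := (posEquiv (d + 1)).surjective p
  have hs : (posEquiv (d + 1)).symm (posEquiv (d + 1) (z, b)) = (z, b) :=
    Equiv.symm_apply_apply _ _
  have hv := posEquiv_val (d + 1) z b
  have hlt := (cubeFin (d + 1) z).isLt
  have hpz : (posEquiv d z).val = (cubeFin (d + 1) z).val := rfl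
  have h2 : (posEquiv (d + 1) (z, b)).val / 2 = (cubeFin (d + 1) z).val := by
    rw [hv]; split <;> omega
  have h3 : ((posEquiv (d + 1) (z, b)).val % 2 = 1) ↔ b = true := by
    rw [hv]; split <;> simp_all
  rw [stStep_apply f _ _ _ _ ⟨(cubeFin (d + 1) z).val, by omega⟩
    ⟨(cubeFin (d + 1) z).val + 2 ^ (d + 1), by omega⟩ (cubeFin (d + 1) z) h2.symm
    (by rw [h2]) h2.symm]
  have hz : (cubeFin (d + 1) z).val / 2 ^ (d + 1) = 0 := Nat.div_eq_of_lt hlt
  have hz2 : (cubeFin (d + 1) z).val / (2 * 2 ^ (d + 1)) = 0 := Nat.div_eq_of_lt (by omega)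
  have hz3 : (cubeFin (d + 1) z).val % 2 ^ (d + 1) = (cubeFin (d + 1) z).val :=
    Nat.mod_eq_of_lt hlt
  have hz4 : ((cubeFin (d + 1) z).val + 2 ^ (d + 1)) / 2 ^ (d + 1) = 1 := by
    rw [Nat.add_div_right _ hP0, hz]
  have hz5 : ((cubeFin (d + 1) z).val + 2 ^ (d + 1)) / (2 * 2 ^ (d + 1)) = 0 :=
    Nat.div_eq_of_lt (by omega)
  have hz6 : ((cubeFin (d + 1) z).val + 2 ^ (d + 1)) % 2 ^ (d + 1) = (cubeFin (d + 1) z).val := by
    rw [Nat.add_mod_right, hz3]
  rw [S_apply_zero (v := posEquiv d z) y0 y1 (by simp only; rw [hz]; simp)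
    (by simp only; rw [hz2, hz3, hpz]; simp)]
  rw [S_apply_one (v := posEquiv d z) y0 y1 (by simp only; rw [hz4])
    (by simp only; rw [hz5, hz6, hpz]; simp)]
  rw [Function.comp_apply (f := mergeL f (y0 ∘ posEquiv d) (y1 ∘ posEquiv d) c), hs]
  rw [Function.comp_apply, Equiv.symm_apply_apply]
  cases b
  · rw [if_neg (by rw [h3]; simp)]
    rfl
  · rw [if_pos (by rw [h3])]
    rfl

theorem S_of (d : ℕ) (hP : 2 ^ 0 ∣ 2 * 2 ^ d) (hP0 : 0 < 2 ^ 0)
    (s : Fin (2 * 2 ^ (d + 1)) → β) :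
    s = S (2 ^ (d + 1)) (2 ^ d) (2 ^ 0) (two_pow_succ' d) hP hP0
      ((half0 (s ∘ posEquiv (d + 1))) ∘ (posEquiv d).symm)
      ((half1 (s ∘ posEquiv (d + 1))) ∘ (posEquiv d).symm) := by
  funext p
  obtain ⟨⟨z, b⟩, rfl⟩ := (posEquiv (d + 1)).surjective p
  have hv := posEquiv_val (d + 1) z b
  have hpz : (posEquiv d z).val = (cubeFin (d + 1) z).val := rfl
  cases b
  · rw [S_apply_zero (v := posEquiv d z)]
    · simp only [Function.comp_apply, Equiv.symm_apply_apply]
      rfl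
    · rw [hv]; simp
    · rw [hv, hpz]; simp [Nat.mod_one]
  · rw [S_apply_one (v := posEquiv d z)]
    · simp only [Function.comp_apply, Equiv.symm_apply_apply]
      rfl
    · rw [hv]; simp
    · rw [hv, hpz]; simp [Nat.mod_one]; omega

theorem model (d : ℕ) (Φ : (Fin (2 * 2 ^ d) → β) → ℝ) (s : Fin (2 * 2 ^ d) → β) :
    (A f (2 ^ d))^[d + 1] Φ s =
      EBg f (d + 1) (fun x => Φ (x ∘ (posEquiv d).symm)) (s ∘ posEquiv d) := by
  induction d with
  | zero =>
    rw [Function.iterate_succ_apply, Function.iterate_zero_apply]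
    simp only [A, EBg]
    rw [← avg_equiv (Equiv.arrowCongr (cubeFin 0) (Equiv.refl Bool))]
    congr 1
    funext c
    congr 1
    funext p
    obtain ⟨⟨z, b⟩, rfl⟩ := (posEquiv 0).surjective p
    have hs : (posEquiv 0).symm (posEquiv 0 (z, b)) = (z, b) := Equiv.symm_apply_apply _ _
    have hv := posEquiv_val 0 z b
    have hcz : (cubeFin 0 z).val = 0 := by have := (cubeFin 0 z).isLt; simp
    rw [hcz] at hv
    have h3 : ((posEquiv 0 (z, b)).val % 2 = 1) ↔ b = true := by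
      rw [hv]; split <;> simp_all
    have h0 := posEquiv_val 0 z false
    have h1 := posEquiv_val 0 z true
    rw [hcz] at h0 h1
    simp only [Bool.false_eq_true, if_false, if_true] at h0 h1
    have h5 : (posEquiv 0 (z, b)).val / 2 = 0 := by rw [hv]; split <;> omega
    rw [stStep_apply f _ _ _ _ (posEquiv 0 (z, false)) (posEquiv 0 (z, true)) (cubeFin 0 z)
      (by rw [h0, h5]) (by rw [h1, h5]; simp)
      (by rw [hcz, h5])]
    rw [Function.comp_apply, hs]
    have hc : (Equiv.arrowCongr (cubeFin 0) (Equiv.refl Bool)) c (cubeFin 0 z) = c z := by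
      simp [Equiv.arrowCongr]
    rw [hc]
    cases b
    · rw [if_neg (by rw [h3]; simp)]
      rfl
    · rw [if_pos (by rw [h3])]
      rfl
  | succ d ih =>
    have hd1 : (2 : ℕ) ^ 0 ∣ 2 * 2 ^ d := by simp
    have hd2 : (2 : ℕ) ^ (d + 1) ∣ 2 * 2 ^ d := by rw [← two_pow_succ']
    rw [Function.iterate_succ_apply]
    conv_lhs => rw [S_of d hd1 (by positivity) s]
    rw [iter_S f (two_pow_succ' d) (d + 1) (fun j hj => pow_dvd_pow 2 (by omega)) hd1
      (by positivity) hd2 (by positivity)]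
    rw [ih]
    simp only [ih]
    have e0 : (half0 (s ∘ posEquiv (d + 1)) ∘ (posEquiv d).symm) ∘ posEquiv d =
        half0 (s ∘ posEquiv (d + 1)) := by
      funext z; simp
    have e1 : (half1 (s ∘ posEquiv (d + 1)) ∘ (posEquiv d).symm) ∘ posEquiv d =
        half1 (s ∘ posEquiv (d + 1)) := by
      funext z; simp
    rw [e0, e1]
    change _ = EBg f (d + 1) (fun x0 => EBg f (d + 1) (fun x1 =>
      avg (fun c : Cube (d + 1) → Bool => Φ ((mergeL f x0 x1 c) ∘ (posEquiv (d + 1)).symm)))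
        (half1 (s ∘ posEquiv (d + 1)))) (half0 (s ∘ posEquiv (d + 1)))
    congr 1
    funext x0
    congr 1
    funext x1
    simp only [A]
    rw [← avg_equiv (Equiv.arrowCongr (cubeFin (d + 1)) (Equiv.refl Bool))]
    congr 1
    funext c
    have h6 := merge_eq f d hd2 (by positivity) (x0 ∘ (posEquiv d).symm) (x1 ∘ (posEquiv d).symm) c
    have h7 : (x0 ∘ (posEquiv d).symm) ∘ posEquiv d = x0 := by funext z; simp
    have h8 : (x1 ∘ (posEquiv d).symm) ∘ posEquiv d = x1 := by funext z; simp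
    rw [h7, h8] at h6
    rw [← h6]
    rfl

end

end Mdl

section
variable {β : Type}


theorem model_iter (f : β → β → Bool → β × β) (d K : ℕ) (Φ : (Fin (2 * 2 ^ d) → β) → ℝ)
    (s : Fin (2 * 2 ^ d) → β) :
    avg (fun cs : Fin (K * (d + 1)) → Fin (2 ^ d) → Bool =>
        Φ (stRun f (2 ^ d) (K * (d + 1)) cs s)) =
      ((fun Ψ : (Cube (d + 1) → β) → ℝ => EBg f (d + 1) Ψ)^[K]
        (fun x => Φ (x ∘ (posEquiv d).symm))) (s ∘ posEquiv d) := by
  rw [Mdl.avg_run, mul_comm K (d + 1), Function.iterate_mul]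
  let R : ((Fin (2 * 2 ^ d) → β) → ℝ) → ((Cube (d + 1) → β) → ℝ) :=
    fun Φ x => Φ (x ∘ (posEquiv d).symm)
  have h1 : Function.Semiconj R ((Mdl.A f (2 ^ d))^[d + 1])
      (fun Ψ : (Cube (d + 1) → β) → ℝ => EBg f (d + 1) Ψ) := by
    intro Φ
    funext x
    change (Mdl.A f (2 ^ d))^[d + 1] Φ (x ∘ (posEquiv d).symm) = _
    rw [Mdl.model]
    have h2 : (x ∘ (posEquiv d).symm) ∘ posEquiv d = x := by funext z; simp
    rw [h2]
  have h2 := (h1.iterate_right K).eq Φ
  have h3 := congrFun h2 (s ∘ posEquiv d)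
  have h4 : (s ∘ posEquiv d) ∘ (posEquiv d).symm = s := by funext z; simp
  change ((Mdl.A f (2 ^ d))^[d + 1])^[K] Φ ((s ∘ posEquiv d) ∘ (posEquiv d).symm) = _ at h3
  rw [h4] at h3
  exact h3

end

end Crest.Agent.R155
private theorem rz_1b588c27e6 : type_of% @_root_.Crest.Agent.R155.cubeNum.eq_def := @_root_.Crest.Agent.R155.cubeNum.eq_def -- L24
private theorem rz_1bdf6c01ec : type_of% @_root_.Crest.Agent.R155.cubeNum.eq_1 := @_root_.Crest.Agent.R155.cubeNum.eq_1 -- L24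
end

-- ▼ part R155/NRec
section

/-!
R155, Part N, task NRec: the block recursions.

For a state `s` on `Cube (ℓ+1)` with halves `s0 s1`; `V ℓ s = EB ℓ nrm2 s`, `S s = tot s`,
`g s = env s / 2^ℓ` (fraction of environment cards), `f = 1 - g`.
-/

set_option autoImplicit false
set_option linter.unusedSectionVars false
set_option linter.unusedVariables false

namespace Crest.Agent.R155

open Finset

/-! ### preliminaries (prefix `NR_`) -/

theorem NR_avg_two {ι : Type} [Fintype ι] [DecidableEq ι] {i j : ι} (h : i ≠ j)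
    (X Y : Bool → ℝ) : avg (fun c : ι → Bool => X (c i) * Y (c j)) =
      (X false + X true) / 2 * ((Y false + Y true) / 2) := by
  have h1 := avg_prod (fun (k : ι) (b : Bool) => if k = i then X b else if k = j then Y b else 1)
  have h2 : (fun c : ι → Bool => ∏ k, (fun (k : ι) (b : Bool) =>
      if k = i then X b else if k = j then Y b else 1) k (c k)) =
      fun c => X (c i) * Y (c j) := by
    funext c
    rw [Finset.prod_eq_mul i j h]
    · simp [h.symm]
    · intro k _ hk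
      simp [hk.1, hk.2]
    · simp
    · simp
  rw [h2] at h1
  rw [h1, Finset.prod_eq_mul i j h]
  · simp [h.symm]
  · intro k _ hk
    simp [hk.1, hk.2]
  · simp
  · simp


theorem NR_ei_le_one (o : Option ℝ) : ei o ≤ 1 := by
  unfold ei
  split_ifs <;> norm_num

/-- the coin average of a quadratic function of one merged pair -/
theorem NR_mg_sq (a b : Option ℝ) :
    ((val (mg a b false).1 ^ 2 + val (mg a b false).2 ^ 2) +
      (val (mg a b true).1 ^ 2 + val (mg a b true).2 ^ 2)) / 2 =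
    (val a ^ 2 + val b ^ 2) / 2 + val a * val b + (val a ^ 2 * ei b + val b ^ 2 * ei a) / 2 := by
  rcases a with _ | a <;> rcases b with _ | b <;> simp [mg, val, ei] <;> ring

theorem NR_mg_mean1 (a b : Option ℝ) :
    (val (mg a b false).1 + val (mg a b true).1) / 2 = (val a + val b) / 2 := by
  rcases a with _ | a <;> rcases b with _ | b <;> simp [mg, val] <;> ring

theorem NR_mg_mean2 (a b : Option ℝ) :
    (val (mg a b false).2 + val (mg a b true).2) / 2 = (val a + val b) / 2 := by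
  rcases a with _ | a <;> rcases b with _ | b <;> simp [mg, val] <;> ring

theorem NR_half0_merge {ℓ : ℕ} (x0 x1 : St ℓ) (c : Cube ℓ → Bool) (z : Cube ℓ) :
    half0 (mergeL mg x0 x1 c) z = (mg (x0 z) (x1 z) (c z)).1 := by
  simp [half0, mergeL]

theorem NR_half1_merge {ℓ : ℕ} (x0 x1 : St ℓ) (c : Cube ℓ → Bool) (z : Cube ℓ) :
    half1 (mergeL mg x0 x1 c) z = (mg (x0 z) (x1 z) (c z)).2 := by
  simp [half1, mergeL]

/-- coin average of `nrm2` of a merged array -/
theorem NR_avg_nrm2 {ℓ : ℕ} (x0 x1 : St ℓ) :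
    avg (fun c : Cube ℓ → Bool => nrm2 (mergeL mg x0 x1 c)) =
      ∑ z, ((val (x0 z) ^ 2 + val (x1 z) ^ 2) / 2 + val (x0 z) * val (x1 z) +
        (val (x0 z) ^ 2 * ei (x1 z) + val (x1 z) ^ 2 * ei (x0 z)) / 2) := by
  have h1 : (fun c : Cube ℓ → Bool => nrm2 (mergeL mg x0 x1 c)) =
      fun c => ∑ z : Cube ℓ, (fun b : Bool => val (mg (x0 z) (x1 z) b).1 ^ 2 +
        val (mg (x0 z) (x1 z) b).2 ^ 2) (c z) := by
    funext c
    rw [nrm2_succ]
    unfold nrm2
    rw [← Finset.sum_add_distrib]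
    apply Finset.sum_congr rfl
    intro z _
    rw [NR_half0_merge, NR_half1_merge]
  rw [h1]
  have h2 := avg_sum (Ω := Cube ℓ → Bool) (Finset.univ : Finset (Cube ℓ))
    (fun z c => (fun b : Bool => val (mg (x0 z) (x1 z) b).1 ^ 2 +
        val (mg (x0 z) (x1 z) b).2 ^ 2) (c z))
  rw [h2]
  apply Finset.sum_congr rfl
  intro z _
  have h3 := avg_coin (ι := Cube ℓ) z (fun b : Bool => val (mg (x0 z) (x1 z) b).1 ^ 2 +
        val (mg (x0 z) (x1 z) b).2 ^ 2)
  rw [h3]
  exact NR_mg_sq _ _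

/-- exact recursion (1): average over the coins of `nrm2 (mergeL ..)` is
`∑_z [(a²+b²)/2 + a b + (a² ei(x1 z) + b² ei(x0 z))/2]`, `a = val (x0 z)`, `b = val (x1 z)`
(note `val = 0` where `ei = 1`), then independence, `EB_val`, `EB_ei`. -/
theorem EB_nrm2_succ {ℓ : ℕ} (s : St (ℓ + 1)) :
    EB (ℓ + 1) nrm2 s =
      (1 + env (half1 s) / 2 ^ ℓ) / 2 * EB ℓ nrm2 (half0 s) +
      (1 + env (half0 s) / 2 ^ ℓ) / 2 * EB ℓ nrm2 (half1 s) +
      tot (half0 s) * tot (half1 s) / 2 ^ ℓ := by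
  show EBg mg ℓ (fun x0 => EBg mg ℓ (fun x1 => avg (fun c : Cube ℓ → Bool =>
    nrm2 (mergeL mg x0 x1 c))) (half1 s)) (half0 s) = _
  simp only [NR_avg_nrm2]
  set g0 := env (half0 s) / 2 ^ ℓ with hg0
  set g1 := env (half1 s) / 2 ^ ℓ with hg1
  set t0 := tot (half0 s) / 2 ^ ℓ with ht0
  set t1 := tot (half1 s) / 2 ^ ℓ with ht1
  set V := fun z : Cube ℓ => EBg mg ℓ (fun x => val (x z) ^ 2) (half1 s) with hV
  -- inner expectation
  have hin : ∀ x0 : St ℓ, EBg mg ℓ (fun x1 => ∑ z, ((val (x0 z) ^ 2 + val (x1 z) ^ 2) / 2 +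
      val (x0 z) * val (x1 z) + (val (x0 z) ^ 2 * ei (x1 z) + val (x1 z) ^ 2 * ei (x0 z)) / 2))
      (half1 s) =
      ∑ z, ((1 + g1) / 2 * val (x0 z) ^ 2 + t1 * val (x0 z) + V z / 2 + V z / 2 * ei (x0 z)) := by
    intro x0
    rw [EBg_sum]
    apply Finset.sum_congr rfl
    intro z _
    have h1 : (fun x1 : St ℓ => (val (x0 z) ^ 2 + val (x1 z) ^ 2) / 2 +
      val (x0 z) * val (x1 z) + (val (x0 z) ^ 2 * ei (x1 z) + val (x1 z) ^ 2 * ei (x0 z)) / 2) =
      fun x1 => (val (x0 z) ^ 2 / 2) + ((1 + ei (x0 z)) / 2 * val (x1 z) ^ 2 +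
        (val (x0 z) * val (x1 z) + val (x0 z) ^ 2 / 2 * ei (x1 z))) := by
      funext x1
      ring
    rw [h1]
    rw [EBg_add mg ℓ (fun _ => val (x0 z) ^ 2 / 2), EBg_const]
    rw [EBg_add mg ℓ (fun x1 : St ℓ => (1 + ei (x0 z)) / 2 * val (x1 z) ^ 2), EBg_mul_left mg ℓ]
    rw [EBg_add mg ℓ (fun x1 : St ℓ => val (x0 z) * val (x1 z)), EBg_mul_left mg ℓ,
      EBg_mul_left mg ℓ]
    have h2 := EB_val ℓ z (half1 s)
    have h3 := EB_ei ℓ z (half1 s)
    simp only [EB] at h2 h3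
    rw [h2, h3]
    simp only [hV, ht1, hg1]
    ring
  simp only [hin]
  rw [EBg_sum]
  have hout : ∀ z : Cube ℓ, EBg mg ℓ (fun x0 => (1 + g1) / 2 * val (x0 z) ^ 2 +
      t1 * val (x0 z) + V z / 2 + V z / 2 * ei (x0 z)) (half0 s) =
      (1 + g1) / 2 * EBg mg ℓ (fun x0 => val (x0 z) ^ 2) (half0 s) + t1 * t0 +
        (1 + g0) / 2 * V z := by
    intro z
    rw [EBg_add mg ℓ (fun x0 : St ℓ => (1 + g1) / 2 * val (x0 z) ^ 2 +
      t1 * val (x0 z) + V z / 2), EBg_add mg ℓ (fun x0 : St ℓ => (1 + g1) / 2 * val (x0 z) ^ 2 +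
      t1 * val (x0 z)), EBg_add mg ℓ (fun x0 : St ℓ => (1 + g1) / 2 * val (x0 z) ^ 2),
      EBg_mul_left mg ℓ, EBg_mul_left mg ℓ, EBg_mul_left mg ℓ, EBg_const]
    have h2 := EB_val ℓ z (half0 s)
    have h3 := EB_ei ℓ z (half0 s)
    simp only [EB] at h2 h3
    rw [h2, h3]
    simp only [ht0, hg0]
    ring
  rw [Finset.sum_congr rfl (fun z _ => hout z)]
  have hs1 : ∑ z : Cube ℓ, (1 + g1) / 2 * EBg mg ℓ (fun x0 => val (x0 z) ^ 2) (half0 s) =
      (1 + g1) / 2 * ∑ z : Cube ℓ, EBg mg ℓ (fun x0 => val (x0 z) ^ 2) (half0 s) :=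
    (Finset.mul_sum _ _ _).symm
  have hs2 : ∑ z : Cube ℓ, (1 + g0) / 2 * V z = (1 + g0) / 2 * ∑ z : Cube ℓ, V z :=
    (Finset.mul_sum _ _ _).symm
  rw [Finset.sum_add_distrib, Finset.sum_add_distrib, hs1, hs2,
    Finset.sum_const, Finset.card_univ, card_cube]
  have e0 : EB ℓ nrm2 (half0 s) =
      ∑ z, EBg mg ℓ (fun x0 => val (x0 z) ^ 2) (half0 s) := by
    rw [← EBg_sum]
    rfl
  have e1 : EB ℓ nrm2 (half1 s) = ∑ z, V z := by
    rw [hV, ← EBg_sum]
    rfl
  rw [e0, e1, ht0, ht1]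
  have hp : (2 : ℝ) ^ ℓ ≠ 0 := by positivity
  simp only [nsmul_eq_mul]
  push_cast
  field_simp
  ring

theorem NR_nrm2_nonneg {ℓ : ℕ} (s : St ℓ) : 0 ≤ nrm2 s :=
  Finset.sum_nonneg (fun _ _ => sq_nonneg _)

theorem NR_EB_nrm2_nonneg {ℓ : ℕ} (s : St ℓ) : 0 ≤ EB ℓ nrm2 s := by
  have h := EBg_mono mg ℓ (fun _ => 0) nrm2 s (fun x => NR_nrm2_nonneg x)
  rw [EBg_const] at h
  exact h

/-- `Good` at level `τ` implies the bound on the environment for larger blocks. -/
theorem Good.env_le {ρ : ℝ} {τ ℓ : ℕ} (h : τ ≤ ℓ) {s : St ℓ} (hs : Good ρ τ ℓ s) :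
    env s ≤ (1 - ρ) * 2 ^ ℓ := by
  induction ℓ with
  | zero => exact hs
  | succ ℓ ih =>
    unfold Good at hs
    split_ifs at hs with h1
    · exact hs
    · have h2 : τ ≤ ℓ := by omega
      have h3 := ih h2 hs.1
      have h4 := ih h2 hs.2
      rw [env_succ, pow_succ]
      linarith

theorem NR_clsSq_self (ℓ : ℕ) (s : St ℓ) : clsSq ℓ ℓ s = tot s ^ 2 := by
  cases ℓ with
  | zero => rfl
  | succ ℓ => simp [clsSq]

theorem NR_clsSq_succ {i ℓ : ℕ} (h : i ≤ ℓ) (s : St (ℓ + 1)) :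
    clsSq i (ℓ + 1) s = clsSq i ℓ (half0 s) + clsSq i ℓ (half1 s) := by
  have : ¬ (ℓ + 1 ≤ i) := by omega
  simp [clsSq, this]

/-- (3) in a good state. Induction on `ℓ` from `EB_nrm2_succ`,
`tot s0 * tot s1 ≤ (tot s0 ^2 + tot s1^2)/2`, `clsSq i (ℓ+1) s = clsSq i ℓ s0 + clsSq i ℓ s1` for `i ≤ ℓ`. -/
theorem EB_nrm2_good {ρ : ℝ} (hρ0 : 0 ≤ ρ) (hρ1 : ρ ≤ 1) {τ ℓ : ℕ} (h : τ ≤ ℓ) {s : St ℓ}
    (hs : Good ρ τ ℓ s) :
    EB ℓ nrm2 s ≤ (1 - ρ / 2) ^ (ℓ - τ) * nrm2 s +
      ∑ i ∈ Finset.Ico τ ℓ, (1 - ρ / 2) ^ (ℓ - 1 - i) * (1 / 2) ^ (i + 1) * clsSq i ℓ s := by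
  induction ℓ with
  | zero =>
    have : τ = 0 := by omega
    subst this
    simpa using EB_nrm2_le 0 s
  | succ ℓ ih =>
    rcases Nat.lt_or_ge ℓ τ with hlt | hge
    · have : τ = ℓ + 1 := by omega
      subst this
      simpa using EB_nrm2_le (ℓ + 1) s
    · have hs' : Good ρ τ ℓ (half0 s) ∧ Good ρ τ ℓ (half1 s) := by
        unfold Good at hs
        rwa [if_neg (by omega)] at hs
      have i0 := ih hge hs'.1
      have i1 := ih hge hs'.2
      have v0 := NR_EB_nrm2_nonneg (half0 s)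
      have v1 := NR_EB_nrm2_nonneg (half1 s)
      have hp : (0 : ℝ) < 2 ^ ℓ := by positivity
      have g0 : env (half0 s) / 2 ^ ℓ ≤ 1 - ρ := by
        rw [div_le_iff₀ hp]
        exact Good.env_le hge hs'.1
      have g1 : env (half1 s) / 2 ^ ℓ ≤ 1 - ρ := by
        rw [div_le_iff₀ hp]
        exact Good.env_le hge hs'.2
      rw [EB_nrm2_succ]
      have e0 : (1 + env (half1 s) / 2 ^ ℓ) / 2 * EB ℓ nrm2 (half0 s) ≤
          (1 - ρ / 2) * EB ℓ nrm2 (half0 s) :=
        mul_le_mul_of_nonneg_right (by linarith) v0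
      have e1 : (1 + env (half0 s) / 2 ^ ℓ) / 2 * EB ℓ nrm2 (half1 s) ≤
          (1 - ρ / 2) * EB ℓ nrm2 (half1 s) :=
        mul_le_mul_of_nonneg_right (by linarith) v1
      have e2 : tot (half0 s) * tot (half1 s) / 2 ^ ℓ ≤
          (1 / 2) ^ (ℓ + 1) * (tot (half0 s) ^ 2 + tot (half1 s) ^ 2) := by
        rw [one_div, inv_pow, pow_succ, div_eq_mul_inv, mul_inv]
        have h5 : tot (half0 s) * tot (half1 s) ≤
            2⁻¹ * (tot (half0 s) ^ 2 + tot (half1 s) ^ 2) := by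
          nlinarith [sq_nonneg (tot (half0 s) - tot (half1 s))]
        have h6 : (0 : ℝ) ≤ (2 ^ ℓ)⁻¹ := by positivity
        nlinarith [mul_le_mul_of_nonneg_right h5 h6]
      have hr : 0 ≤ 1 - ρ / 2 := by linarith
      have f0 := mul_le_mul_of_nonneg_left i0 hr
      have f1 := mul_le_mul_of_nonneg_left i1 hr
      -- rewrite the target
      have hsum : ∑ i ∈ Finset.Ico τ (ℓ + 1), (1 - ρ / 2) ^ (ℓ + 1 - 1 - i) * (1 / 2) ^ (i + 1) *
          clsSq i (ℓ + 1) s =
          (1 - ρ / 2) * (∑ i ∈ Finset.Ico τ ℓ, (1 - ρ / 2) ^ (ℓ - 1 - i) * (1 / 2) ^ (i + 1) *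
            clsSq i ℓ (half0 s)) +
          (1 - ρ / 2) * (∑ i ∈ Finset.Ico τ ℓ, (1 - ρ / 2) ^ (ℓ - 1 - i) * (1 / 2) ^ (i + 1) *
            clsSq i ℓ (half1 s)) +
          (1 / 2) ^ (ℓ + 1) * (tot (half0 s) ^ 2 + tot (half1 s) ^ 2) := by
        rw [Finset.sum_Ico_succ_top hge, NR_clsSq_succ (le_refl ℓ), NR_clsSq_self,
          NR_clsSq_self, Finset.mul_sum, Finset.mul_sum, ← Finset.sum_add_distrib]
        congr 1
        · apply Finset.sum_congr rfl
          intro i hi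
          rw [Finset.mem_Ico] at hi
          rw [NR_clsSq_succ (by omega)]
          have : ℓ + 1 - 1 - i = (ℓ - 1 - i) + 1 := by omega
          rw [this, pow_succ]
          ring
        · have : ℓ + 1 - 1 - ℓ = 0 := by omega
          rw [this]
          ring
      have hpow : (1 - ρ / 2) ^ (ℓ + 1 - τ) = (1 - ρ / 2) * (1 - ρ / 2) ^ (ℓ - τ) := by
        have : ℓ + 1 - τ = (ℓ - τ) + 1 := by omega
        rw [this, pow_succ]
        ring
      rw [hsum, hpow, nrm2_succ]
      nlinarith [e0, e1, e2, f0, f1]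

/-! ### the class kernel -/

/-- `z` and `w` are in the same class -/
def NR_rel (τ : ℕ) : (ℓ : ℕ) → Cube ℓ → Cube ℓ → Prop
  | 0, _, _ => True
  | ℓ + 1, p, q => if ℓ + 1 ≤ τ then True else p.2 = q.2 ∧ NR_rel τ ℓ p.1 q.1

open Classical in
/-- kernel of the class form -/
noncomputable def NR_ker (τ ℓ : ℕ) (z w : Cube ℓ) : ℝ := if NR_rel τ ℓ z w then 1 else 0

theorem NR_rel_succ (τ ℓ : ℕ) (p q : Cube (ℓ + 1)) : NR_rel τ (ℓ + 1) p q =
    if ℓ + 1 ≤ τ then True else p.2 = q.2 ∧ NR_rel τ ℓ p.1 q.1 := rfl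

theorem NR_rel_refl (τ ℓ : ℕ) (z : Cube ℓ) : NR_rel τ ℓ z z := by
  induction ℓ with
  | zero => trivial
  | succ ℓ ih =>
    unfold NR_rel
    by_cases h : ℓ + 1 ≤ τ
    · rw [if_pos h]
      trivial
    · rw [if_neg h]
      exact ⟨rfl, ih _⟩

theorem NR_ker_self (τ ℓ : ℕ) (z : Cube ℓ) : NR_ker τ ℓ z z = 1 := by
  simp [NR_ker, NR_rel_refl]

theorem NR_ker_succ {τ ℓ : ℕ} (h : τ ≤ ℓ) (z w : Cube ℓ) (a b : Bool) :
    NR_ker τ (ℓ + 1) (z, a) (w, b) = if a = b then NR_ker τ ℓ z w else 0 := by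
  have h1 : ¬ (ℓ + 1 ≤ τ) := by omega
  have hrel : NR_rel τ (ℓ + 1) (z, a) (w, b) ↔ (a = b ∧ NR_rel τ ℓ z w) := by
    have h2 := NR_rel_succ τ ℓ (z, a) (w, b)
    rw [if_neg h1] at h2
    exact Iff.of_eq h2
  unfold NR_ker
  by_cases hab : a = b
  · rw [if_pos hab]
    by_cases hr : NR_rel τ ℓ z w
    · rw [if_pos hr, if_pos (hrel.2 ⟨hab, hr⟩)]
    · rw [if_neg hr, if_neg (fun h => hr (hrel.1 h).2)]
  · rw [if_neg hab, if_neg (fun h => hab (hrel.1 h).1)]

theorem NR_ker_of_le {τ ℓ : ℕ} (h : ℓ ≤ τ) (z w : Cube ℓ) : NR_ker τ ℓ z w = 1 := by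
  unfold NR_ker
  cases ℓ with
  | zero => simp [NR_rel]
  | succ ℓ => simp [NR_rel, h]

theorem NR_sum_ker {τ ℓ : ℕ} (h : τ ≤ ℓ) :
    ∑ z : Cube ℓ, ∑ w : Cube ℓ, NR_ker τ ℓ z w = 2 ^ ℓ * 2 ^ τ := by
  induction ℓ with
  | zero =>
    have : τ = 0 := by omega
    subst this
    simp only [NR_ker_of_le (le_refl 0)]
    simp [Finset.card_univ, card_cube]
  | succ ℓ ih =>
    rcases Nat.lt_or_ge ℓ τ with hlt | hge
    · have : τ = ℓ + 1 := by omega
      subst this
      simp only [NR_ker_of_le (le_refl (ℓ + 1))]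
      simp only [Finset.sum_const, Finset.card_univ, card_cube, nsmul_eq_mul, mul_one]
      push_cast
      ring
    · rw [sum_cube_succ]
      simp only [sum_cube_succ, NR_ker_succ hge]
      simp only [if_true, Bool.false_eq_true, if_false, Finset.sum_const_zero, add_zero,
        Bool.true_eq_false, zero_add, ih hge]
      ring

theorem NR_clsSq_eq {τ ℓ : ℕ} (h : τ ≤ ℓ) (s : St ℓ) :
    clsSq τ ℓ s = ∑ z, ∑ w, NR_ker τ ℓ z w * (val (s z) * val (s w)) := by
  induction ℓ with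
  | zero =>
    have : τ = 0 := by omega
    subst this
    simp only [NR_ker_of_le (le_refl 0), one_mul]
    rw [NR_clsSq_self, tot, sq, Finset.sum_mul_sum]
  | succ ℓ ih =>
    rcases Nat.lt_or_ge ℓ τ with hlt | hge
    · have : τ = ℓ + 1 := by omega
      subst this
      simp only [NR_ker_of_le (le_refl (ℓ + 1)), one_mul]
      rw [NR_clsSq_self, tot, sq, Finset.sum_mul_sum]
    · rw [NR_clsSq_succ hge, ih hge, ih hge, sum_cube_succ]
      simp only [sum_cube_succ, NR_ker_succ hge]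
      simp only [if_true, Bool.false_eq_true, if_false, zero_mul, Finset.sum_const_zero, add_zero,
        Bool.true_eq_false, zero_add]
      rfl

/-- coin average of the class form of a merged array -/
theorem NR_avg_cls {τ ℓ : ℕ} (h : τ ≤ ℓ) (x0 x1 : St ℓ) :
    avg (fun c : Cube ℓ → Bool => clsSq τ (ℓ + 1) (mergeL mg x0 x1 c)) =
      (1 / 2) * (∑ z, ∑ w, NR_ker τ ℓ z w *
        ((val (x0 z) + val (x1 z)) * (val (x0 w) + val (x1 w)))) +
      (1 / 2) * ∑ z, (val (x0 z) ^ 2 * ei (x1 z) + val (x1 z) ^ 2 * ei (x0 z)) := by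
  have h1 : (fun c : Cube ℓ → Bool => clsSq τ (ℓ + 1) (mergeL mg x0 x1 c)) =
      fun c => ∑ z : Cube ℓ, ∑ w : Cube ℓ, NR_ker τ ℓ z w *
        (val (mg (x0 z) (x1 z) (c z)).1 * val (mg (x0 w) (x1 w) (c w)).1 +
         val (mg (x0 z) (x1 z) (c z)).2 * val (mg (x0 w) (x1 w) (c w)).2) := by
    funext c
    rw [NR_clsSq_succ h, NR_clsSq_eq h, NR_clsSq_eq h, ← Finset.sum_add_distrib]
    apply Finset.sum_congr rfl
    intro z _
    rw [← Finset.sum_add_distrib]
    apply Finset.sum_congr rfl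
    intro w _
    rw [NR_half0_merge, NR_half1_merge, NR_half0_merge, NR_half1_merge]
    ring
  rw [h1]
  rw [avg_sum]
  have key : ∀ z w : Cube ℓ, avg (fun c : Cube ℓ → Bool => NR_ker τ ℓ z w *
        (val (mg (x0 z) (x1 z) (c z)).1 * val (mg (x0 w) (x1 w) (c w)).1 +
         val (mg (x0 z) (x1 z) (c z)).2 * val (mg (x0 w) (x1 w) (c w)).2)) =
      (1 / 2) * (NR_ker τ ℓ z w *
        ((val (x0 z) + val (x1 z)) * (val (x0 w) + val (x1 w)))) +
      (if z = w then (1 / 2) * (val (x0 z) ^ 2 * ei (x1 z) + val (x1 z) ^ 2 * ei (x0 z)) else 0) := by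
    intro z w
    rw [avg_mul_left]
    by_cases hzw : z = w
    · subst hzw
      rw [if_pos rfl, NR_ker_self]
      have h3 := avg_coin (ι := Cube ℓ) z (fun b : Bool =>
        val (mg (x0 z) (x1 z) b).1 * val (mg (x0 z) (x1 z) b).1 +
        val (mg (x0 z) (x1 z) b).2 * val (mg (x0 z) (x1 z) b).2)
      rw [h3]
      have h4 := NR_mg_sq (x0 z) (x1 z)
      simp only [← sq]
      rw [h4]
      ring
    · rw [if_neg hzw, add_zero]
      rw [avg_add (fun c : Cube ℓ → Bool =>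
        val (mg (x0 z) (x1 z) (c z)).1 * val (mg (x0 w) (x1 w) (c w)).1)]
      have h5 := NR_avg_two hzw (fun b => val (mg (x0 z) (x1 z) b).1)
        (fun b => val (mg (x0 w) (x1 w) b).1)
      have h6 := NR_avg_two hzw (fun b => val (mg (x0 z) (x1 z) b).2)
        (fun b => val (mg (x0 w) (x1 w) b).2)
      rw [h5, h6, NR_mg_mean1, NR_mg_mean1, NR_mg_mean2, NR_mg_mean2]
      ring
  have h2 : ∀ z : Cube ℓ, avg (fun c : Cube ℓ → Bool => ∑ w : Cube ℓ, NR_ker τ ℓ z w *
        (val (mg (x0 z) (x1 z) (c z)).1 * val (mg (x0 w) (x1 w) (c w)).1 +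
         val (mg (x0 z) (x1 z) (c z)).2 * val (mg (x0 w) (x1 w) (c w)).2)) =
      (1 / 2) * (∑ w, NR_ker τ ℓ z w *
        ((val (x0 z) + val (x1 z)) * (val (x0 w) + val (x1 w)))) +
      (1 / 2) * (val (x0 z) ^ 2 * ei (x1 z) + val (x1 z) ^ 2 * ei (x0 z)) := by
    intro z
    rw [avg_sum, Finset.sum_congr rfl (fun w _ => key z w), Finset.sum_add_distrib,
      ← Finset.mul_sum]
    congr 1
    rw [Finset.sum_ite_eq]
    simp
  rw [Finset.sum_congr rfl (fun z _ => h2 z), Finset.sum_add_distrib, ← Finset.mul_sum,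
    ← Finset.mul_sum]

/-- (2): expected class sums of squares after one butterfly. Induction on `ℓ ≥ τ`: for `ℓ = τ` the
total is conserved. Step: with `S(z-class, b)` the class sums, `S0 + S1` is conserved and
`E (S0 - S1)^2 = ∑ over pairs with one environment card of the squared weight`, so
`E ∑ S² = ½ E ∑ (S(x0) + S(x1))² + ½ E ∑_single ≤ ½ (A(s0) + A(s1) + 2 · 2^(-(ℓ-τ)) S(s0) S(s1)) +
½ (nrm2 s0 + nrm2 s1)` by independence and `EB_val`. -/
theorem EB_clsSq {τ ℓ : ℕ} (h : τ ≤ ℓ) (s : St ℓ) :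
    EB ℓ (clsSq τ ℓ) s ≤ nrm2 s + tot s ^ 2 / 2 ^ (ℓ - τ) := by
  induction ℓ with
  | zero =>
    have : τ = 0 := by omega
    subst this
    show clsSq 0 0 s ≤ _
    rw [NR_clsSq_self]
    simpa using NR_nrm2_nonneg s
  | succ ℓ ih =>
    rcases Nat.lt_or_ge ℓ τ with hlt | hge
    · have : τ = ℓ + 1 := by omega
      subst this
      have h1 : EB (ℓ + 1) (clsSq (ℓ + 1) (ℓ + 1)) s ≤ EB (ℓ + 1) (fun _ => tot s ^ 2) s := by
        apply EB_mono_on
        intro x hx _ _
        rw [NR_clsSq_self, hx]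
      rw [show EB (ℓ + 1) (fun _ => tot s ^ 2) s = tot s ^ 2 from EBg_const mg _ _ _] at h1
      simp only [Nat.sub_self, pow_zero, div_one]
      linarith [NR_nrm2_nonneg s]
    · have i0 := ih hge (half0 s)
      have i1 := ih hge (half1 s)
      show EBg mg ℓ (fun x0 => EBg mg ℓ (fun x1 => avg (fun c : Cube ℓ → Bool =>
        clsSq τ (ℓ + 1) (mergeL mg x0 x1 c))) (half1 s)) (half0 s) ≤ _
      simp only [NR_avg_cls hge]
      set t0 := tot (half0 s) / 2 ^ ℓ with ht0
      set t1 := tot (half1 s) / 2 ^ ℓ with ht1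
      -- bound the integrand
      have hb : ∀ x0 x1 : St ℓ, (1 / 2) * (∑ z, ∑ w, NR_ker τ ℓ z w *
          ((val (x0 z) + val (x1 z)) * (val (x0 w) + val (x1 w)))) +
          (1 / 2) * ∑ z, (val (x0 z) ^ 2 * ei (x1 z) + val (x1 z) ^ 2 * ei (x0 z)) ≤
          ((1 / 2) * clsSq τ ℓ x0 + (1 / 2) * nrm2 x0) +
          (((1 / 2) * clsSq τ ℓ x1 + (1 / 2) * nrm2 x1) +
          ∑ z, ∑ w, NR_ker τ ℓ z w * ((1 / 2) * (val (x0 z) * val (x1 w)) +
            (1 / 2) * (val (x1 z) * val (x0 w)))) := by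
        intro x0 x1
        have e1 : ∑ z, ∑ w, NR_ker τ ℓ z w *
            ((val (x0 z) + val (x1 z)) * (val (x0 w) + val (x1 w))) =
            clsSq τ ℓ x0 + clsSq τ ℓ x1 + 2 * ∑ z, ∑ w, NR_ker τ ℓ z w *
              ((1 / 2) * (val (x0 z) * val (x1 w)) + (1 / 2) * (val (x1 z) * val (x0 w))) := by
          rw [NR_clsSq_eq hge, NR_clsSq_eq hge, Finset.mul_sum, ← Finset.sum_add_distrib,
            ← Finset.sum_add_distrib]
          apply Finset.sum_congr rfl
          intro z _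
          rw [Finset.mul_sum, ← Finset.sum_add_distrib, ← Finset.sum_add_distrib]
          apply Finset.sum_congr rfl
          intro w _
          ring
        have e2 : ∑ z, (val (x0 z) ^ 2 * ei (x1 z) + val (x1 z) ^ 2 * ei (x0 z)) ≤
            nrm2 x0 + nrm2 x1 := by
          unfold nrm2
          rw [← Finset.sum_add_distrib]
          apply Finset.sum_le_sum
          intro z _
          have a1 := NR_ei_le_one (x1 z)
          have a0 := NR_ei_le_one (x0 z)
          have b1 := mul_le_mul_of_nonneg_left a1 (sq_nonneg (val (x0 z)))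
          have b0 := mul_le_mul_of_nonneg_left a0 (sq_nonneg (val (x1 z)))
          linarith
        rw [e1]
        linarith
      refine (EBg_mono mg ℓ _ _ _ (fun x0 => EBg_mono mg ℓ _ _ _ (fun x1 => hb x0 x1))).trans ?_
      -- inner expectation
      have hin : ∀ x0 : St ℓ, EBg mg ℓ (fun x1 =>
          ((1 / 2) * clsSq τ ℓ x0 + (1 / 2) * nrm2 x0) +
          (((1 / 2) * clsSq τ ℓ x1 + (1 / 2) * nrm2 x1) +
          ∑ z, ∑ w, NR_ker τ ℓ z w * ((1 / 2) * (val (x0 z) * val (x1 w)) +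
            (1 / 2) * (val (x1 z) * val (x0 w))))) (half1 s) =
          ((1 / 2) * clsSq τ ℓ x0 + (1 / 2) * nrm2 x0) +
          (((1 / 2) * EB ℓ (clsSq τ ℓ) (half1 s) + (1 / 2) * EB ℓ nrm2 (half1 s)) +
          ∑ z, ∑ w, NR_ker τ ℓ z w * ((1 / 2) * (val (x0 z) * t1) +
            (1 / 2) * (t1 * val (x0 w)))) := by
        intro x0
        rw [EBg_add mg ℓ (fun _ => (1 / 2) * clsSq τ ℓ x0 + (1 / 2) * nrm2 x0), EBg_const,
          EBg_add mg ℓ (fun x1 : St ℓ => (1 / 2) * clsSq τ ℓ x1 + (1 / 2) * nrm2 x1),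
          EBg_add mg ℓ (fun x1 : St ℓ => (1 / 2) * clsSq τ ℓ x1), EBg_mul_left mg ℓ,
          EBg_mul_left mg ℓ, EBg_sum]
        congr 2
        apply Finset.sum_congr rfl
        intro z _
        rw [EBg_sum]
        apply Finset.sum_congr rfl
        intro w _
        rw [EBg_mul_left mg ℓ]
        congr 1
        have h2 := EB_val ℓ z (half1 s)
        have h3 := EB_val ℓ w (half1 s)
        simp only [EB] at h2 h3
        have h4 : (fun x1 : St ℓ => (1 / 2) * (val (x0 z) * val (x1 w)) +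
            (1 / 2) * (val (x1 z) * val (x0 w))) =
            fun x1 => ((1 / 2) * val (x0 z)) * val (x1 w) +
              ((1 / 2) * val (x0 w)) * val (x1 z) := by
          funext x1
          ring
        rw [h4, EBg_add mg ℓ (fun x1 : St ℓ => ((1 / 2) * val (x0 z)) * val (x1 w)),
          EBg_mul_left mg ℓ, EBg_mul_left mg ℓ, h2, h3]
        ring
      simp only [hin]
      set C1 := (1 / 2) * EB ℓ (clsSq τ ℓ) (half1 s) + (1 / 2) * EB ℓ nrm2 (half1 s) with hC1
      have hout : EBg mg ℓ (fun x0 => ((1 / 2) * clsSq τ ℓ x0 + (1 / 2) * nrm2 x0) +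
          (C1 + ∑ z, ∑ w, NR_ker τ ℓ z w * ((1 / 2) * (val (x0 z) * t1) +
            (1 / 2) * (t1 * val (x0 w))))) (half0 s) =
          ((1 / 2) * EB ℓ (clsSq τ ℓ) (half0 s) + (1 / 2) * EB ℓ nrm2 (half0 s)) +
          (C1 + 2 ^ ℓ * 2 ^ τ * (t0 * t1)) := by
        rw [EBg_add mg ℓ (fun x0 : St ℓ => (1 / 2) * clsSq τ ℓ x0 + (1 / 2) * nrm2 x0),
          EBg_add mg ℓ (fun x0 : St ℓ => (1 / 2) * clsSq τ ℓ x0), EBg_mul_left mg ℓ,
          EBg_mul_left mg ℓ, EBg_add mg ℓ (fun _ => C1), EBg_const, EBg_sum]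
        congr 2
        rw [← NR_sum_ker hge, Finset.sum_mul]
        apply Finset.sum_congr rfl
        intro z _
        rw [EBg_sum, Finset.sum_mul]
        apply Finset.sum_congr rfl
        intro w _
        rw [EBg_mul_left mg ℓ]
        congr 1
        have h2 := EB_val ℓ z (half0 s)
        have h3 := EB_val ℓ w (half0 s)
        simp only [EB] at h2 h3
        have h4 : (fun x0 : St ℓ => (1 / 2) * (val (x0 z) * t1) +
            (1 / 2) * (t1 * val (x0 w))) =
            fun x0 => ((1 / 2) * t1) * val (x0 z) + ((1 / 2) * t1) * val (x0 w) := by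
          funext x0
          ring
        rw [h4, EBg_add mg ℓ (fun x0 : St ℓ => ((1 / 2) * t1) * val (x0 z)),
          EBg_mul_left mg ℓ, EBg_mul_left mg ℓ, h2, h3]
        ring
      rw [hout, hC1]
      have n0 := EB_nrm2_le ℓ (half0 s)
      have n1 := EB_nrm2_le ℓ (half1 s)
      have hcross : (2 : ℝ) ^ ℓ * 2 ^ τ * (t0 * t1) =
          tot (half0 s) * tot (half1 s) / 2 ^ (ℓ - τ) := by
        rw [ht0, ht1]
        have hsplit : (2 : ℝ) ^ ℓ = 2 ^ (ℓ - τ) * 2 ^ τ := by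
          rw [← pow_add]
          congr 1
          omega
        have p1 : (2 : ℝ) ^ (ℓ - τ) ≠ 0 := by positivity
        have p2 : (2 : ℝ) ^ τ ≠ 0 := by positivity
        rw [hsplit]
        field_simp
      rw [hcross, nrm2_succ, tot_succ]
      have hpow : (2 : ℝ) ^ (ℓ + 1 - τ) = 2 * 2 ^ (ℓ - τ) := by
        have : ℓ + 1 - τ = (ℓ - τ) + 1 := by omega
        rw [this, pow_succ]
        ring
      rw [hpow]
      have p1 : (0 : ℝ) < 2 ^ (ℓ - τ) := by positivity
      have hfin : (tot (half0 s) + tot (half1 s)) ^ 2 / (2 * 2 ^ (ℓ - τ)) =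
          (1 / 2) * (tot (half0 s) ^ 2 / 2 ^ (ℓ - τ)) +
          (1 / 2) * (tot (half1 s) ^ 2 / 2 ^ (ℓ - τ)) +
          tot (half0 s) * tot (half1 s) / 2 ^ (ℓ - τ) := by
        field_simp
        ring
      rw [hfin]
      linarith

end Crest.Agent.R155
private theorem rz_7b7c2bf888 : type_of% @_root_.Crest.Agent.R155.NR_rel.eq_def := @_root_.Crest.Agent.R155.NR_rel.eq_def -- L293
private theorem rz_607bf5a7a0 : type_of% @_root_.Crest.Agent.R155.NR_rel.eq_1 := @_root_.Crest.Agent.R155.NR_rel.eq_1 -- L293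
end

-- ▼ part R155/NConc
section

/-!
R155, Part N, task NConc: concentration of the number of environment cards in classes.
-/

set_option autoImplicit false
set_option linter.unusedSectionVars false
set_option linter.unusedVariables false

namespace Crest.Agent.R155

open Finset Classical

/-- number of environment cards in the class of size `2^τ` given by the `k` low bits `b`. -/
noncomputable def nconcCenv (τ : ℕ) : (k : ℕ) → (Fin k → Bool) → St (τ + k) → ℝ
  | 0, _, s => env s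
  | k + 1, b, s =>
      nconcCenv τ k (fun i => b i.succ)
        (if b 0 then half1 (ℓ := τ + k) s else half0 (ℓ := τ + k) s)

/-- indicator of the class given by the `k` low bits `b`. -/
noncomputable def nconcInd (τ : ℕ) : (k : ℕ) → (Fin k → Bool) → Cube (τ + k) → ℝ
  | 0, _, _ => 1
  | k + 1, b, z =>
      let z' : Cube (τ + k) × Bool := z
      if z'.2 = b 0 then nconcInd τ k (fun i => b i.succ) z'.1 else 0

theorem nconcInd_zero_or_one (τ : ℕ) : ∀ (k : ℕ) (b : Fin k → Bool) (z : Cube (τ + k)),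
    nconcInd τ k b z = 0 ∨ nconcInd τ k b z = 1
  | 0, _, _ => Or.inr rfl
  | k + 1, b, z => by
      unfold nconcInd
      dsimp only
      split_ifs
      · exact nconcInd_zero_or_one τ k _ _
      · exact Or.inl rfl

theorem nconcInd_sum (τ : ℕ) : ∀ (k : ℕ) (b : Fin k → Bool),
    ∑ z, nconcInd τ k b z = 2 ^ τ
  | 0, _ => by
      simp only [nconcInd, Finset.sum_const, Finset.card_univ, nsmul_eq_mul, mul_one]
      have h := card_cube τ
      have h' : Fintype.card (Cube (τ + 0)) = 2 ^ τ := h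
      rw [h']
      push_cast
      rfl
  | k + 1, b => by
      have h := nconcInd_sum τ k (fun i => b i.succ)
      have h2 := sum_cube_succ (ℓ := τ + k) (fun z => nconcInd τ (k + 1) b z)
      refine h2.trans ?_
      simp only [nconcInd]
      cases hb : b 0 <;> simp [h]

theorem nconcCenv_eq (τ : ℕ) : ∀ (k : ℕ) (b : Fin k → Bool) (s : St (τ + k)),
    nconcCenv τ k b s = ∑ z, nconcInd τ k b z * ei (s z)
  | 0, _, s => by
      simp only [nconcCenv, nconcInd, one_mul]
      rfl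
  | k + 1, b, s => by
      have h2 := sum_cube_succ (ℓ := τ + k) (fun z => nconcInd τ (k + 1) b z * ei (s z))
      refine Eq.trans ?_ h2.symm
      simp only [nconcInd, nconcCenv]
      rw [nconcCenv_eq τ k]
      cases hb : b 0 <;> simp [half0, half1]


theorem nconc_exp_coin (l : ℝ) : (1 + Real.exp l) / 2 ≤ Real.exp (l / 2 + l ^ 2 / 8) := by
  have h1 : (1 + Real.exp l) / 2 = Real.exp (l / 2) * Real.cosh (l / 2) := by
    rw [Real.cosh_eq]
    have h2 : Real.exp (l / 2) * Real.exp (l / 2) = Real.exp l := by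
      rw [← Real.exp_add]; congr 1; ring
    have h3 : Real.exp (l / 2) * Real.exp (-(l / 2)) = 1 := by
      rw [← Real.exp_add]; simp
    linear_combination (-1 / 2) * h2 + (-1 / 2) * h3
  rw [h1, Real.exp_add]
  refine mul_le_mul_of_nonneg_left ?_ (Real.exp_pos _).le
  refine (Real.cosh_le_exp_half_sq _).trans (le_of_eq ?_)
  congr 1; ring

theorem nconc_coin1 (l i : ℝ) (hi : i = 0 ∨ i = 1) (u v : Option ℝ) :
    (Real.exp (l * (i * ei (mg u v false).1)) + Real.exp (l * (i * ei (mg u v true).1))) / 2 ≤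
      Real.exp (i * (l ^ 2 / 8) + (l / 2 * (i * ei u) + l / 2 * (i * ei v))) := by
  rcases hi with hi | hi
  · subst hi; simp
  · subst hi
    have hc := nconc_exp_coin l
    have h0 : (0 : ℝ) ≤ l ^ 2 / 8 := by positivity
    cases u <;> cases v
    · simp only [mg, ei, Option.isNone_none, if_true, mul_one, one_mul]
      have : Real.exp l ≤ Real.exp (l ^ 2 / 8 + (l / 2 + l / 2)) :=
        Real.exp_le_exp.mpr (by linarith)
      linarith
    · simp only [mg, ei]
      simp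
      refine le_trans (le_of_eq ?_) (hc.trans (le_of_eq ?_))
      · ring
      · congr 1; ring
    · simp only [mg, ei]
      simp
      refine le_trans (le_of_eq ?_) (hc.trans (le_of_eq ?_))
      · ring
      · congr 1; ring
    · simp only [mg, ei]
      simp
      positivity

theorem nconc_coin2 (l i : ℝ) (hi : i = 0 ∨ i = 1) (u v : Option ℝ) :
    (Real.exp (l * (i * ei (mg u v false).2)) + Real.exp (l * (i * ei (mg u v true).2))) / 2 ≤
      Real.exp (i * (l ^ 2 / 8) + (l / 2 * (i * ei u) + l / 2 * (i * ei v))) := by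
  rcases hi with hi | hi
  · subst hi; simp
  · subst hi
    have hc := nconc_exp_coin l
    have h0 : (0 : ℝ) ≤ l ^ 2 / 8 := by positivity
    cases u <;> cases v
    · simp only [mg, ei, Option.isNone_none, if_true, mul_one, one_mul]
      have : Real.exp l ≤ Real.exp (l ^ 2 / 8 + (l / 2 + l / 2)) :=
        Real.exp_le_exp.mpr (by linarith)
      linarith
    · simp only [mg, ei]
      simp
      refine le_trans (le_of_eq ?_) (hc.trans (le_of_eq ?_))
      · ring
      · congr 1; ring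
    · simp only [mg, ei]
      simp
      refine le_trans (le_of_eq ?_) (hc.trans (le_of_eq ?_))
      · ring
      · congr 1; ring
    · simp only [mg, ei]
      simp
      positivity

theorem nconc_avg (τ k : ℕ) (b : Fin (k + 1) → Bool) (l : ℝ) (x0 x1 : St (τ + k)) :
    avg (fun c : Cube (τ + k) → Bool =>
      Real.exp (l * nconcCenv τ (k + 1) b (mergeL mg x0 x1 c))) ≤
      Real.exp (l ^ 2 / 8 * 2 ^ τ) *
        (Real.exp (l / 2 * nconcCenv τ k (fun i => b i.succ) x0) *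
          Real.exp (l / 2 * nconcCenv τ k (fun i => b i.succ) x1)) := by
  have hR : Real.exp (l ^ 2 / 8 * 2 ^ τ) *
        (Real.exp (l / 2 * nconcCenv τ k (fun i => b i.succ) x0) *
          Real.exp (l / 2 * nconcCenv τ k (fun i => b i.succ) x1)) =
      ∏ z, Real.exp (nconcInd τ k (fun i => b i.succ) z * (l ^ 2 / 8) +
        (l / 2 * (nconcInd τ k (fun i => b i.succ) z * ei (x0 z)) +
         l / 2 * (nconcInd τ k (fun i => b i.succ) z * ei (x1 z)))) := by
    rw [← Real.exp_sum, ← Real.exp_add, ← Real.exp_add]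
    congr 1
    rw [Finset.sum_add_distrib, Finset.sum_add_distrib, ← Finset.sum_mul, nconcInd_sum,
      ← Finset.mul_sum, ← Finset.mul_sum, ← nconcCenv_eq, ← nconcCenv_eq]
    ring
  rw [hR]
  cases hb : b 0
  · have hL : (fun c : Cube (τ + k) → Bool =>
        Real.exp (l * nconcCenv τ (k + 1) b (mergeL mg x0 x1 c))) =
        fun c : Cube (τ + k) → Bool => ∏ z, (fun (z : Cube (τ + k)) (t : Bool) =>
          Real.exp (l * (nconcInd τ k (fun i => b i.succ) z * ei (mg (x0 z) (x1 z) t).1)))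
            z (c z) := by
      funext c
      rw [← Real.exp_sum, ← Finset.mul_sum]
      congr 2
      simp only [nconcCenv, hb]
      rw [nconcCenv_eq]
      refine Finset.sum_congr rfl fun z _ => ?_
      simp [half0, mergeL]
    rw [hL]
    refine (avg_prod (fun (z : Cube (τ + k)) (t : Bool) =>
          Real.exp (l * (nconcInd τ k (fun i => b i.succ) z *
            ei (mg (x0 z) (x1 z) t).1)))).le.trans ?_
    refine Finset.prod_le_prod (fun z _ => by positivity) fun z _ => ?_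
    exact nconc_coin1 l _ (nconcInd_zero_or_one _ _ _ _) _ _
  · have hL : (fun c : Cube (τ + k) → Bool =>
        Real.exp (l * nconcCenv τ (k + 1) b (mergeL mg x0 x1 c))) =
        fun c : Cube (τ + k) → Bool => ∏ z, (fun (z : Cube (τ + k)) (t : Bool) =>
          Real.exp (l * (nconcInd τ k (fun i => b i.succ) z * ei (mg (x0 z) (x1 z) t).2)))
            z (c z) := by
      funext c
      rw [← Real.exp_sum, ← Finset.mul_sum]
      congr 2
      simp only [nconcCenv, hb]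
      rw [nconcCenv_eq]
      refine Finset.sum_congr rfl fun z _ => ?_
      simp [half1, mergeL]
    rw [hL]
    refine (avg_prod (fun (z : Cube (τ + k)) (t : Bool) =>
          Real.exp (l * (nconcInd τ k (fun i => b i.succ) z *
            ei (mg (x0 z) (x1 z) t).2)))).le.trans ?_
    refine Finset.prod_le_prod (fun z _ => by positivity) fun z _ => ?_
    exact nconc_coin2 l _ (nconcInd_zero_or_one _ _ _ _) _ _

/-- the moment generating function of the number of environment cards in a class -/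
theorem nconc_mgf (τ : ℕ) : ∀ (k : ℕ) (b : Fin k → Bool) (l : ℝ) (s : St (τ + k)),
    EB (τ + k) (fun x => Real.exp (l * nconcCenv τ k b x)) s ≤
      Real.exp (l * (env s / 2 ^ k) + l ^ 2 * 2 ^ τ / 4)
  | 0, b, l, s => by
      refine (EB_mono_on (τ + 0) _ (fun _ => Real.exp (l * env s)) s ?_).trans ?_
      · intro x _ hx _
        simp only [nconcCenv]
        rw [hx]
      · unfold EB
        rw [EBg_const]
        refine Real.exp_le_exp.mpr ?_
        have : (0 : ℝ) ≤ l ^ 2 * 2 ^ τ / 4 := by positivity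
        simp only [pow_zero, div_one]
        linarith
  | k + 1, b, l, s => by
      set b' : Fin k → Bool := fun i => b i.succ with hb'
      have ih0 := nconc_mgf τ k b' (l / 2) (half0 (ℓ := τ + k) s)
      have ih1 := nconc_mgf τ k b' (l / 2) (half1 (ℓ := τ + k) s)
      have hstep : EB (τ + (k + 1)) (fun x => Real.exp (l * nconcCenv τ (k + 1) b x)) s =
          EBg mg (τ + k) (fun x0 => EBg mg (τ + k) (fun x1 =>
            avg (fun c : Cube (τ + k) → Bool =>
              Real.exp (l * nconcCenv τ (k + 1) b (mergeL mg x0 x1 c))))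
            (half1 (ℓ := τ + k) s)) (half0 (ℓ := τ + k) s) := rfl
      rw [hstep]
      set E0 := EB (τ + k) (fun x => Real.exp (l / 2 * nconcCenv τ k b' x)) (half0 (ℓ := τ + k) s)
        with hE0
      set E1 := EB (τ + k) (fun x => Real.exp (l / 2 * nconcCenv τ k b' x)) (half1 (ℓ := τ + k) s)
        with hE1
      have h1 : ∀ x0 : St (τ + k), EBg mg (τ + k) (fun x1 =>
            avg (fun c : Cube (τ + k) → Bool =>
              Real.exp (l * nconcCenv τ (k + 1) b (mergeL mg x0 x1 c))))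
            (half1 (ℓ := τ + k) s) ≤
            (Real.exp (l ^ 2 / 8 * 2 ^ τ) * E1) * Real.exp (l / 2 * nconcCenv τ k b' x0) := by
        intro x0
        refine (EBg_mono mg (τ + k) _ _ _ (fun x1 => nconc_avg τ k b l x0 x1)).trans ?_
        rw [EBg_mul_left, EBg_mul_left]
        refine le_of_eq ?_
        change _ * (_ * E1) = _
        ring
      refine (EBg_mono mg (τ + k) _ _ _ h1).trans ?_
      rw [EBg_mul_left]
      change _ * E0 ≤ _
      have hpos : 0 ≤ Real.exp (l ^ 2 / 8 * 2 ^ τ) := (Real.exp_pos _).le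
      have hE1n : 0 ≤ E1 := by
        have := EBg_mono mg (τ + k) (fun _ => (0 : ℝ))
          (fun x => Real.exp (l / 2 * nconcCenv τ k b' x)) (half1 (ℓ := τ + k) s)
          (fun x => (Real.exp_pos _).le)
        rw [EBg_const] at this
        exact this
      have hE0n : 0 ≤ E0 := by
        have := EBg_mono mg (τ + k) (fun _ => (0 : ℝ))
          (fun x => Real.exp (l / 2 * nconcCenv τ k b' x)) (half0 (ℓ := τ + k) s)
          (fun x => (Real.exp_pos _).le)
        rw [EBg_const] at this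
        exact this
      calc Real.exp (l ^ 2 / 8 * 2 ^ τ) * E1 * E0
          ≤ Real.exp (l ^ 2 / 8 * 2 ^ τ) *
              Real.exp (l / 2 * (env (half1 (ℓ := τ + k) s) / 2 ^ k) + (l / 2) ^ 2 * 2 ^ τ / 4) *
              Real.exp (l / 2 * (env (half0 (ℓ := τ + k) s) / 2 ^ k) + (l / 2) ^ 2 * 2 ^ τ / 4) := by
            gcongr
        _ = Real.exp (l * (env s / 2 ^ (k + 1)) + l ^ 2 * 2 ^ τ / 4) := by
            rw [← Real.exp_add, ← Real.exp_add]
            congr 1
            have he : env s = env (half0 (ℓ := τ + k) s) + env (half1 (ℓ := τ + k) s) :=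
              env_succ (ℓ := τ + k) s
            rw [he, pow_succ]
            field_simp
            ring

theorem nconc_exists_of_not_good (ρ : ℝ) (τ : ℕ) : ∀ (k : ℕ) (s : St (τ + k)),
    ¬ Good ρ τ (τ + k) s → ∃ b : Fin k → Bool, (1 - ρ) * 2 ^ τ < nconcCenv τ k b s
  | 0, s => by
      intro h
      refine ⟨fun i => i.elim0, ?_⟩
      rw [nconcCenv]
      cases τ with
      | zero => exact not_le.mp (by simpa [Good] using h)
      | succ n =>
          have h2 : ¬ (env s ≤ (1 - ρ) * 2 ^ (n + 1)) := by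
            intro h3
            apply h
            change (if n + 1 ≤ n + 1 then _ else _)
            simpa using h3
          exact not_le.mp h2
  | k + 1, s => by
      intro h
      have h2 : ¬ (Good ρ τ (τ + k) (half0 (ℓ := τ + k) s) ∧
          Good ρ τ (τ + k) (half1 (ℓ := τ + k) s)) := by
        intro h3
        apply h
        change (if τ + k + 1 ≤ τ then _ else _)
        rw [if_neg (by omega)]
        exact h3
      rw [not_and_or] at h2
      rcases h2 with h2 | h2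
      · obtain ⟨b, hb⟩ := nconc_exists_of_not_good ρ τ k _ h2
        refine ⟨Fin.cons false b, ?_⟩
        simpa [nconcCenv] using hb
      · obtain ⟨b, hb⟩ := nconc_exists_of_not_good ρ τ k _ h2
        refine ⟨Fin.cons true b, ?_⟩
        simpa [nconcCenv] using hb

/-- For `τ ≤ ℓ`, after one butterfly from any state with at most `(1 - ρ - η) 2^ℓ` environment cards,
the probability that some class of size `2^τ` has more than `(1-ρ) 2^τ` of them is at most
`2^(ℓ-τ) exp (-η² 2^τ)`.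
Proof: for a class `cl` (indexed by the low `ℓ-τ` bits) let `Z_cl` be the number of environment cards
in it. Claim: `E exp (λ (Z_cl - 2^τ env s / 2^ℓ)) ≤ exp (λ² 2^τ / 4)` by induction on `ℓ`:
given the two halves, `Z_(cl,b) = ½ (Z_cl(x0) + Z_cl(x1)) + ∑_{single pairs} ± ½`,
`(e^{λ/2}+e^{-λ/2})/2 ≤ e^{λ²/8}`, and the induction hypothesis with `λ/2` for both halves:
`λ² 2^τ/8 + 2 (λ/2)² 2^τ/4 = λ² 2^τ/4`. Markov with `λ = 2η` and the union bound. -/
theorem EB_bad {τ ℓ : ℕ} (h : τ ≤ ℓ) {ρ η : ℝ} (hη : 0 < η) (s : St ℓ)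
    (hs : env s ≤ (1 - ρ - η) * 2 ^ ℓ) :
    EB ℓ (fun x => if Good ρ τ ℓ x then 0 else 1) s ≤
      2 ^ (ℓ - τ) * Real.exp (-(η ^ 2 * 2 ^ τ)) := by
  obtain ⟨k, rfl⟩ := Nat.exists_eq_add_of_le h
  have hk : τ + k - τ = k := by omega
  rw [hk]
  have h1 : ∀ x : St (τ + k), (if Good ρ τ (τ + k) x then (0 : ℝ) else 1) ≤
      ∑ b : Fin k → Bool, Real.exp (-(2 * η * ((1 - ρ) * 2 ^ τ))) *
        Real.exp (2 * η * nconcCenv τ k b x) := by
    intro x
    split_ifs with hg
    · positivity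
    · obtain ⟨b, hb⟩ := nconc_exists_of_not_good ρ τ k x hg
      have h2 : (1 : ℝ) ≤ Real.exp (-(2 * η * ((1 - ρ) * 2 ^ τ))) *
          Real.exp (2 * η * nconcCenv τ k b x) := by
        rw [← Real.exp_add]
        refine Real.one_le_exp ?_
        nlinarith
      refine h2.trans ?_
      exact Finset.single_le_sum (f := fun b : Fin k → Bool =>
        Real.exp (-(2 * η * ((1 - ρ) * 2 ^ τ))) * Real.exp (2 * η * nconcCenv τ k b x))
        (fun _ _ => by positivity) (Finset.mem_univ b)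
  refine (EBg_mono mg (τ + k) _ _ s h1).trans ?_
  rw [EBg_sum]
  have h3 : ∀ b ∈ (Finset.univ : Finset (Fin k → Bool)),
      EBg mg (τ + k) (fun x => Real.exp (-(2 * η * ((1 - ρ) * 2 ^ τ))) *
        Real.exp (2 * η * nconcCenv τ k b x)) s ≤ Real.exp (-(η ^ 2 * 2 ^ τ)) := by
    intro b _
    rw [EBg_mul_left]
    have h4 := nconc_mgf τ k b (2 * η) s
    refine (mul_le_mul_of_nonneg_left h4 (Real.exp_pos _).le).trans ?_
    rw [← Real.exp_add]
    refine Real.exp_le_exp.mpr ?_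
    have h5 : env s / 2 ^ k ≤ (1 - ρ - η) * 2 ^ τ := by
      rw [div_le_iff₀ (by positivity)]
      calc env s ≤ (1 - ρ - η) * 2 ^ (τ + k) := hs
        _ = (1 - ρ - η) * 2 ^ τ * 2 ^ k := by rw [pow_add]; ring
    have h6 : 2 * η * (env s / 2 ^ k) ≤ 2 * η * ((1 - ρ - η) * 2 ^ τ) :=
      mul_le_mul_of_nonneg_left h5 (by positivity)
    nlinarith
  refine (Finset.sum_le_sum h3).trans ?_
  rw [Finset.sum_const, Finset.card_univ]
  simp

end Crest.Agent.R155
private theorem rz_76f7b94b52 : type_of% @_root_.Crest.Agent.R155.nconcCenv.eq_def := @_root_.Crest.Agent.R155.nconcCenv.eq_def -- L16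
private theorem rz_b62973c5c1 : type_of% @_root_.Crest.Agent.R155.nconcCenv.eq_1 := @_root_.Crest.Agent.R155.nconcCenv.eq_1 -- L16
private theorem rz_0a15287aa0 : type_of% @_root_.Crest.Agent.R155.nconcInd.eq_def := @_root_.Crest.Agent.R155.nconcInd.eq_def -- L23
private theorem rz_b7577e3217 : type_of% @_root_.Crest.Agent.R155.nconcInd.eq_1 := @_root_.Crest.Agent.R155.nconcInd.eq_1 -- L23
end

-- ▼ part R155/NContr
section

/-!
R155, Part N, task NContr: contraction over two butterflies and iteration.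

With `ρ = η = 1/16`, `r = 1 - ρ/2 = 31/32`, `2^τ ≥ 512 ln 2 · ℓ` : for `tot s = 0`,
`env s ≤ (7/8) 2^ℓ`:
`EB ℓ (EB ℓ nrm2) s ≤ κ nrm2 s`, `κ = r^(ℓ-τ) + ∑_{i=τ}^{ℓ-1} r^(ℓ-1-i) 2^(-i-1) + 2^(ℓ-τ) exp (-2^τ/256)`,
(on `Good` states `EB_nrm2_good`, then `EB_nrm2_le`, `EB_clsSq`; on bad states `nrm2 x ≤ nrm2 s` by
`EB_mono_on` and `EB_bad`). `κ ≤ 2^(-ℓ/25)` for large `ℓ`; `133/25 = 5.32`.
-/

set_option autoImplicit false
set_option linter.unusedSectionVars false
set_option linter.unusedVariables false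

namespace Crest.Agent.R155

open Finset

theorem NContr.nrm2_nonneg {ℓ : ℕ} (s : St ℓ) : 0 ≤ nrm2 s :=
  Finset.sum_nonneg (fun _ _ => sq_nonneg _)

theorem NContr.clsSq_nonneg (τ ℓ : ℕ) (s : St ℓ) : 0 ≤ clsSq τ ℓ s := by
  induction ℓ with
  | zero => exact sq_nonneg _
  | succ ℓ ih =>
    unfold clsSq
    split_ifs
    · exact sq_nonneg _
    · exact add_nonneg (ih _) (ih _)

open Classical in
theorem NContr.pt {τ ℓ : ℕ} (h : τ ≤ ℓ) (N : ℝ) (x : St ℓ) (hx : nrm2 x ≤ N) :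
    EB ℓ nrm2 x ≤ ((31 / 32 : ℝ) ^ (ℓ - τ) * nrm2 x +
        ∑ i ∈ Finset.Ico τ ℓ, ((31 / 32 : ℝ) ^ (ℓ - 1 - i) * (1 / 2) ^ (i + 1)) * clsSq i ℓ x) +
        N * (if Good (1 / 16) τ ℓ x then 0 else 1) := by
  have hr : (1 - (1 / 16 : ℝ) / 2) = 31 / 32 := by norm_num
  by_cases hg : Good (1 / 16) τ ℓ x
  · have := EB_nrm2_good (ρ := 1 / 16) (by norm_num) (by norm_num) h hg
    rw [hr] at this
    rw [if_pos hg, mul_zero, add_zero]
    exact this
  · rw [if_neg hg, mul_one]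
    have h1 := EB_nrm2_le ℓ x
    have h2 : 0 ≤ ((31 / 32 : ℝ) ^ (ℓ - τ) * nrm2 x +
        ∑ i ∈ Finset.Ico τ ℓ, ((31 / 32 : ℝ) ^ (ℓ - 1 - i) * (1 / 2) ^ (i + 1)) * clsSq i ℓ x) := by
      apply add_nonneg
      · exact mul_nonneg (by positivity) (NContr.nrm2_nonneg x)
      · exact Finset.sum_nonneg (fun i _ => mul_nonneg (by positivity) (NContr.clsSq_nonneg i ℓ x))
    linarith

theorem EB_two {τ ℓ : ℕ} (h : τ ≤ ℓ) (s : St ℓ) (h0 : tot s = 0) (hs : env s ≤ (7 / 8) * 2 ^ ℓ) :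
    EB ℓ (EB ℓ nrm2) s ≤
      ((31 / 32 : ℝ) ^ (ℓ - τ) +
        ∑ i ∈ Finset.Ico τ ℓ, (31 / 32 : ℝ) ^ (ℓ - 1 - i) * (1 / 2) ^ (i + 1) +
        2 ^ (ℓ - τ) * Real.exp (-(2 ^ τ / 256))) * nrm2 s := by
  classical
  have hN0 := NContr.nrm2_nonneg s
  have step1 : EB ℓ (EB ℓ nrm2) s ≤
      EB ℓ (fun x => ((31 / 32 : ℝ) ^ (ℓ - τ) * nrm2 x +
        ∑ i ∈ Finset.Ico τ ℓ, ((31 / 32 : ℝ) ^ (ℓ - 1 - i) * (1 / 2) ^ (i + 1)) * clsSq i ℓ x) +
        nrm2 s * (if Good (1 / 16) τ ℓ x then 0 else 1)) s := by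
    apply EB_mono_on
    intro x _ _ hx
    exact NContr.pt h (nrm2 s) x hx
  refine step1.trans ?_
  have e1 : EB ℓ (fun x => ((31 / 32 : ℝ) ^ (ℓ - τ) * nrm2 x +
        ∑ i ∈ Finset.Ico τ ℓ, ((31 / 32 : ℝ) ^ (ℓ - 1 - i) * (1 / 2) ^ (i + 1)) * clsSq i ℓ x) +
        nrm2 s * (if Good (1 / 16) τ ℓ x then 0 else 1)) s
      = ((31 / 32 : ℝ) ^ (ℓ - τ) * EB ℓ nrm2 s +
        ∑ i ∈ Finset.Ico τ ℓ, ((31 / 32 : ℝ) ^ (ℓ - 1 - i) * (1 / 2) ^ (i + 1)) * EB ℓ (clsSq i ℓ) s) +
        nrm2 s * EB ℓ (fun x => if Good (1 / 16) τ ℓ x then 0 else 1) s := by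
    unfold EB
    rw [EBg_add, EBg_add, EBg_mul_left, EBg_mul_left, EBg_sum]
    congr 2
    apply Finset.sum_congr rfl
    intro i _
    rw [EBg_mul_left]
  rw [e1]
  have b1 : (31 / 32 : ℝ) ^ (ℓ - τ) * EB ℓ nrm2 s ≤ (31 / 32 : ℝ) ^ (ℓ - τ) * nrm2 s :=
    mul_le_mul_of_nonneg_left (EB_nrm2_le ℓ s) (by positivity)
  have b2 : ∑ i ∈ Finset.Ico τ ℓ, ((31 / 32 : ℝ) ^ (ℓ - 1 - i) * (1 / 2) ^ (i + 1)) * EB ℓ (clsSq i ℓ) s
      ≤ ∑ i ∈ Finset.Ico τ ℓ, ((31 / 32 : ℝ) ^ (ℓ - 1 - i) * (1 / 2) ^ (i + 1)) * nrm2 s := by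
    apply Finset.sum_le_sum
    intro i hi
    apply mul_le_mul_of_nonneg_left _ (by positivity)
    have := EB_clsSq (le_of_lt (Finset.mem_Ico.mp hi).2) s
    rw [h0] at this
    simpa using this
  have b3 : EB ℓ (fun x => if Good (1 / 16) τ ℓ x then (0:ℝ) else 1) s ≤
      2 ^ (ℓ - τ) * Real.exp (-(2 ^ τ / 256)) := by
    have := EB_bad h (ρ := 1 / 16) (η := 1 / 16) (by norm_num) s (by
      refine hs.trans (le_of_eq ?_)
      norm_num)
    have e : ((1:ℝ) / 16) ^ 2 * 2 ^ τ = 2 ^ τ / 256 := by ring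
    rw [e] at this
    convert this using 2
  have b4 := mul_le_mul_of_nonneg_left b3 hN0
  rw [← Finset.sum_mul] at b2
  nlinarith [b1, b2, b4]

/-- the contraction constant -/
noncomputable def NContr.kap (τ ℓ : ℕ) : ℝ :=
  ((31 / 32 : ℝ) ^ (ℓ - τ) +
        ∑ i ∈ Finset.Ico τ ℓ, (31 / 32 : ℝ) ^ (ℓ - 1 - i) * (1 / 2) ^ (i + 1) +
        2 ^ (ℓ - τ) * Real.exp (-(2 ^ τ / 256)))

theorem NContr.kap_nonneg (τ ℓ : ℕ) : 0 ≤ NContr.kap τ ℓ := by
  unfold NContr.kap
  have : 0 ≤ ∑ i ∈ Finset.Ico τ ℓ, (31 / 32 : ℝ) ^ (ℓ - 1 - i) * (1 / 2) ^ (i + 1) :=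
    Finset.sum_nonneg (fun i _ => by positivity)
  positivity

theorem NContr.iter {τ ℓ : ℕ} (h : τ ≤ ℓ) (k : ℕ) : ∀ s : St ℓ, tot s = 0 →
    env s ≤ (7 / 8) * 2 ^ ℓ →
    ((fun Φ : St ℓ → ℝ => EB ℓ Φ)^[2 * k] nrm2) s ≤ (NContr.kap τ ℓ) ^ k * nrm2 s := by
  induction k with
  | zero => intro s _ _; simp
  | succ k ih =>
    intro s h0 hs
    have e : 2 * (k + 1) = (2 * k + 1) + 1 := by ring
    rw [e, Function.iterate_succ_apply', Function.iterate_succ_apply']
    set F := ((fun Φ : St ℓ → ℝ => EB ℓ Φ)^[2 * k] nrm2) with hF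
    have h1 : ∀ x : St ℓ, tot x = 0 → env x ≤ (7 / 8) * 2 ^ ℓ →
        EB ℓ F x ≤ (NContr.kap τ ℓ) ^ k * EB ℓ nrm2 x := by
      intro x hx0 hx
      have : EB ℓ F x ≤ EB ℓ (fun y => (NContr.kap τ ℓ) ^ k * nrm2 y) x := by
        apply EB_mono_on
        intro y hy1 hy2 _
        exact ih y (hy1.trans hx0) (by rw [hy2]; exact hx)
      refine this.trans (le_of_eq ?_)
      unfold EB
      rw [EBg_mul_left]
    have h2 : EB ℓ (EB ℓ F) s ≤ EB ℓ (fun x => (NContr.kap τ ℓ) ^ k * EB ℓ nrm2 x) s := by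
      apply EB_mono_on
      intro x hx1 hx2 _
      exact h1 x (hx1.trans h0) (by rw [hx2]; exact hs)
    have h3 : EB ℓ (fun x => (NContr.kap τ ℓ) ^ k * EB ℓ nrm2 x) s
        = (NContr.kap τ ℓ) ^ k * EB ℓ (EB ℓ nrm2) s := by
      unfold EB
      rw [EBg_mul_left]
    have h4 := EB_two h s h0 hs
    calc EB ℓ (EB ℓ F) s ≤ (NContr.kap τ ℓ) ^ k * EB ℓ (EB ℓ nrm2) s := h2.trans (le_of_eq h3)
      _ ≤ (NContr.kap τ ℓ) ^ k * (NContr.kap τ ℓ * nrm2 s) := by
          apply mul_le_mul_of_nonneg_left _ (pow_nonneg (NContr.kap_nonneg τ ℓ) k)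
          exact h4
      _ = (NContr.kap τ ℓ) ^ (k + 1) * nrm2 s := by ring

/-- the sum of the middle terms -/
theorem NContr.mid (τ ℓ : ℕ) :
    ∑ i ∈ Finset.Ico τ ℓ, (31 / 32 : ℝ) ^ (ℓ - 1 - i) * (1 / 2) ^ (i + 1) ≤ 2 * (31 / 32 : ℝ) ^ ℓ := by
  have h1 : ∑ i ∈ Finset.Ico τ ℓ, (31 / 32 : ℝ) ^ (ℓ - 1 - i) * (1 / 2) ^ (i + 1) ≤
      ∑ i ∈ Finset.range ℓ, (31 / 32 : ℝ) ^ (ℓ - 1 - i) * (1 / 2) ^ (i + 1) := by
    apply Finset.sum_le_sum_of_subset_of_nonneg
    · intro i hi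
      exact Finset.mem_range.mpr (Finset.mem_Ico.mp hi).2
    · intro i _ _
      positivity
  refine h1.trans ?_
  have h2 : ∀ n : ℕ, ∑ i ∈ Finset.range n, (31 / 32 : ℝ) ^ (n - 1 - i) * (1 / 2) ^ (i + 1) ≤
      2 * (31 / 32 : ℝ) ^ n - (16 / 15) * (1 / 2) ^ n := by
    intro n
    induction n with
    | zero => norm_num
    | succ n ih =>
      rw [Finset.sum_range_succ]
      have e : ∑ i ∈ Finset.range n, (31 / 32 : ℝ) ^ (n + 1 - 1 - i) * (1 / 2) ^ (i + 1) =
          (31 / 32) * ∑ i ∈ Finset.range n, (31 / 32 : ℝ) ^ (n - 1 - i) * (1 / 2) ^ (i + 1) := by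
        rw [Finset.mul_sum]
        apply Finset.sum_congr rfl
        intro i hi
        have hi' := Finset.mem_range.mp hi
        have : n + 1 - 1 - i = (n - 1 - i) + 1 := by omega
        rw [this, pow_succ]
        ring
      rw [e]
      have e2 : n + 1 - 1 - n = 0 := by omega
      rw [e2, pow_zero, one_mul]
      have e3 : (1 / 2 : ℝ) ^ (n + 1) = (1 / 2) ^ n * (1 / 2) := pow_succ _ _
      have e4 : (31 / 32 : ℝ) ^ (n + 1) = (31 / 32) ^ n * (31 / 32) := pow_succ _ _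
      rw [e3, e4]
      have p : 0 < (1 / 2 : ℝ) ^ n := by positivity
      nlinarith
  have := h2 ℓ
  have p : 0 < (1 / 2 : ℝ) ^ ℓ := by positivity
  linarith

theorem NContr.kap_le (ℓ : ℕ) (hℓ : 1 ≤ ℓ) (hτ : Nat.clog 2 (512 * ℓ) ≤ ℓ) :
    NContr.kap (Nat.clog 2 (512 * ℓ)) ℓ ≤
      (1024 * ℓ + 2) * (31 / 32 : ℝ) ^ ℓ + Real.exp (-ℓ) := by
  set τ := Nat.clog 2 (512 * ℓ) with hτdef
  have h1 : 512 * ℓ ≤ 2 ^ τ := Nat.le_pow_clog (by norm_num) _
  have h2 : 2 ^ τ ≤ 1024 * ℓ := by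
    have h3 : 1 ≤ τ := by
      rw [hτdef]
      exact Nat.clog_pos (by norm_num) (by omega)
    have h4 : 2 ^ (τ - 1) < 512 * ℓ := by
      have := Nat.pow_pred_clog_lt_self (b := 2) (by norm_num) (x := 512 * ℓ) (by omega)
      simpa using this
    have h5 : 2 ^ τ = 2 * 2 ^ (τ - 1) := by
      rw [← pow_succ']
      congr 1
      omega
    omega
  have h1' : (512 : ℝ) * ℓ ≤ 2 ^ τ := by exact_mod_cast h1
  have h2' : (2 : ℝ) ^ τ ≤ 1024 * ℓ := by exact_mod_cast h2
  unfold NContr.kap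
  have t1 : (31 / 32 : ℝ) ^ (ℓ - τ) ≤ 1024 * ℓ * (31 / 32 : ℝ) ^ ℓ := by
    have e : (31 / 32 : ℝ) ^ ℓ = (31 / 32 : ℝ) ^ (ℓ - τ) * (31 / 32 : ℝ) ^ τ := by
      rw [← pow_add]
      congr 1
      omega
    rw [e]
    have g : 1 ≤ (2 : ℝ) ^ τ * (31 / 32 : ℝ) ^ τ := by
      rw [← mul_pow]
      exact one_le_pow₀ (by norm_num)
    have p : 0 < (31 / 32 : ℝ) ^ (ℓ - τ) := by positivity
    have p2 : 0 < (31 / 32 : ℝ) ^ τ := by positivity
    calc (31 / 32 : ℝ) ^ (ℓ - τ) = (31 / 32 : ℝ) ^ (ℓ - τ) * 1 := (mul_one _).symm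
      _ ≤ (31 / 32 : ℝ) ^ (ℓ - τ) * ((2 : ℝ) ^ τ * (31 / 32 : ℝ) ^ τ) :=
          mul_le_mul_of_nonneg_left g p.le
      _ ≤ (31 / 32 : ℝ) ^ (ℓ - τ) * ((1024 * ℓ) * (31 / 32 : ℝ) ^ τ) := by
          apply mul_le_mul_of_nonneg_left _ p.le
          exact mul_le_mul_of_nonneg_right h2' p2.le
      _ = 1024 * ℓ * ((31 / 32 : ℝ) ^ (ℓ - τ) * (31 / 32 : ℝ) ^ τ) := by ring
  have t2 := NContr.mid τ ℓ
  have t3 : (2 : ℝ) ^ (ℓ - τ) * Real.exp (-(2 ^ τ / 256)) ≤ Real.exp (-ℓ) := by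
    have g1 : (2 : ℝ) ^ (ℓ - τ) ≤ Real.exp ℓ := by
      have : (2 : ℝ) ^ (ℓ - τ) ≤ 2 ^ ℓ := pow_le_pow_right₀ (by norm_num) (by omega)
      refine this.trans ?_
      have : (2 : ℝ) ≤ Real.exp 1 := by
        have := Real.add_one_le_exp (1 : ℝ)
        linarith
      calc (2 : ℝ) ^ ℓ ≤ (Real.exp 1) ^ ℓ := pow_le_pow_left₀ (by norm_num) this _
        _ = Real.exp ℓ := by rw [← Real.exp_nat_mul]; simp
    have g2 : Real.exp (-(2 ^ τ / 256)) ≤ Real.exp (-(2 * ℓ)) := by
      apply Real.exp_le_exp.mpr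
      linarith
    calc (2 : ℝ) ^ (ℓ - τ) * Real.exp (-(2 ^ τ / 256)) ≤ Real.exp ℓ * Real.exp (-(2 * ℓ)) := by
          apply mul_le_mul g1 g2 (Real.exp_pos _).le (Real.exp_pos _).le
      _ = Real.exp (-ℓ) := by
          rw [← Real.exp_add]
          congr 1
          ring
  linarith

theorem NContr.clog_le : ∃ ℓ0 : ℕ, ∀ ℓ, ℓ0 ≤ ℓ → 1 ≤ ℓ ∧ Nat.clog 2 (512 * ℓ) ≤ ℓ := by
  refine ⟨14, fun ℓ hℓ => ⟨by omega, ?_⟩⟩
  apply Nat.clog_le_of_le_pow
  induction ℓ, hℓ using Nat.le_induction with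
  | base => norm_num
  | succ n hn ih =>
    rw [pow_succ]
    omega

theorem NContr.small : ∃ ℓ0 : ℕ, ∀ ℓ : ℕ, ℓ0 ≤ ℓ →
    (1024 * ℓ + 2) * (31 / 32 : ℝ) ^ ℓ + Real.exp (-ℓ) ≤ (2 : ℝ) ^ (-(1 / 25 : ℝ) * (ℓ : ℝ)) := by
  -- q = (31/32) * 2^(1/25) < 1
  have hb : (2 : ℝ) ^ (1 / 25 : ℝ) < 32 / 31 := by
    have : (2 : ℝ) ^ (1 / 25 : ℝ) < ((32 / 31 : ℝ) ^ (25 : ℕ)) ^ (1 / 25 : ℝ) := by
      apply Real.rpow_lt_rpow (by norm_num) _ (by norm_num)
      norm_num
    refine this.trans_le (le_of_eq ?_)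
    rw [← Real.rpow_natCast, ← Real.rpow_mul (by norm_num)]
    norm_num
  set b : ℝ := (2 : ℝ) ^ (1 / 25 : ℝ) with hbdef
  have hb0 : 0 < b := by positivity
  have q1 : |b * (31 / 32)| < 1 := by
    rw [abs_of_pos (by positivity)]
    nlinarith
  have q2 : |b * Real.exp (-1)| < 1 := by
    rw [abs_of_pos (by positivity)]
    have : Real.exp (-1) < 1 / 2 := by
      rw [Real.exp_neg, inv_lt_comm₀ (Real.exp_pos _) (by norm_num)]
      have := Real.exp_one_gt_d9
      norm_num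
      linarith
    nlinarith [Real.exp_pos (-1)]
  have l1 : Filter.Tendsto (fun n : ℕ => (n : ℝ) ^ 1 * (b * (31 / 32)) ^ n) Filter.atTop (nhds 0) :=
    tendsto_pow_const_mul_const_pow_of_abs_lt_one 1 q1
  have l2 : Filter.Tendsto (fun n : ℕ => (b * (31 / 32)) ^ n) Filter.atTop (nhds 0) :=
    tendsto_pow_atTop_nhds_zero_of_abs_lt_one q1
  have l3 : Filter.Tendsto (fun n : ℕ => (b * Real.exp (-1)) ^ n) Filter.atTop (nhds 0) :=
    tendsto_pow_atTop_nhds_zero_of_abs_lt_one q2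
  have l4 : Filter.Tendsto (fun n : ℕ => 1024 * ((n : ℝ) ^ 1 * (b * (31 / 32)) ^ n) +
      2 * (b * (31 / 32)) ^ n + (b * Real.exp (-1)) ^ n) Filter.atTop (nhds 0) := by
    have := ((l1.const_mul 1024).add (l2.const_mul 2)).add l3
    simpa using this
  have l5 := l4.eventually (gt_mem_nhds (zero_lt_one))
  rw [Filter.eventually_atTop] at l5
  obtain ⟨ℓ0, h⟩ := l5
  refine ⟨ℓ0, fun ℓ hℓ => ?_⟩
  have h1 := h ℓ hℓ
  have e : (2 : ℝ) ^ (-(1 / 25 : ℝ) * (ℓ : ℝ)) = (b ^ ℓ)⁻¹ := by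
    rw [hbdef, ← Real.rpow_natCast, ← Real.rpow_mul (by norm_num), neg_mul,
      Real.rpow_neg (by norm_num)]
  rw [e]
  have hbl : 0 < b ^ ℓ := by positivity
  rw [inv_eq_one_div, le_div_iff₀ hbl]
  have e2 : Real.exp (-ℓ) = Real.exp (-1) ^ ℓ := by
    rw [← Real.exp_nat_mul]
    congr 1
    ring
  rw [e2]
  refine le_trans (le_of_eq ?_) h1.le
  rw [mul_pow, mul_pow]
  ring

theorem contraction : ∃ ℓ0 : ℕ, ∀ ℓ, ℓ0 ≤ ℓ → ∀ s : St ℓ, tot s = 0 → env s ≤ (7 / 8) * 2 ^ ℓ →
    ((fun Φ : St ℓ → ℝ => EB ℓ Φ)^[266] nrm2) s ≤ (2 : ℝ) ^ (-(53 / 10 : ℝ) * (ℓ : ℝ)) * nrm2 s := by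
  obtain ⟨ℓ1, h1⟩ := NContr.clog_le
  obtain ⟨ℓ2, h2⟩ := NContr.small
  refine ⟨max ℓ1 ℓ2, fun ℓ hℓ s h0 hs => ?_⟩
  obtain ⟨g1, g2⟩ := h1 ℓ ((le_max_left _ _).trans hℓ)
  have g3 := h2 ℓ ((le_max_right _ _).trans hℓ)
  have g4 := (NContr.kap_le ℓ g1 g2).trans g3
  have g5 := NContr.iter g2 133 s h0 hs
  have e : 2 * 133 = 266 := by norm_num
  rw [e] at g5
  refine g5.trans ?_
  apply mul_le_mul_of_nonneg_right _ (NContr.nrm2_nonneg s)
  calc (NContr.kap (Nat.clog 2 (512 * ℓ)) ℓ) ^ 133 ≤ ((2 : ℝ) ^ (-(1 / 25 : ℝ) * (ℓ : ℝ))) ^ 133 :=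
        pow_le_pow_left₀ (NContr.kap_nonneg _ _) g4 _
    _ = (2 : ℝ) ^ ((-(1 / 25 : ℝ) * (ℓ : ℝ)) * 133) := by
        rw [← Real.rpow_natCast, ← Real.rpow_mul (by norm_num)]
        norm_num
    _ ≤ (2 : ℝ) ^ (-(53 / 10 : ℝ) * (ℓ : ℝ)) := by
        apply Real.rpow_le_rpow_of_exponent_le (by norm_num)
        have : (0 : ℝ) ≤ ℓ := Nat.cast_nonneg _
        linarith

end Crest.Agent.R155
end

-- ▼ part R155/Law

/-!
R155, task Law: the law of `t` shuffles as a function on `Perm (Fin (2m))`.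
-/

set_option autoImplicit false
set_option linter.unusedSectionVars false
set_option linter.unusedVariables false

namespace Crest.Agent.R155

open Finset Equiv Crest.ProbabilityR.Shuffle

/-- the law of the position map after `t` shuffles -/
noncomputable def law (m t : ℕ) (g : Perm (Fin (2 * m))) : ℝ :=
  Crest.FinProb.uniformProb {cs : Fin t → Fin m → Bool | iterPos m t cs = ⇑g}

theorem tv_eq_law (m t : ℕ) : tvFromUniform m t =
    (1 / 2) * ∑ g : Perm (Fin (2 * m)), |law m t g - 1 / ((2 * m).factorial : ℝ)| := rfl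

theorem law_nonneg (m t : ℕ) (g : Perm (Fin (2 * m))) : 0 ≤ law m t g := by
  unfold law Crest.FinProb.uniformProb
  positivity

theorem stepPos_inj (m : ℕ) (c : Fin m → Bool) : Function.Injective (stepPos m c) := by
  intro x y h
  have hx := x.isLt
  have hy := y.isLt
  have hmx : x.val % m < m := Nat.mod_lt _ (by omega)
  have hmy : y.val % m < m := Nat.mod_lt _ (by omega)
  have hval : (stepPos m c x).val = (stepPos m c y).val := by rw [h]
  simp only [stepPos] at hval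
  have hmod : x.val % m = y.val % m := by
    split at hval <;> split at hval <;> omega
  have hc : c ⟨x.val % m, hmx⟩ = c ⟨y.val % m, hmy⟩ := by
    congr 1
    exact Fin.ext hmod
  rw [hc] at hval
  have hhalf : (m ≤ x.val) ↔ (m ≤ y.val) := by
    by_cases h1 : m ≤ x.val <;> by_cases h2 : m ≤ y.val <;>
      cases hcy : c ⟨y.val % m, hmy⟩ <;> simp [h1, h2, hcy] at hval ⊢ <;> omega
  apply Fin.ext
  have e1 := Nat.mod_add_div x.val m
  have e2 := Nat.mod_add_div y.val m
  have d1 : x.val / m < 2 := Nat.div_lt_of_lt_mul (by omega)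
  have d2 : y.val / m < 2 := Nat.div_lt_of_lt_mul (by omega)
  have hd : x.val / m = y.val / m := by
    have hm : 0 < m := by omega
    by_cases h1 : m ≤ x.val
    · have h2 := hhalf.1 h1
      have a1 : 1 ≤ x.val / m := (Nat.le_div_iff_mul_le hm).2 (by omega)
      have a2 : 1 ≤ y.val / m := (Nat.le_div_iff_mul_le hm).2 (by omega)
      omega
    · have h2 : ¬ m ≤ y.val := fun h => h1 (hhalf.2 h)
      rw [Nat.div_eq_of_lt (by omega), Nat.div_eq_of_lt (by omega)]
  rw [← e1, ← e2, hmod, hd]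

theorem iterPos_inj (m : ℕ) : ∀ (t : ℕ) (cs : Fin t → Fin m → Bool),
    Function.Injective (iterPos m t cs)
  | 0, _ => fun _ _ h => h
  | t + 1, cs => fun _ _ h =>
      iterPos_inj m t (fun i => cs i.castSucc) (stepPos_inj m (cs (Fin.last t)) h)

/-- The permutation of positions driven by the bit table `cs`. -/
noncomputable def permOf (m t : ℕ) (cs : Fin t → Fin m → Bool) : Perm (Fin (2 * m)) :=
  Equiv.ofBijective (iterPos m t cs)
    (Finite.injective_iff_bijective.1 (iterPos_inj m t cs))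

theorem coe_permOf (m t : ℕ) (cs : Fin t → Fin m → Bool) : ⇑(permOf m t cs) = iterPos m t cs := rfl

theorem iterPos_eq_iff (m t : ℕ) (cs : Fin t → Fin m → Bool) (g : Perm (Fin (2 * m))) :
    iterPos m t cs = ⇑g ↔ permOf m t cs = g := by
  constructor
  · intro h
    apply Equiv.ext
    intro x
    exact congrFun h x
  · rintro rfl; rfl


theorem law_eq_avg (m t : ℕ) (g : Perm (Fin (2 * m))) :
    law m t g = avg (fun cs : Fin t → Fin m → Bool => if permOf m t cs = g then (1 : ℝ) else 0) := by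
  classical
  unfold law Crest.FinProb.uniformProb avg
  congr 1
  rw [Finset.sum_ite, Finset.sum_const_zero, add_zero, Finset.sum_const, nsmul_eq_mul, mul_one]
  congr 2
  ext cs
  simp [iterPos_eq_iff]

/-- averages of functions of the run -/
theorem avg_iterPos (m t : ℕ) (X : (Fin (2 * m) → Fin (2 * m)) → ℝ) :
    avg (fun cs : Fin t → Fin m → Bool => X (iterPos m t cs)) = ∑ g, law m t g * X ⇑g := by
  classical
  simp only [law_eq_avg, avg]
  simp only [div_mul_eq_mul_div, Finset.sum_mul, ← Finset.sum_div]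
  congr 1
  rw [Finset.sum_comm]
  refine Finset.sum_congr rfl fun cs _ => ?_
  simp [ite_mul, coe_permOf]

theorem law_sum (m t : ℕ) : ∑ g, law m t g = 1 := by
  have h := avg_iterPos m t (fun _ => 1)
  simp only [mul_one] at h
  rw [← h]
  simp [avg]

theorem iterPos_add (m t : ℕ) : ∀ (s : ℕ) (cs : Fin (t + s) → Fin m → Bool) (x : Fin (2 * m)),
    iterPos m (t + s) cs x =
      iterPos m s (fun i => cs (Fin.natAdd t i)) (iterPos m t (fun i => cs (Fin.castAdd s i)) x)
  | 0, cs, x => rfl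
  | s + 1, cs, x => by
    have h := iterPos_add m t s (fun i => cs i.castSucc) x
    change stepPos m (cs (Fin.last (t + s))) (iterPos m (t + s) (fun i => cs i.castSucc) x) = _
    rw [h]
    rfl

/-- `σ_{s+t} = σ'_s ∘ σ_t` -/
theorem law_add (m s t : ℕ) (g : Perm (Fin (2 * m))) :
    law m (s + t) g = ∑ a, law m s a * law m t (a⁻¹ * g) := by
  classical
  rw [add_comm s t]
  have hperm : ∀ cs : Fin (t + s) → Fin m → Bool, permOf m (t + s) cs =
      permOf m s (fun i => cs (Fin.natAdd t i)) * permOf m t (fun i => cs (Fin.castAdd s i)) := by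
    intro cs
    apply Equiv.ext
    intro x
    rw [Perm.mul_apply, coe_permOf, coe_permOf, coe_permOf]
    exact iterPos_add m t s cs x
  rw [law_eq_avg]
  have h1 : avg (fun cs : Fin (t + s) → Fin m → Bool =>
      if permOf m (t + s) cs = g then (1 : ℝ) else 0) =
      avg (fun c1 : Fin s → Fin m → Bool => law m t ((permOf m s c1)⁻¹ * g)) := by
    unfold avg
    rw [← Equiv.sum_comp (Fin.appendEquiv t s), Fintype.sum_prod_type, Finset.sum_comm]
    simp only [law_eq_avg, avg, ← Finset.sum_div]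
    rw [div_div]
    congr 1
    · refine Finset.sum_congr rfl fun c1 _ => Finset.sum_congr rfl fun c2 _ => ?_
      rw [hperm]
      have e1 : (fun i => (Fin.appendEquiv t s (c2, c1)) (Fin.natAdd t i)) = c1 := by
        funext i
        simp [Fin.appendEquiv]
      have e2 : (fun i => (Fin.appendEquiv t s (c2, c1)) (Fin.castAdd s i)) = c2 := by
        funext i
        simp [Fin.appendEquiv]
      rw [e1, e2]
      congr 1
      rw [eq_iff_iff]
      constructor
      · intro h; rw [← h]; group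
      · intro h; rw [h]; group
    · rw [← Nat.cast_mul]
      congr 1
      simp only [Fintype.card_fun, Fintype.card_fin, Fintype.card_bool]
      rw [pow_add]
  rw [h1]
  have h2 := avg_iterPos m s (fun φ => if h : ∃ a : Perm (Fin (2 * m)), ⇑a = φ then
    law m t ((Classical.choose h)⁻¹ * g) else 0)
  have key : ∀ a : Perm (Fin (2 * m)), (if h : ∃ b : Perm (Fin (2 * m)), ⇑b = ⇑a then
    law m t ((Classical.choose h)⁻¹ * g) else 0) = law m t (a⁻¹ * g) := by
    intro a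
    have hex : ∃ b : Perm (Fin (2 * m)), ⇑b = ⇑a := ⟨a, rfl⟩
    rw [dif_pos hex]
    have : Classical.choose hex = a := DFunLike.coe_injective (Classical.choose_spec hex)
    rw [this]
  simp only [key] at h2
  rw [← h2]
  unfold avg
  congr 1
  refine Finset.sum_congr rfl fun c1 _ => ?_
  exact (key (permOf m s c1)).symm

/-- the same as a statement in `L²`. -/
theorem law_add_dl (m s t : ℕ) (u : L2 (Perm (Fin (2 * m)))) :
    cv (law m (s + t)) u = cv (law m s) (cv (law m t) u) := by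
  ext g
  rw [cv_apply, cv_apply]
  simp only [cv_apply, law_add, Finset.sum_mul]
  rw [Finset.sum_comm]
  refine Finset.sum_congr rfl fun a _ => ?_
  rw [Finset.mul_sum, ← Equiv.sum_comp (Equiv.mulLeft a)]
  refine Finset.sum_congr rfl fun b _ => ?_
  simp [mul_assoc]

theorem tv_mono (m s t : ℕ) : tvFromUniform m (s + t) ≤ tvFromUniform m t := by
  rw [tv_eq_law, tv_eq_law]
  refine mul_le_mul_of_nonneg_left ?_ (by norm_num)
  have h1 : ∀ g, law m (s + t) g - 1 / ((2 * m).factorial : ℝ) =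
      ∑ a, law m s a * (law m t (a⁻¹ * g) - 1 / ((2 * m).factorial : ℝ)) := by
    intro g
    rw [law_add]
    simp only [mul_sub, Finset.sum_sub_distrib, ← Finset.sum_mul, law_sum, one_mul]
  calc ∑ g, |law m (s + t) g - 1 / ((2 * m).factorial : ℝ)|
      ≤ ∑ g, ∑ a, law m s a * |law m t (a⁻¹ * g) - 1 / ((2 * m).factorial : ℝ)| := by
        refine Finset.sum_le_sum fun g _ => ?_
        rw [h1]
        refine (Finset.abs_sum_le_sum_abs _ _).trans (Finset.sum_le_sum fun a _ => ?_)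
        rw [abs_mul, abs_of_nonneg (law_nonneg m s a)]
    _ = ∑ a, law m s a * ∑ g, |law m t (a⁻¹ * g) - 1 / ((2 * m).factorial : ℝ)| := by
        rw [Finset.sum_comm]
        simp only [Finset.mul_sum]
    _ = ∑ a, law m s a * ∑ g, |law m t g - 1 / ((2 * m).factorial : ℝ)| := by
        refine Finset.sum_congr rfl fun a _ => ?_
        congr 1
        exact Equiv.sum_comp (Equiv.mulLeft a⁻¹)
          (fun g => |law m t g - 1 / ((2 * m).factorial : ℝ)|)
    _ = ∑ g, |law m t g - 1 / ((2 * m).factorial : ℝ)| := by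
        rw [← Finset.sum_mul, law_sum, one_mul]

/-- flip one coin -/
def flipAt {m : ℕ} (u : Fin m) (c : Fin m → Bool) : Fin m → Bool :=
  Function.update c u (!(c u))

theorem flipAt_flipAt {m : ℕ} (u : Fin m) (c : Fin m → Bool) : flipAt u (flipAt u c) = c := by
  funext v
  by_cases h : v = u
  · subst h; simp [flipAt]
  · simp [flipAt, h]

/-- the pair of positions -/
def pairSwap {m : ℕ} (u : Fin m) : Perm (Fin (2 * m)) :=
  Equiv.swap ⟨2 * u.val, by have := u.isLt; omega⟩ ⟨2 * u.val + 1, by have := u.isLt; omega⟩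

theorem stepPos_flip {m : ℕ} (u : Fin m) (c : Fin m → Bool) (x : Fin (2 * m)) :
    stepPos m (flipAt u c) x = pairSwap u (stepPos m c x) := by
  have hx := x.isLt
  have hu := u.isLt
  have hmx : x.val % m < m := Nat.mod_lt _ (by omega)
  unfold pairSwap
  by_cases h : (⟨x.val % m, hmx⟩ : Fin m) = u
  · have hv : x.val % m = u.val := by rw [← h]
    have hfl : flipAt u c ⟨x.val % m, hmx⟩ = !(c ⟨x.val % m, hmx⟩) := by
      rw [h]; simp [flipAt]
    have e1 : (stepPos m c x) = ⟨2 * u.val, by omega⟩ ∨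
        (stepPos m c x) = ⟨2 * u.val + 1, by omega⟩ := by
      simp only [stepPos, Fin.ext_iff]
      split
      · right; omega
      · left; omega
    rcases e1 with e1 | e1
    · rw [e1, Equiv.swap_apply_left]
      have e1' := congrArg Fin.val e1
      apply Fin.ext
      simp only [stepPos, hfl] at e1' ⊢
      by_cases h1 : m ≤ x.val <;> cases hc : c ⟨x.val % m, hmx⟩ <;>
        simp [h1, hc] at e1' ⊢ <;> omega
    · rw [e1, Equiv.swap_apply_right]
      have e1' := congrArg Fin.val e1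
      apply Fin.ext
      simp only [stepPos, hfl] at e1' ⊢
      by_cases h1 : m ≤ x.val <;> cases hc : c ⟨x.val % m, hmx⟩ <;>
        simp [h1, hc] at e1' ⊢ <;> omega
  · have hfl : flipAt u c ⟨x.val % m, hmx⟩ = c ⟨x.val % m, hmx⟩ := by
      simp [flipAt, h]
    have hv : x.val % m ≠ u.val := fun h' => h (Fin.ext h')
    have e0 : stepPos m (flipAt u c) x = stepPos m c x := by
      apply Fin.ext
      simp only [stepPos, hfl]
    rw [e0]
    symm
    apply Equiv.swap_apply_of_ne_of_ne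
    · intro h'
      have := congrArg Fin.val h'
      simp only [stepPos] at this
      split at this <;> omega
    · intro h'
      have := congrArg Fin.val h'
      simp only [stepPos] at this
      split at this <;> omega

/-- flip one coin of the last row -/
theorem law_one_swap {m : ℕ} (u : Fin m) (g : Perm (Fin (2 * m))) :
    law m 1 (pairSwap u * g) = law m 1 g := by
  classical
  rw [law_eq_avg, law_eq_avg]
  unfold avg
  congr 1
  let e : (Fin 1 → Fin m → Bool) ≃ (Fin 1 → Fin m → Bool) :=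
    { toFun := fun cs i => flipAt u (cs i)
      invFun := fun cs i => flipAt u (cs i)
      left_inv := fun cs => by funext i; exact flipAt_flipAt u _
      right_inv := fun cs => by funext i; exact flipAt_flipAt u _ }
  rw [← Equiv.sum_comp e]
  refine Finset.sum_congr rfl fun cs _ => ?_
  have : permOf m 1 (e cs) = pairSwap u * permOf m 1 cs := by
    apply Equiv.ext
    intro x
    rw [Perm.mul_apply, coe_permOf, coe_permOf]
    exact stepPos_flip u (cs (Fin.last 0)) x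
  rw [this]
  simp

/-- One layer kills the sign times low juntas (adjoint version): for `f = sgn · jf a b` with
`2k ≤ ...` some pair `{2u, 2u+1}` avoids `range b`; `law m 1 (swap (2u) (2u+1) * g) = law m 1 g`. -/
theorem law_one_kill (m k : ℕ) (hk : k < m) (f : L2 (Perm (Fin (2 * m))))
    (hf : f ∈ sjunta (Fin (2 * m)) k) : cv (fun g => law m 1 g⁻¹) f = 0 := by
  classical
  obtain ⟨f0, hf0, rfl⟩ := hf
  have key : junta (Fin (2 * m)) k ≤
      LinearMap.ker ((cv (fun g => law m 1 g⁻¹)).comp (sgnMul (Fin (2 * m)))) := by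
    unfold junta
    rw [Submodule.span_le]
    rintro _ ⟨⟨a, b⟩, rfl⟩
    rw [SetLike.mem_coe, LinearMap.mem_ker, LinearMap.comp_apply]
    -- find u
    obtain ⟨u, hu⟩ : ∃ u : Fin m, ∀ i, (b i).val / 2 ≠ u.val := by
      by_contra hcon
      push Not at hcon
      have hsurj : Function.Surjective (fun i : Fin k =>
          (⟨(b i).val / 2, by have := (b i).isLt; omega⟩ : Fin m)) := by
        intro u
        obtain ⟨i, hi⟩ := hcon u
        exact ⟨i, Fin.ext hi⟩
      have := Fintype.card_le_of_surjective _ hsurj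
      simp at this
      omega
    have hfix : ∀ i, pairSwap u (b i) = b i := by
      intro i
      unfold pairSwap
      apply Equiv.swap_apply_of_ne_of_ne
      · intro h
        have := congrArg Fin.val h
        exact hu i (by simp only at this; omega)
      · intro h
        have := congrArg Fin.val h
        exact hu i (by simp only at this; omega)
    have hsign : Perm.sign (pairSwap u) = -1 := by
      unfold pairSwap
      apply Perm.sign_swap
      intro h
      have := congrArg Fin.val h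
      simp at this
    have hinv : (pairSwap u)⁻¹ = pairSwap u := by
      unfold pairSwap
      exact Equiv.swap_inv _ _
    ext g
    rw [cv_apply]
    change _ = (0 : ℝ)
    set F : Perm (Fin (2 * m)) → ℝ := fun x => law m 1 x⁻¹ * (sgnMul (Fin (2 * m)) (jf a b)) (x⁻¹ * g)
      with hF
    have hanti : ∀ x, F (x * pairSwap u) = - F x := by
      intro x
      simp only [hF]
      have e1 : (x * pairSwap u)⁻¹ = pairSwap u * x⁻¹ := by rw [mul_inv_rev, hinv]
      rw [e1, law_one_swap]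
      have e2 : (sgnMul (Fin (2 * m)) (jf a b)) (pairSwap u * x⁻¹ * g) =
          - (sgnMul (Fin (2 * m)) (jf a b)) (x⁻¹ * g) := by
        change ((Equiv.Perm.sign (pairSwap u * x⁻¹ * g) : ℤ) : ℝ) *
            (if ∀ i, (pairSwap u * x⁻¹ * g) (a i) = b i then (1 : ℝ) else 0) =
          - (((Equiv.Perm.sign (x⁻¹ * g) : ℤ) : ℝ) *
            (if ∀ i, (x⁻¹ * g) (a i) = b i then (1 : ℝ) else 0))
        rw [mul_assoc (pairSwap u), Perm.sign_mul, hsign]
        have e3 : (∀ i, (pairSwap u * (x⁻¹ * g)) (a i) = b i) ↔ (∀ i, (x⁻¹ * g) (a i) = b i) := by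
          refine forall_congr' fun i => ?_
          rw [Perm.mul_apply]
          conv_lhs => rw [← hfix i]
          exact (pairSwap u).injective.eq_iff
        simp only [e3]
        push_cast
        ring
      rw [e2]
      ring
    have hsum : ∑ x, F x = - ∑ x, F x := by
      conv_lhs => rw [← Equiv.sum_comp (Equiv.mulRight (pairSwap u))]
      rw [← Finset.sum_neg_distrib]
      exact Finset.sum_congr rfl fun x _ => hanti x
    have : ∑ x, F x = 0 := by linarith
    exact this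
  have := key hf0
  rw [LinearMap.mem_ker, LinearMap.comp_apply] at this
  exact this

end Crest.Agent.R155
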