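import Crest.Agent.R155.Junta

-- ▼ part R155/LevelDim
section

/-!
R155, Part R, task LevelDim: nonzero right invariant subspaces of level `k` are large.

Proof. Let `n = card α`, `c = (n-k)/k ≥ k`.
(a) Some `w ≠ 0` in `W` is fixed by `rt h` for all `h` fixing a `k`-tuple `a` pointwise: otherwise
    `pr W (jf a b) = 0` for all `a b`, so `W ⊥ junta α k`, contradiction (`pr W` commutes with `rt`).
(b) For `i` and `x ∉ range a`: `⟪w, rt (swap (a i) x) w⟫ = -‖w‖²/(n-k)`, because
    `w + ∑_{x ∉ range a} rt (swap (a i) x) w` is fixed by `rt h` for `h` fixing the other `k-1`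
    points, so is in `junta (k-1) ⊓ W = 0`, and the inner products for different `x` are equal.
(c) Choose disjoint `C_i` in the complement of `range a`, `|C_i| = c`, `E_i v = (c+1)⁻¹ (v + ∑_{x∈C_i}
    rt (swap (a i) x) v)` on vectors fixed by `Sym(C_i)`; with `E_i` the average of `rt` over
    `Sym({a_i} ∪ C_i)`, commuting projections, `‖E_i w‖² ≤ ‖w‖²/(c+1)`, so by the union bound
    (`k < c + 1`) `w' = ∏ (1 - E_i) w ≠ 0`.
(d) `∑_{y ∈ ∏ C_i} ∏_i (1 - rt (swap (a i) (y i))) w = (c+1)^k ∏ (1 - E_i) w ≠ 0`, so for some `y`, hence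
    (symmetry) for every `y ∈ ∏ C_i`, `v_y = ∏_i (1 - rt (swap (a i) (y i))) w ≠ 0`.
(e) `w_x = ∏_i rt (swap (a i) (x i)) w`, `x ∈ ∏ C_i`: `⟪w_x, v_y⟫ = 0` for `x ≠ y` (if `x i ≠ y i`,
    `τ = swap (a i) (y i)` has `rt τ w_x = w_x` and `rt τ v_y = - v_y`), and
    `⟪w_y, v_y⟫ = (-1)^k 2^(-k) ‖v_y‖² ≠ 0`. So the `c^k` vectors `w_x` are linearly independent.
-/

set_option autoImplicit false
set_option linter.unusedSectionVars false
set_option linter.unusedVariables false
set_option linter.unusedSimpArgs false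

namespace Crest.Agent.R155

open Finset Equiv

namespace LD

section abstract_part
variable {V : Type*} [NormedAddCommGroup V] [InnerProductSpace ℝ V]
variable {k c : ℕ}

theorem swapL {β : Type*} [DecidableEq β] (a b z : β) : (Equiv.swap a b z = a) = (z = b) :=
  propext (by rw [Equiv.swap_apply_eq_iff, Equiv.swap_apply_left])

theorem swapR {β : Type*} [DecidableEq β] (a b z : β) : (Equiv.swap a b z = b) = (z = a) :=
  propext (by rw [Equiv.swap_apply_eq_iff, Equiv.swap_apply_right])

theorem swapO {β : Type*} [DecidableEq β] (a b c z : β) (h : c ≠ a) (h' : c ≠ b) :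
    (Equiv.swap a b z = c) = (z = c) :=
  propext (by rw [Equiv.swap_apply_eq_iff, Equiv.swap_apply_of_ne_of_ne h h'])

/-- multilinear expression. -/
noncomputable def Ph (w : (Fin k → Fin (c + 1)) → V) (f : Fin k → Fin (c + 1) → ℝ) : V :=
  ∑ x, (∏ i, f i (x i)) • w x

/-- there are isometries permuting the vectors. -/
def Eqv (w : (Fin k → Fin (c + 1)) → V) : Prop :=
  ∀ g : Fin k → Perm (Fin (c + 1)), ∃ ρ : V →ₗᵢ[ℝ] V, ∀ x, ρ (w x) = w (fun i => g i (x i))

theorem ph_map {w : (Fin k → Fin (c + 1)) → V} (g : Fin k → Perm (Fin (c + 1)))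
    (ρ : V →ₗᵢ[ℝ] V) (hρ : ∀ x, ρ (w x) = w (fun i => g i (x i)))
    (f : Fin k → Fin (c + 1) → ℝ) : ρ (Ph w f) = Ph w (fun i z => f i ((g i).symm z)) := by
  unfold Ph
  rw [map_sum]
  simp only [map_smul, hρ]
  conv_rhs => rw [← Equiv.sum_comp (Equiv.piCongrRight g)]
  refine Finset.sum_congr rfl fun x _ => ?_
  simp [Equiv.piCongrRight]
  rfl

theorem ph_update (w : (Fin k → Fin (c + 1)) → V) (f : Fin k → Fin (c + 1) → ℝ) (i : Fin k)
    (h : Fin (c + 1) → ℝ) :
    Ph w (Function.update f i h) = ∑ x, (h (x i) * ∏ j ∈ univ.erase i, f j (x j)) • w x := by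
  unfold Ph
  refine Finset.sum_congr rfl fun x _ => ?_
  congr 1
  rw [← Finset.mul_prod_erase univ _ (Finset.mem_univ i)]
  rw [Function.update_self]
  congr 1
  refine Finset.prod_congr rfl fun j hj => ?_
  rw [Function.update_of_ne (Finset.ne_of_mem_erase hj)]

theorem ph_update_add (w : (Fin k → Fin (c + 1)) → V) (f : Fin k → Fin (c + 1) → ℝ) (i : Fin k)
    (h h' : Fin (c + 1) → ℝ) :
    Ph w (Function.update f i (fun z => h z + h' z)) =
      Ph w (Function.update f i h) + Ph w (Function.update f i h') := by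
  rw [ph_update, ph_update, ph_update, ← Finset.sum_add_distrib]
  refine Finset.sum_congr rfl fun x _ => ?_
  rw [← add_smul]; congr 1; ring

theorem ph_update_sum {ι : Type*} (s : Finset ι) (w : (Fin k → Fin (c + 1)) → V)
    (f : Fin k → Fin (c + 1) → ℝ) (i : Fin k)
    (h : ι → Fin (c + 1) → ℝ) :
    Ph w (Function.update f i (fun z => ∑ a ∈ s, h a z)) =
      ∑ a ∈ s, Ph w (Function.update f i (h a)) := by
  simp only [ph_update]
  rw [Finset.sum_comm]
  refine Finset.sum_congr rfl fun x _ => ?_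
  rw [← Finset.sum_smul, Finset.sum_mul]

theorem ph_smul (w : (Fin k → Fin (c + 1)) → V) (f : Fin k → Fin (c + 1) → ℝ) (ε : Fin k → ℝ) :
    Ph w (fun i z => ε i * f i z) = (∏ i, ε i) • Ph w f := by
  unfold Ph
  rw [Finset.smul_sum]
  refine Finset.sum_congr rfl fun x _ => ?_
  rw [Finset.prod_mul_distrib, smul_smul]

theorem ph_zero (w : (Fin k → Fin (c + 1)) → V) (f : Fin k → Fin (c + 1) → ℝ) (i : Fin k)
    (h : ∀ z, f i z = 0) : Ph w f = 0 := by
  unfold Ph
  refine Finset.sum_eq_zero fun x _ => ?_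
  rw [Finset.prod_eq_zero (Finset.mem_univ i) (h _), zero_smul]

/-- orthogonality of the constant and the centered parts -/
theorem ph_orth {w : (Fin k → Fin (c + 1)) → V} (hw : Eqv w) (f : Fin k → Fin (c + 1) → ℝ)
    (i : Fin k) (m : ℝ) (h : Fin (c + 1) → ℝ) (hh : ∑ z, h z = 0) :
    inner ℝ (Ph w (Function.update f i (fun _ => m))) (Ph w (Function.update f i h)) = 0 := by
  have hz : ∀ z : Fin (c + 1), ∃ ρ : V →ₗᵢ[ℝ] V,
      ρ (Ph w (Function.update f i (fun _ => m))) = Ph w (Function.update f i (fun _ => m)) ∧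
      ρ (Ph w (Function.update f i h)) = Ph w (Function.update f i (fun y => h (y - z))) := by
    intro z
    obtain ⟨ρ, hρ⟩ := hw (Function.update 1 i (Equiv.addRight z))
    refine ⟨ρ, ?_, ?_⟩
    · rw [ph_map _ ρ hρ]
      congr 1
      ext j y
      by_cases hj : j = i
      · subst hj; simp
      · simp only [Function.update_of_ne hj]; rfl
    · rw [ph_map _ ρ hρ]
      congr 1
      ext j y
      by_cases hj : j = i
      · subst hj; simp [sub_eq_add_neg]
      · simp only [Function.update_of_ne hj]; rfl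
  choose ρ h1 h2 using hz
  have h3 : ∀ z, inner ℝ (Ph w (Function.update f i (fun _ => m))) (Ph w (Function.update f i h)) =
      inner ℝ (Ph w (Function.update f i (fun _ => m)))
        (Ph w (Function.update f i (fun y => h (y - z)))) := by
    intro z
    rw [← (ρ z).inner_map_map, h1, h2]
  have h4 : ∑ z : Fin (c + 1), inner ℝ (Ph w (Function.update f i (fun _ => m)))
        (Ph w (Function.update f i (fun y => h (y - z)))) = 0 := by
    rw [← inner_sum, ← ph_update_sum]
    have : (fun y : Fin (c + 1) => ∑ a : Fin (c + 1), h (y - a)) = fun _ => 0 := by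
      ext y
      rw [← hh]
      exact Equiv.sum_comp (Equiv.subLeft y) h
    have h0 : Ph w (Function.update f i (fun y : Fin (c + 1) => ∑ a : Fin (c + 1), h (y - a))) = 0 := by
      rw [this]; exact ph_zero w _ i (by intro z; simp)
    rw [h0, inner_zero_right]
  rw [← Finset.sum_congr rfl fun z _ => h3 z] at h4
  simp only [Finset.sum_const, Finset.card_univ, Fintype.card_fin, nsmul_eq_mul] at h4
  rcases mul_eq_zero.mp h4 with h5 | h5
  · exfalso
    have : ((c + 1 : ℕ) : ℝ) ≠ 0 := by positivity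
    exact this h5
  · exact h5

/-- average of a function. -/
noncomputable def av (h : Fin (c + 1) → ℝ) : ℝ := (∑ z, h z) / (c + 1)

theorem ph_split {w : (Fin k → Fin (c + 1)) → V} (f : Fin k → Fin (c + 1) → ℝ)
    (i : Fin k) :
    Ph w f = Ph w (Function.update f i (fun _ => av (f i))) +
      Ph w (Function.update f i (fun z => f i z - av (f i))) := by
  rw [← ph_update_add]
  congr 1
  ext j z
  by_cases hj : j = i
  · subst hj; simp
  · simp [Function.update_of_ne hj]

theorem sum_cent (h : Fin (c + 1) → ℝ) : ∑ z, (h z - av h) = 0 := by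
  rw [Finset.sum_sub_distrib]
  simp only [Finset.sum_const, Finset.card_univ, Fintype.card_fin, nsmul_eq_mul, av]
  push_cast
  field_simp
  ring

theorem ph_pyth {w : (Fin k → Fin (c + 1)) → V} (hw : Eqv w) (f : Fin k → Fin (c + 1) → ℝ)
    (i : Fin k) :
    ‖Ph w f‖ ^ 2 = ‖Ph w (Function.update f i (fun _ => av (f i)))‖ ^ 2 +
      ‖Ph w (Function.update f i (fun z => f i z - av (f i)))‖ ^ 2 := by
  rw [ph_split f i, norm_add_sq_real, ph_orth hw f i _ _ (sum_cent _)]
  ring

/-- centering on a set of coordinates. -/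
noncomputable def cent (s : Finset (Fin k)) (f : Fin k → Fin (c + 1) → ℝ) :
    Fin k → Fin (c + 1) → ℝ :=
  fun i z => if i ∈ s then f i z - av (f i) else f i z

theorem cent_insert (s : Finset (Fin k)) (i : Fin k) (hi : i ∉ s)
    (f : Fin k → Fin (c + 1) → ℝ) :
    cent (insert i s) f =
      Function.update (cent s f) i (fun z => cent s f i z - av (cent s f i)) := by
  have hc : cent s f i = f i := by ext z; simp [cent, hi]
  ext j z
  by_cases hj : j = i
  · subst hj; simp [cent, hc, hi]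
  · simp [Function.update_of_ne hj, cent, hj]

theorem cent_update (s : Finset (Fin k)) (i : Fin k) (hi : i ∉ s)
    (f : Fin k → Fin (c + 1) → ℝ) (h : Fin (c + 1) → ℝ) :
    cent s (Function.update f i h) = Function.update (cent s f) i h := by
  ext j z
  by_cases hj : j = i
  · subst hj; simp [cent, hi]
  · simp [Function.update_of_ne hj, cent]

theorem ph_cent_le {w : (Fin k → Fin (c + 1)) → V} (hw : Eqv w) (f : Fin k → Fin (c + 1) → ℝ)
    (s : Finset (Fin k)) : ‖Ph w (cent s f)‖ ^ 2 ≤ ‖Ph w f‖ ^ 2 := by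
  induction s using Finset.induction_on with
  | empty =>
    have : cent ∅ f = f := by ext; simp [cent]
    rw [this]
  | insert i s hi ih =>
    rw [cent_insert s i hi]
    have := ph_pyth hw (cent s f) i
    nlinarith [sq_nonneg ‖Ph w (Function.update (cent s f) i (fun _ => av (cent s f i)))‖]

/-- the product of delta functions at `0`. -/
noncomputable def F0 : Fin k → Fin (c + 1) → ℝ := fun _ z => if z = 0 then 1 else 0

theorem ph_F0 (w : (Fin k → Fin (c + 1)) → V) : Ph w F0 = w 0 := by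
  unfold Ph
  rw [Finset.sum_eq_single 0]
  · simp [F0]
  · intro x _ hx
    obtain ⟨i, hi⟩ := Function.ne_iff.mp hx
    rw [Finset.prod_eq_zero (Finset.mem_univ i) (by simpa [F0] using hi), zero_smul]
  · simp

theorem av_F0 (i : Fin k) : av (F0 (c := c) i) = 1 / (c + 1) := by
  simp [av, F0]

theorem ph_union {w : (Fin k → Fin (c + 1)) → V} (hw : Eqv w) (s : Finset (Fin k)) :
    ‖w 0‖ ^ 2 - ∑ i ∈ s, ‖Ph w (Function.update F0 i (fun _ => 1 / ((c : ℝ) + 1)))‖ ^ 2 ≤
      ‖Ph w (cent s F0)‖ ^ 2 := by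
  induction s using Finset.induction_on with
  | empty =>
    have : cent ∅ (F0 : Fin k → Fin (c + 1) → ℝ) = F0 := by ext; simp [cent]
    rw [this, ph_F0]; simp
  | insert i s hi ih =>
    rw [Finset.sum_insert hi, cent_insert s i hi]
    have hp := ph_pyth hw (cent s F0) i
    have hc : cent s F0 i = (F0 i : Fin (c + 1) → ℝ) := by ext z; simp [cent, hi]
    have h1 : ‖Ph w (Function.update (cent s F0) i (fun _ => av (cent (c := c) s F0 i)))‖ ^ 2 ≤
        ‖Ph w (Function.update F0 i (fun _ => 1 / ((c : ℝ) + 1)))‖ ^ 2 := by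
      rw [hc, av_F0, ← cent_update s i hi]
      exact ph_cent_le hw _ s
    linarith

theorem ph_single_le {w : (Fin k → Fin (c + 1)) → V} (hw : Eqv w)
    (hneg : ∀ (i : Fin k) (z : Fin (c + 1)), z ≠ 0 →
      inner ℝ (w 0) (w (Function.update 0 i z)) ≤ 0) (i : Fin k) :
    ‖Ph w (Function.update F0 i (fun _ => 1 / ((c : ℝ) + 1)))‖ ^ 2 ≤ ‖w 0‖ ^ 2 / (c + 1) := by
  have h1 : inner ℝ (w 0) (Ph w (Function.update F0 i (fun _ => 1 / ((c : ℝ) + 1)))) =
      ‖Ph w (Function.update F0 i (fun _ => 1 / ((c : ℝ) + 1)))‖ ^ 2 := by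
    have h2 := ph_orth hw F0 i (1 / ((c : ℝ) + 1)) (fun z => F0 i z - av (F0 i)) (sum_cent _)
    have h3 := ph_split (w := w) F0 i
    rw [ph_F0, av_F0] at h3
    rw [av_F0] at h2
    conv_lhs => rw [h3]
    rw [inner_add_left, real_inner_self_eq_norm_sq, real_inner_comm, h2, add_zero]
  rw [← h1, ph_update, inner_sum]
  have hterm : ∀ x : Fin k → Fin (c + 1),
      inner ℝ (w 0) ((1 / ((c : ℝ) + 1) * ∏ j ∈ univ.erase i, F0 j (x j)) • w x) ≤
        if x = 0 then ‖w 0‖ ^ 2 / (c + 1) else 0 := by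
    intro x
    rw [inner_smul_right]
    by_cases hx : ∀ j, j ≠ i → x j = 0
    · have hxu : x = Function.update (0 : Fin k → Fin (c + 1)) i (x i) := by
        ext j
        by_cases hj : j = i
        · subst hj; simp
        · simp [Function.update_of_ne hj, hx j hj]
      have hprod : ∏ j ∈ univ.erase i, (F0 j (x j) : ℝ) = 1 :=
        Finset.prod_eq_one fun j hj => by simp [F0, hx j (Finset.ne_of_mem_erase hj)]
      rw [hprod, mul_one]
      split_ifs with h0
      · subst h0
        rw [real_inner_self_eq_norm_sq]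
        apply le_of_eq
        ring
      · have hxi : x i ≠ 0 := by
          intro h
          apply h0
          rw [hxu, h]
          simp
        have := hneg i (x i) hxi
        rw [← hxu] at this
        apply mul_nonpos_of_nonneg_of_nonpos _ this
        positivity
    · push Not at hx
      obtain ⟨j, hj, hxj⟩ := hx
      have hprod : ∏ j ∈ univ.erase i, (F0 j (x j) : ℝ) = 0 :=
        Finset.prod_eq_zero (Finset.mem_erase.mpr ⟨hj, Finset.mem_univ j⟩) (by simp [F0, hxj])
      rw [hprod, mul_zero, zero_mul]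
      split_ifs <;> positivity
  calc _ ≤ ∑ x : Fin k → Fin (c + 1), (if x = 0 then ‖w 0‖ ^ 2 / ((c : ℝ) + 1) else 0) :=
        Finset.sum_le_sum fun x _ => hterm x
    _ = _ := by simp

theorem ph_cent_ne {w : (Fin k → Fin (c + 1)) → V} (hw : Eqv w)
    (hneg : ∀ (i : Fin k) (z : Fin (c + 1)), z ≠ 0 →
      inner ℝ (w 0) (w (Function.update 0 i z)) ≤ 0) (h0 : w 0 ≠ 0) (hkc : k < c + 1) :
    Ph w (fun _ z => (if z = 0 then 1 else 0) - 1 / ((c : ℝ) + 1)) ≠ 0 := by
  intro hcon
  have h1 := ph_union hw Finset.univ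
  have h2 : cent Finset.univ (F0 : Fin k → Fin (c + 1) → ℝ) =
      (fun _ z => (if z = 0 then 1 else 0) - 1 / ((c : ℝ) + 1)) := by
    ext i z
    simp only [cent, Finset.mem_univ, if_true, av_F0]
    rfl
  rw [h2, hcon, norm_zero] at h1
  have h3 : ∑ i : Fin k, ‖Ph w (Function.update F0 i (fun _ => 1 / ((c : ℝ) + 1)))‖ ^ 2 ≤
      k * (‖w 0‖ ^ 2 / (c + 1)) := by
    calc _ ≤ ∑ i : Fin k, (‖w 0‖ ^ 2 / ((c : ℝ) + 1)) :=
          Finset.sum_le_sum fun i _ => ph_single_le hw hneg i
      _ = _ := by simp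
  have h4 : 0 < ‖w 0‖ ^ 2 := by positivity
  have h5 : (k : ℝ) * (‖w 0‖ ^ 2 / (c + 1)) < ‖w 0‖ ^ 2 := by
    rw [← mul_div_assoc, div_lt_iff₀ (by positivity)]
    have : (k : ℝ) < c + 1 := by exact_mod_cast hkc
    nlinarith
  nlinarith

/-- difference of delta functions. -/
noncomputable def dd (y : Fin k → Fin (c + 1)) : Fin k → Fin (c + 1) → ℝ :=
  fun i z => (if z = 0 then 1 else 0) - (if z = y i then 1 else 0)

theorem ph_dd_ne {w : (Fin k → Fin (c + 1)) → V} (hw : Eqv w)
    (hneg : ∀ (i : Fin k) (z : Fin (c + 1)), z ≠ 0 →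
      inner ℝ (w 0) (w (Function.update 0 i z)) ≤ 0) (h0 : w 0 ≠ 0) (hkc : k < c + 1)
    (y : Fin k → Fin (c + 1)) (hy : ∀ i, y i ≠ 0) : Ph w (dd y) ≠ 0 := by
  intro hcon
  have hall : ∀ y' : Fin k → Fin (c + 1), Ph w (dd y') = 0 := by
    intro y'
    by_cases hy' : ∀ i, y' i ≠ 0
    · obtain ⟨ρ, hρ⟩ := hw (fun i => Equiv.swap (y i) (y' i))
      have h1 := ph_map _ ρ hρ (dd y)
      rw [hcon, map_zero] at h1
      rw [h1]
      congr 1
      ext i z
      simp only [dd, Equiv.symm_swap]
      have e1 : (Equiv.swap (y i) (y' i) z = 0) = (z = 0) :=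
        swapO _ _ _ _ (hy i).symm (hy' i).symm
      have e2 : (Equiv.swap (y i) (y' i) z = y i) = (z = y' i) := swapL _ _ _
      simp only [e1, e2]
    · push Not at hy'
      obtain ⟨i, hi⟩ := hy'
      exact ph_zero w _ i (by intro z; simp [dd, hi])
  have hsum : ∑ y' : Fin k → Fin (c + 1), Ph w (dd y') = 0 :=
    Finset.sum_eq_zero fun y' _ => hall y'
  have h2 : ∑ y' : Fin k → Fin (c + 1), Ph w (dd y') =
      Ph w (fun _ z => ((c : ℝ) + 1) * ((if z = 0 then 1 else 0) - 1 / ((c : ℝ) + 1))) := by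
    unfold Ph
    rw [Finset.sum_comm]
    refine Finset.sum_congr rfl fun x _ => ?_
    rw [← Finset.sum_smul]
    congr 1
    have h3 := Finset.prod_univ_sum (fun _ : Fin k => (Finset.univ : Finset (Fin (c + 1))))
      (fun i z => ((if x i = 0 then (1 : ℝ) else 0) - (if x i = z then 1 else 0)))
    rw [Fintype.piFinset_univ] at h3
    simp only [dd]
    rw [← h3]
    refine Finset.prod_congr rfl fun i _ => ?_
    rw [Finset.sum_sub_distrib]
    have hc1 : ((c : ℝ) + 1) ≠ 0 := by positivity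
    simp
    rw [mul_sub, mul_inv_cancel₀ hc1]
    split_ifs <;> simp
  rw [hsum, ph_smul w _ (fun _ => (c : ℝ) + 1)] at h2
  have h3 := ph_cent_ne hw hneg h0 hkc
  have h4 : (∏ i : Fin k, ((c : ℝ) + 1)) ≠ 0 := by
    rw [Finset.prod_const]; positivity
  exact (smul_ne_zero h4 h3) h2.symm

theorem ph_dd_sign {w : (Fin k → Fin (c + 1)) → V}
    (y x : Fin k → Fin (c + 1)) (hx : ∀ i, x i = 0 ∨ x i = y i)
    (ρ : V →ₗᵢ[ℝ] V) (hρ : ∀ z, ρ (w z) = w (fun i => Equiv.swap (x i) (y i) (z i))) :
    ∃ ε : ℝ, ρ (Ph w (dd y)) = ε • Ph w (dd y) := by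
  refine ⟨∏ i, (if x i = y i then 1 else -1), ?_⟩
  rw [ph_map _ ρ hρ, ← ph_smul]
  congr 1
  ext i z
  simp only [Equiv.symm_swap]
  split_ifs with h
  · rw [h]; simp
  · have hx0 : x i = 0 := (hx i).resolve_right h
    rw [hx0]
    simp only [dd]
    have e1 : (Equiv.swap 0 (y i) z = 0) = (z = y i) := swapL _ _ _
    have e2 : (Equiv.swap 0 (y i) z = y i) = (z = 0) := swapR _ _ _
    simp only [e1, e2]
    ring

theorem abstract_li {w : (Fin k → Fin (c + 1)) → V} (hw : Eqv w)
    (hneg : ∀ (i : Fin k) (z : Fin (c + 1)), z ≠ 0 →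
      inner ℝ (w 0) (w (Function.update 0 i z)) ≤ 0) (h0 : w 0 ≠ 0) (hkc : k < c + 1) :
    LinearIndependent ℝ (fun y : Fin k → Fin c => w (fun i => (y i).succ)) := by
  -- biorthogonal family
  have horth : ∀ x y : Fin k → Fin c, x ≠ y →
      inner ℝ (Ph w (dd (fun i => (y i).succ))) (w (fun i => (x i).succ)) = 0 := by
    intro x y hxy
    obtain ⟨i, hi⟩ := Function.ne_iff.mp hxy
    obtain ⟨ρ, hρ⟩ := hw (Function.update 1 i (Equiv.swap 0 (y i).succ))
    have h1 : ρ (w (fun i => (x i).succ)) = w (fun i => (x i).succ) := by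
      rw [hρ]
      congr 1
      ext j
      by_cases hj : j = i
      · subst hj
        rw [Function.update_self, Equiv.swap_apply_of_ne_of_ne (Fin.succ_ne_zero _)]
        intro h; exact hi (Fin.succ_injective _ h)
      · simp [Function.update_of_ne hj]
    have h2 : ρ (Ph w (dd (fun i => (y i).succ))) = - Ph w (dd (fun i => (y i).succ)) := by
      rw [ph_map _ ρ hρ]
      have : (fun i_1 z => dd (fun i => (y i).succ) i_1
          ((Function.update (1 : Fin k → Perm (Fin (c + 1))) i (Equiv.swap 0 (y i).succ) i_1).symm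
            z)) =
          fun j z => (if j = i then (-1 : ℝ) else 1) * dd (fun i => (y i).succ) j z := by
        ext j z
        by_cases hj : j = i
        · subst hj
          simp only [Function.update_self, Equiv.symm_swap, dd, if_true]
          have e1 : (Equiv.swap 0 (y j).succ z = 0) = (z = (y j).succ) := swapL _ _ _
          have e2 : (Equiv.swap 0 (y j).succ z = (y j).succ) = (z = 0) := swapR _ _ _
          simp only [e1, e2]
          ring
        · simp only [Function.update_of_ne hj, if_neg hj, one_mul]; rfl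
      rw [this, ph_smul]
      simp
    have h3 := ρ.inner_map_map (Ph w (dd (fun i => (y i).succ))) (w (fun i => (x i).succ))
    rw [h1, h2, inner_neg_left] at h3
    linarith
  have hne : ∀ y : Fin k → Fin c,
      inner ℝ (Ph w (dd (fun i => (y i).succ))) (w (fun i => (y i).succ)) ≠ 0 := by
    intro y hcon
    apply ph_dd_ne hw hneg h0 hkc (fun i => (y i).succ) (fun i => Fin.succ_ne_zero _)
    rw [← inner_self_eq_zero (𝕜 := ℝ)]
    show inner ℝ (Ph w (dd (fun i => (y i).succ)))
      (∑ x, (∏ i, dd (fun i => (y i).succ) i (x i)) • w x) = 0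
    rw [inner_sum]
    refine Finset.sum_eq_zero fun x _ => ?_
    rw [inner_smul_right]
    by_cases hx : ∀ i, x i = 0 ∨ x i = (y i).succ
    · obtain ⟨ρ, hρ⟩ := hw (fun i => Equiv.swap (x i) (y i).succ)
      obtain ⟨ε, hε⟩ := ph_dd_sign (fun i => (y i).succ) x hx ρ hρ
      have h3 := ρ.inner_map_map (Ph w (dd (fun i => (y i).succ))) (w x)
      rw [hε, hρ] at h3
      have : (fun i => (Equiv.swap (x i) (y i).succ) (x i)) = fun i => (y i).succ := by
        ext i; simp
      rw [this, inner_smul_left, hcon, mul_zero] at h3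
      rw [← h3, mul_zero]
    · push Not at hx
      obtain ⟨i, hi1, hi2⟩ := hx
      rw [Finset.prod_eq_zero (Finset.mem_univ i) (by simp [dd, hi1, hi2]), zero_mul]
  rw [linearIndependent_iff']
  intro s g hg y hy
  have h1 : inner ℝ (Ph w (dd (fun i => (y i).succ)))
      (∑ x ∈ s, g x • w (fun i => (x i).succ)) = 0 := by rw [hg, inner_zero_right]
  rw [inner_sum, Finset.sum_eq_single y] at h1
  · rw [inner_smul_right] at h1
    exact (mul_eq_zero.mp h1).resolve_right (hne y)
  · intro x _ hxy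
    rw [inner_smul_right, horth x y hxy, mul_zero]
  · intro h; exact absurd hy h

end abstract_part

section concrete
variable {α : Type} [Fintype α] [DecidableEq α]

/-- the vectors `w_b`. -/
noncomputable def wv (W : Submodule ℝ (L2 (Perm α))) {k : ℕ} (β b : Fin k ↪ α) : L2 (Perm α) :=
  pr W (jf b β)

theorem rt_wv {W : Submodule ℝ (L2 (Perm α))} (hW : InvR W) {k : ℕ} (β b : Fin k ↪ α)
    (g : Perm α) : rt g (wv W β b) = wv W β (b.trans g.toEmbedding) := by
  unfold wv
  rw [← pr_rt hW, rt_jf]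

/-- modification of one coordinate. -/
def upd {k : ℕ} (b : Fin k ↪ α) (i : Fin k) (x : α) (hx : ∀ j, j ≠ i → b j ≠ x) : Fin k ↪ α :=
  ⟨Function.update b i x, by
    intro p q hpq
    by_cases hp : p = i
    · by_cases hq : q = i
      · rw [hp, hq]
      · rw [hp, Function.update_self, Function.update_of_ne hq] at hpq
        exact absurd hpq.symm (hx q hq)
    · by_cases hq : q = i
      · rw [hq, Function.update_self, Function.update_of_ne hp] at hpq
        exact absurd hpq (hx p hp)
      · rw [Function.update_of_ne hq, Function.update_of_ne hp] at hpq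
        exact b.injective hpq⟩

theorem upd_apply {k : ℕ} (b : Fin k ↪ α) (i : Fin k) (x : α) (hx : ∀ j, j ≠ i → b j ≠ x)
    (j : Fin k) : upd b i x hx j = Function.update b i x j := rfl

/-- sum over all modifications of a coordinate is a `(k-1)`-junta. -/
theorem sum_upd {m : ℕ} (β b : Fin (m + 1) ↪ α) (i : Fin (m + 1)) :
    ∑ x : α, (if hx : ∀ j, j ≠ i → b j ≠ x then jf (upd b i x hx) β else 0) =
      jf ((Fin.succAboveEmb i).trans b) ((Fin.succAboveEmb i).trans β) := by
  ext g
  rw [jf_apply]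
  simp only [WithLp.ofLp_sum, Finset.sum_apply]
  by_cases hg : ∀ j : Fin m, g (b (i.succAbove j)) = β (i.succAbove j)
  · have hg' : ∀ j, j ≠ i → g (b j) = β j := by
      intro j hj
      obtain ⟨j', rfl⟩ := Fin.exists_succAbove_eq hj
      exact hg j'
    rw [if_pos (by simpa using hg)]
    rw [Finset.sum_eq_single (g⁻¹ (β i))]
    · have hx : ∀ j, j ≠ i → b j ≠ g⁻¹ (β i) := by
        intro j hj h
        have : g (b j) = β i := by rw [h]; simp
        rw [hg' j hj] at this
        exact hj (β.injective this)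
      rw [dif_pos hx, jf_apply, if_pos]
      intro j
      rw [upd_apply]
      by_cases hj : j = i
      · subst hj; simp
      · rw [Function.update_of_ne hj]; exact hg' j hj
    · intro x _ hx
      split_ifs with h
      · rw [jf_apply, if_neg]
        intro hcon
        apply hx
        have := hcon i
        rw [upd_apply, Function.update_self] at this
        rw [← this]; simp
      · rfl
    · simp
  · rw [if_neg (by simpa using hg)]
    refine Finset.sum_eq_zero fun x _ => ?_
    split_ifs with h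
    · rw [jf_apply, if_neg]
      intro hcon
      apply hg
      intro j
      have := hcon (i.succAbove j)
      rwa [upd_apply, Function.update_of_ne (Fin.succAbove_ne i j)] at this
    · rfl

theorem sum_wv {m : ℕ} {W : Submodule ℝ (L2 (Perm α))} (hWl : W ≤ (junta α m)ᗮ)
    (β b : Fin (m + 1) ↪ α) (i : Fin (m + 1)) :
    ∑ x : α, (if hx : ∀ j, j ≠ i → b j ≠ x then wv W β (upd b i x hx) else 0) = 0 := by
  have h1 : ∑ x : α, (if hx : ∀ j, j ≠ i → b j ≠ x then wv W β (upd b i x hx) else 0) =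
      pr W (∑ x : α, (if hx : ∀ j, j ≠ i → b j ≠ x then jf (upd b i x hx) β else 0)) := by
    rw [map_sum]
    refine Finset.sum_congr rfl fun x _ => ?_
    split_ifs
    · rfl
    · simp
  rw [h1, sum_upd]
  apply pr_eq_of W.zero_mem
  rw [sub_zero, Submodule.mem_orthogonal]
  intro u hu
  have h2 := hWl hu
  rw [Submodule.mem_orthogonal] at h2
  rw [real_inner_comm]
  exact h2 _ (Submodule.subset_span ⟨(_, _), rfl⟩)

theorem inner_wv_inv {W : Submodule ℝ (L2 (Perm α))} (hW : InvR W) {k : ℕ} (β b b' : Fin k ↪ α)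
    (g : Perm α) : inner ℝ (wv W β (b.trans g.toEmbedding)) (wv W β (b'.trans g.toEmbedding)) =
      inner ℝ (wv W β b) (wv W β b') := by
  rw [← rt_wv hW, ← rt_wv hW, (rt g).inner_map_map]

/-- the inner product of `w_b` with a one-coordinate modification. -/
theorem inner_upd {m : ℕ} {W : Submodule ℝ (L2 (Perm α))} (hW : InvR W)
    (hWl : W ≤ (junta α m)ᗮ)
    (β b : Fin (m + 1) ↪ α) (i : Fin (m + 1)) (x : α) (hx : ∀ j, b j ≠ x) :
    inner ℝ (wv W β b) (wv W β (upd b i x (fun j _ => hx j))) ≤ 0 := by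
  have h0 := sum_wv hWl β b i
  have h1 : ∑ y : α, inner ℝ (wv W β b)
      (if hy : ∀ j, j ≠ i → b j ≠ y then wv W β (upd b i y hy) else 0) = 0 := by
    rw [← inner_sum, h0, inner_zero_right]
  set q := inner ℝ (wv W β b) (wv W β (upd b i x (fun j _ => hx j))) with hq
  have h2 : ∀ y : α, inner ℝ (wv W β b)
      (if hy : ∀ j, j ≠ i → b j ≠ y then wv W β (upd b i y hy) else 0) =
      if y = b i then ‖wv W β b‖ ^ 2 else if (∀ j, b j ≠ y) then q else 0 := by
    intro y
    by_cases hyi : y = b i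
    · have hy' : ∀ j, j ≠ i → b j ≠ y := by
        intro j hj h; exact hj (b.injective (h.trans hyi))
      rw [if_pos hyi, dif_pos hy']
      · have : upd b i y hy' = b := by
          ext j
          rw [upd_apply]
          by_cases hj : j = i
          · subst hj; rw [Function.update_self, hyi]
          · rw [Function.update_of_ne hj]
        rw [this, real_inner_self_eq_norm_sq]
    · rw [if_neg hyi]
      by_cases hy : ∀ j, b j ≠ y
      · rw [if_pos hy, dif_pos (fun j _ => hy j), hq, ← inner_wv_inv hW β b _ (Equiv.swap x y)]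
        congr 2
        · ext j
          simp [Equiv.swap_apply_of_ne_of_ne (hx j) (hy j)]
        · ext j
          simp only [Function.Embedding.trans_apply, Equiv.coe_toEmbedding, upd_apply]
          by_cases hj : j = i
          · subst hj; simp
          · rw [Function.update_of_ne hj, Function.update_of_ne hj,
              Equiv.swap_apply_of_ne_of_ne (hx j) (hy j)]
      · rw [if_neg hy, dif_neg, inner_zero_right]
        intro h
        apply hy
        intro j hj
        by_cases hji : j = i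
        · subst hji; exact hyi hj.symm
        · exact h j hji hj
  rw [Finset.sum_congr rfl fun y _ => h2 y] at h1
  by_contra hcon
  push Not at hcon
  have h3 : 0 < ∑ y : α, (if y = b i then ‖wv W β b‖ ^ 2
      else if (∀ j, b j ≠ y) then q else 0) := by
    apply Finset.sum_pos'
    · intro y _
      split_ifs
      · positivity
      · exact hcon.le
      · exact le_rfl
    · refine ⟨x, Finset.mem_univ x, ?_⟩
      rw [if_neg (fun h => hx i h.symm), if_pos hx]
      exact hcon
  linarith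

end concrete

end LD

variable {α : Type} [Fintype α] [DecidableEq α]

theorem level_dim {k : ℕ} (hk : 1 ≤ k) (hkn : k * k + k ≤ Fintype.card α)
    (W : Submodule ℝ (L2 (Perm α))) (hW : InvR W) (hWl : W ≤ lev α k) (hne : W ≠ ⊥) :
    ((Fintype.card α - k) / k) ^ k ≤ Module.finrank ℝ W := by
  classical
  obtain ⟨m, rfl⟩ : ∃ m, k = m + 1 := ⟨k - 1, by omega⟩
  set c := (Fintype.card α - (m + 1)) / (m + 1) with hc
  have hWj : W ≤ junta α (m + 1) := hWl.trans inf_le_left
  have hWo : W ≤ (junta α m)ᗮ := hWl.trans inf_le_right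
  -- some `w_b` is nonzero
  obtain ⟨a, β, hab⟩ : ∃ a β : Fin (m + 1) ↪ α, LD.wv W β a ≠ 0 := by
    by_contra hcon
    push Not at hcon
    apply hne
    rw [eq_bot_iff]
    intro w hw
    have h1 : ∀ u ∈ junta α (m + 1), inner ℝ u w = 0 := by
      intro u hu
      induction hu using Submodule.span_induction with
      | mem u hu =>
        obtain ⟨⟨a, b⟩, rfl⟩ := hu
        have h2 := hcon a b
        have h3 : inner ℝ (pr W (jf a b)) w = 0 := by
          show inner ℝ (LD.wv W b a) w = 0
          rw [h2, inner_zero_left]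
        rw [inner_pr_left, pr_of_mem hw] at h3
        exact h3
      | zero => simp
      | add x y _ _ hx hy => rw [inner_add_left, hx, hy, add_zero]
      | smul r x _ hx => rw [inner_smul_left, hx, mul_zero]
    have h4 := h1 w (hWj hw)
    simpa using h4
  -- an embedding `t : Fin (m+1) × Fin (c+1) ↪ α` with `t (i, 0) = a i`
  have hcard : (m + 1) * (c + 1) ≤ Fintype.card α := by
    have h1 : (m + 1) * c ≤ Fintype.card α - (m + 1) := by
      rw [hc]; exact Nat.mul_div_le _ _
    have h2 : m + 1 ≤ Fintype.card α := by nlinarith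
    calc (m + 1) * (c + 1) = (m + 1) * c + (m + 1) := by ring
      _ ≤ Fintype.card α := by omega
  have hkc : m + 1 < c + 1 := by
    have h1 : m + 1 ≤ c := by
      rw [hc, Nat.le_div_iff_mul_le (by omega)]
      have h2 : (m + 1) * (m + 1) + (m + 1) ≤ Fintype.card α := hkn
      omega
    omega
  obtain ⟨t, ht⟩ : ∃ t : Fin (m + 1) × Fin (c + 1) ↪ α, ∀ i, t (i, 0) = a i := by
    obtain ⟨t0⟩ : Nonempty (Fin (m + 1) × Fin (c + 1) ↪ α) := by
      apply Function.Embedding.nonempty_of_card_le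
      simpa using hcard
    let b : Fin (m + 1) ↪ α := ⟨fun i => t0 (i, 0), fun i j h => by
      have := t0.injective h
      simpa using this⟩
    obtain ⟨σ, hσ⟩ : ∃ σ : Perm α, ∀ i, σ (b i) = a i := by
      let e : {x // x ∈ Set.range b} ≃ {x // x ∈ Set.range a} :=
        (Equiv.ofInjective b b.injective).symm.trans (Equiv.ofInjective a a.injective)
      refine ⟨e.extendSubtype, fun i => ?_⟩
      rw [Equiv.extendSubtype_apply_of_mem e (b i) ⟨i, rfl⟩]
      have : (Equiv.ofInjective b b.injective).symm ⟨b i, ⟨i, rfl⟩⟩ = i :=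
        Equiv.ofInjective_symm_apply b.injective i
      simp only [e, Equiv.trans_apply]
      rw [this]
      rfl
    exact ⟨t0.trans σ.toEmbedding, hσ⟩
  let bt : (Fin (m + 1) → Fin (c + 1)) → (Fin (m + 1) ↪ α) := fun x =>
    ⟨fun i => t (i, x i), fun i j h => by
      have := t.injective h
      simpa using congrArg Prod.fst this⟩
  let w : (Fin (m + 1) → Fin (c + 1)) → L2 (Perm α) := fun x => LD.wv W β (bt x)
  have hbt0 : bt 0 = a := by ext i; exact ht i
  have hE : LD.Eqv w := by
    intro g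
    let e : Perm (Fin (m + 1) × Fin (c + 1)) := Equiv.prodShear (Equiv.refl _) g
    refine ⟨(rt (e.viaEmbedding t)).toLinearIsometry, fun x => ?_⟩
    show rt (e.viaEmbedding t) (LD.wv W β (bt x)) = LD.wv W β (bt _)
    rw [LD.rt_wv hW]
    congr 1
    ext i
    show e.viaEmbedding t (t (i, x i)) = t (i, g i (x i))
    rw [Equiv.Perm.viaEmbedding_apply]
    rfl
  have hneg : ∀ (i : Fin (m + 1)) (z : Fin (c + 1)), z ≠ 0 →
      inner ℝ (w 0) (w (Function.update 0 i z)) ≤ 0 := by
    intro i z hz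
    have hx : ∀ j, a j ≠ t (i, z) := by
      intro j hj
      rw [← ht j] at hj
      have := t.injective hj
      simp only [Prod.mk.injEq] at this
      exact hz this.2.symm
    have h1 := LD.inner_upd hW hWo β a i (t (i, z)) hx
    have h2 : bt (Function.update 0 i z) = LD.upd a i (t (i, z)) (fun j _ => hx j) := by
      ext j
      rw [LD.upd_apply]
      show t (j, Function.update (0 : Fin (m + 1) → Fin (c + 1)) i z j) = _
      by_cases hj : j = i
      · subst hj; simp
      · rw [Function.update_of_ne hj, Function.update_of_ne hj]; exact ht j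
    show inner ℝ (LD.wv W β (bt 0)) (LD.wv W β (bt _)) ≤ 0
    rw [hbt0, h2]
    exact h1
  have h0 : w 0 ≠ 0 := by
    show LD.wv W β (bt 0) ≠ 0
    rw [hbt0]; exact hab
  have hli := LD.abstract_li hE hneg h0 hkc
  have hmem : ∀ x, w x ∈ W := fun x => pr_mem _ _
  have hli' : LinearIndependent ℝ (fun y : Fin (m + 1) → Fin c =>
      (⟨w (fun i => (y i).succ), hmem _⟩ : W)) := by
    apply LinearIndependent.of_comp W.subtype
    exact hli
  have := hli'.fintype_card_le_finrank
  simpa using this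

end Crest.Agent.R155
end

-- ▼ part R155/SignDim

/-!
R155, Part R, task SignDim: right invariant subspaces orthogonal to low juntas and to sign times
low juntas have large dimension.

Proof. Take a perfect matching `{x_u, y_u}`, `u : Fin m`, of `α`; the `m` commuting involutions
`rt (swap (x_u) (y_u))` decompose `W` into joint eigenspaces `W_T`, `T ⊆ Fin m` the set of `-1`s.
`dim W_T` depends only on `|T|` (conjugation by permutations of `α` permuting the pairs) and not on the
matching. Let `S = {|T| : W_T ≠ 0}`. If `s ∈ S` then `dim W ≥ C(m,s)`.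
If `t ∈ S`, `t+1 ∉ S`, `t+2 ∉ S` then `w ∈ W_T`, `|T| = t`, is fixed by every transposition of two points
outside the pairs in `T`: for two pairs `j, k ∉ T` re-pair `{x_j,x_k},{y_j,y_k}`; the components of
`w` for the new matching have `t, t+1` or `t+2` minus signs so only the one with `t` survives. Hence
`w` is fixed by `Sym` of the complement of a set of `2t` points, `w ∈ junta (2t)`.
So if `W ⊥ junta K0`: for `t ∈ S` with `2t ≤ K0` one of `t+1, t+2` is in `S`. The same for `sgn · W`,
whose set is `{m - s : s ∈ S}`. Climbing from any `s ∈ S` one gets an element `s' ∈ S` with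
`h ≤ s' ≤ m - h`, and `C(m,s') ≥ C(m,h)`.
-/

set_option autoImplicit false
set_option linter.unusedSectionVars false
set_option linter.unusedVariables false

namespace Crest.Agent.R155

open Finset Equiv

variable {α : Type} [Fintype α] [DecidableEq α]

namespace SignDim

variable {m : ℕ}

/-- the transposition of the `u`-th pair of a matching. -/
def sw (φ : Fin m × Bool ≃ α) (u : Fin m) : Perm α := swap (φ (u, false)) (φ (u, true))

theorem sw_mul_self (φ : Fin m × Bool ≃ α) (u : Fin m) : sw φ u * sw φ u = 1 :=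
  swap_mul_self _ _

theorem sw_apply_ne (φ : Fin m × Bool ≃ α) {u v : Fin m} (h : v ≠ u) (b : Bool) :
    sw φ u (φ (v, b)) = φ (v, b) := by
  unfold sw
  apply swap_apply_of_ne_of_ne
  · intro h'
    exact h (congrArg Prod.fst (φ.injective h'))
  · intro h'
    exact h (congrArg Prod.fst (φ.injective h'))

theorem sw_comm (φ : Fin m × Bool ≃ α) {u v : Fin m} (h : v ≠ u) :
    sw φ u * sw φ v = sw φ v * sw φ u := by
  have h1 : sw φ u * sw φ v * (sw φ u)⁻¹ = sw φ v := by
    conv_lhs => rw [sw, sw]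
    rw [← swap_apply_apply]
    have := sw_apply_ne φ h false
    have h2 := sw_apply_ne φ h true
    unfold sw at this h2 ⊢
    rw [this, h2]
  calc sw φ u * sw φ v = sw φ u * sw φ v * (sw φ u)⁻¹ * sw φ u := by group
    _ = _ := by rw [h1]

/-- joint eigenvector with `-1`s at `T`. -/
def Eig (φ : Fin m × Bool ≃ α) (T : Finset (Fin m)) (w : L2 (Perm α)) : Prop :=
  ∀ u, rt (sw φ u) w = (if u ∈ T then (-1 : ℝ) else 1) • w

def HasT (W : Submodule ℝ (L2 (Perm α))) (φ : Fin m × Bool ≃ α) (T : Finset (Fin m)) : Prop :=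
  ∃ w ∈ W, w ≠ 0 ∧ Eig φ T w

theorem rt_proj (φ : Fin m × Bool ≃ α) (u : Fin m) (w : L2 (Perm α)) (ε : ℝ) (hε : ε * ε = 1) :
    rt (sw φ u) (w + ε • rt (sw φ u) w) = ε • (w + ε • rt (sw φ u) w) := by
  rw [map_add, map_smul, ← rt_mul, sw_mul_self, rt_one, smul_add, smul_smul, hε, one_smul,
    add_comm]

theorem rt_proj_other (φ : Fin m × Bool ≃ α) {u v : Fin m} (h : v ≠ u) (w : L2 (Perm α)) (ε δ : ℝ)
    (hv : rt (sw φ v) w = δ • w) :
    rt (sw φ v) (w + ε • rt (sw φ u) w) = δ • (w + ε • rt (sw φ u) w) := by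
  rw [map_add, map_smul, ← rt_mul, ← sw_comm φ h, rt_mul, hv, map_smul, smul_add,
    smul_comm ε δ]

theorem exists_hasT_aux (W : Submodule ℝ (L2 (Perm α))) (hW : InvR W) (hne : W ≠ ⊥)
    (φ : Fin m × Bool ≃ α) (U : Finset (Fin m)) :
    ∃ w ∈ W, w ≠ 0 ∧ ∃ T : Finset (Fin m), ∀ u ∈ U,
      rt (sw φ u) w = (if u ∈ T then (-1 : ℝ) else 1) • w := by
  classical
  induction U using Finset.induction_on with
  | empty =>
    obtain ⟨w, hw, hw0⟩ := W.exists_mem_ne_zero_of_ne_bot hne
    exact ⟨w, hw, hw0, ∅, by simp⟩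
  | insert a U ha ih =>
    obtain ⟨w, hw, hw0, T, hT⟩ := ih
    have hmem : ∀ ε : ℝ, w + ε • rt (sw φ a) w ∈ W := fun ε =>
      W.add_mem hw (W.smul_mem _ (hW _ _ hw))
    by_cases h1 : w + (1 : ℝ) • rt (sw φ a) w = 0
    · have h2 : w + (-1 : ℝ) • rt (sw φ a) w ≠ 0 := by
        intro h2
        apply hw0
        have h3 : (2 : ℝ) • w = 0 := by
          have : (2 : ℝ) • w = (w + (1 : ℝ) • rt (sw φ a) w) + (w + (-1 : ℝ) • rt (sw φ a) w) := by
            module
          rw [this, h1, h2, add_zero]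
        simpa using h3
      refine ⟨_, hmem (-1), h2, insert a T, ?_⟩
      intro u hu
      by_cases hua : u = a
      · subst hua
        rw [if_pos (Finset.mem_insert_self _ _)]
        exact rt_proj φ u w (-1) (by norm_num)
      · have huU : u ∈ U := (Finset.mem_insert.mp hu).resolve_left hua
        have : (u ∈ insert a T) ↔ (u ∈ T) := by simp [hua]
        rw [if_congr this rfl rfl]
        exact rt_proj_other φ hua w _ _ (hT u huU)
    · refine ⟨_, hmem 1, h1, T.erase a, ?_⟩
      intro u hu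
      by_cases hua : u = a
      · subst hua
        rw [if_neg (Finset.notMem_erase _ _)]
        exact rt_proj φ u w 1 (by norm_num)
      · have huU : u ∈ U := (Finset.mem_insert.mp hu).resolve_left hua
        have : (u ∈ T.erase a) ↔ (u ∈ T) := by simp [hua]
        rw [if_congr this rfl rfl]
        exact rt_proj_other φ hua w _ _ (hT u huU)

theorem exists_hasT (W : Submodule ℝ (L2 (Perm α))) (hW : InvR W) (hne : W ≠ ⊥)
    (φ : Fin m × Bool ≃ α) : ∃ T : Finset (Fin m), HasT W φ T := by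
  obtain ⟨w, hw, hw0, T, hT⟩ := exists_hasT_aux W hW hne φ Finset.univ
  exact ⟨T, w, hw, hw0, fun u => hT u (Finset.mem_univ u)⟩

/-- independence of the matching. -/
theorem HasT.transport {W : Submodule ℝ (L2 (Perm α))} (hW : InvR W) {φ : Fin m × Bool ≃ α}
    {T : Finset (Fin m)} (h : HasT W φ T) (φ' : Fin m × Bool ≃ α) : HasT W φ' T := by
  obtain ⟨w, hw, hw0, hT⟩ := h
  let π : Perm α := φ.symm.trans φ'
  have hπ : ∀ p, π (φ p) = φ' p := fun p => by simp [π]
  refine ⟨rt π w, hW _ _ hw, by simpa using hw0, fun u => ?_⟩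
  have h1 : sw φ' u = π * sw φ u * π⁻¹ := by
    unfold sw
    rw [← swap_apply_apply, hπ, hπ]
  rw [h1, ← rt_mul]
  have h2 : π * sw φ u * π⁻¹ * π = π * sw φ u := by group
  rw [h2, rt_mul, hT u, map_smul]

/-- dependence on the cardinality only. -/
theorem HasT.of_card {W : Submodule ℝ (L2 (Perm α))} (hW : InvR W) {φ : Fin m × Bool ≃ α}
    {T : Finset (Fin m)} (h : HasT W φ T) (φ' : Fin m × Bool ≃ α) (T' : Finset (Fin m))
    (hc : T'.card = T.card) : HasT W φ' T' := by
  classical
  obtain ⟨w, hw, hw0, hT⟩ := h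
  let e : {x // x ∈ T'} ≃ {x // x ∈ T} := Finset.equivOfCardEq hc
  let τ : Perm (Fin m) := e.extendSubtype
  have hτ : ∀ u, τ u ∈ T ↔ u ∈ T' := by
    intro u
    constructor
    · intro h
      by_contra hu
      exact e.extendSubtype_not_mem u hu h
    · intro h
      exact e.extendSubtype_mem u h
  let φ1 : Fin m × Bool ≃ α := (Equiv.prodCongr τ (Equiv.refl Bool)).trans φ
  have h1 : HasT W φ1 T' := by
    refine ⟨w, hw, hw0, fun u => ?_⟩
    have h2 : sw φ1 u = sw φ (τ u) := rfl
    rw [h2, hT (τ u), if_congr (hτ u) rfl rfl]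
  exact h1.transport hW φ'

/-- The set of possible numbers of minus signs. -/
def SS (m : ℕ) (W : Submodule ℝ (L2 (Perm α))) : Set ℕ :=
  {t | ∃ (φ : Fin m × Bool ≃ α) (T : Finset (Fin m)), T.card = t ∧ HasT W φ T}

theorem SS_hasT {W : Submodule ℝ (L2 (Perm α))} (hW : InvR W) {t : ℕ} (ht : t ∈ SS m W)
    (φ : Fin m × Bool ≃ α) (T : Finset (Fin m)) (hc : T.card = t) : HasT W φ T := by
  obtain ⟨φ', T', hc', h⟩ := ht
  exact h.of_card hW φ T (hc.trans hc'.symm)

theorem SS_le {W : Submodule ℝ (L2 (Perm α))} {t : ℕ} (ht : t ∈ SS m W) : t ≤ m := by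
  obtain ⟨φ', T', hc', h⟩ := ht
  rw [← hc']
  simpa using T'.card_le_univ

theorem inner_eq_zero_of_eig (φ : Fin m × Bool ≃ α) {T T' : Finset (Fin m)} (hTT : T ≠ T')
    {w w' : L2 (Perm α)} (h : Eig φ T w) (h' : Eig φ T' w') : inner ℝ w w' = 0 := by
  classical
  obtain ⟨u, hu⟩ : ∃ u, ¬ (u ∈ T ↔ u ∈ T') := by
    by_contra hcon
    push Not at hcon
    exact hTT (Finset.ext hcon)
  have h1 : inner ℝ (rt (sw φ u) w) (rt (sw φ u) w') = inner ℝ w w' :=
    (rt (sw φ u)).inner_map_map w w'
  rw [h u, h' u, inner_smul_left, inner_smul_right] at h1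
  by_cases h2 : u ∈ T
  · have h3 : u ∉ T' := fun h3 => hu ⟨fun _ => h3, fun _ => h2⟩
    rw [if_pos h2, if_neg h3] at h1
    simp at h1
    linarith
  · have h3 : u ∈ T' := by
      by_contra h3
      exact hu ⟨fun h => absurd h h2, fun h => absurd h h3⟩
    rw [if_neg h2, if_pos h3] at h1
    simp at h1
    linarith

theorem choose_le_finrank {W : Submodule ℝ (L2 (Perm α))} (hW : InvR W) {t : ℕ}
    (ht : t ∈ SS m W) : m.choose t ≤ Module.finrank ℝ W := by
  classical
  obtain ⟨φ, _, _, _⟩ := id ht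
  have hex : ∀ T : {T : Finset (Fin m) // T ∈ Finset.powersetCard t Finset.univ},
      ∃ w : L2 (Perm α), w ∈ W ∧ w ≠ 0 ∧ Eig φ T.1 w := by
    intro T
    have hc : T.1.card = t := (Finset.mem_powersetCard.mp T.2).2
    obtain ⟨w, hw, hw0, h⟩ := SS_hasT hW ht φ T.1 hc
    exact ⟨w, hw, hw0, h⟩
  choose v hvW hv0 hvE using hex
  have hli : LinearIndependent ℝ (fun T => (⟨v T, hvW T⟩ : W)) := by
    apply linearIndependent_of_ne_zero_of_inner_eq_zero (𝕜 := ℝ)
    · intro T h
      exact hv0 T (congrArg Subtype.val h)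
    · intro T T' hne
      exact inner_eq_zero_of_eig φ (fun h => hne (Subtype.ext h)) (hvE T) (hvE T')
  have := hli.fintype_card_le_finrank
  simpa [Fintype.card_coe, Finset.card_powersetCard] using this

/-- if `t ∈ S`, `t+1, t+2 ∉ S`, then swaps of points in different pairs outside `T` fix `w`. -/
theorem fix_swap_aux {W : Submodule ℝ (L2 (Perm α))} (hW : InvR W) {t : ℕ}
    (h1 : t + 1 ∉ SS m W) (h2 : t + 2 ∉ SS m W) (φ : Fin m × Bool ≃ α) (T : Finset (Fin m))
    (hc : T.card = t) (w : L2 (Perm α)) (hw : w ∈ W) (hE : Eig φ T w) (j k : Fin m)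
    (hjk : j ≠ k) (hj : j ∉ T) (hk : k ∉ T) (b c : Bool) :
    rt (swap (φ (j, b)) (φ (k, c))) w = w := by
  classical
  -- new matching
  set x := φ (j, b) with hx
  set x' := φ (j, !b) with hx'
  set y := φ (k, c) with hy
  set y' := φ (k, !c) with hy'
  let π : Perm α := swap x' y
  let ψ : Fin m × Bool ≃ α := φ.trans π
  have hψ : ∀ p, ψ p = π (φ p) := fun p => rfl
  have hswj : sw φ j = swap x x' := by
    unfold sw
    rw [hx, hx']
    cases b
    · rfl
    · exact swap_comm _ _
  have hswk : sw φ k = swap y y' := by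
    unfold sw
    rw [hy, hy']
    cases c
    · rfl
    · exact swap_comm _ _
  have hconj : ∀ u, sw ψ u = π * sw φ u * π⁻¹ := by
    intro u
    unfold sw
    rw [← swap_apply_apply]
    rfl
  have hxx' : x ≠ x' := by
    intro h
    have := congrArg Prod.snd (φ.injective h)
    cases b <;> simp at this
  have hyy' : y ≠ y' := by
    intro h
    have := congrArg Prod.snd (φ.injective h)
    cases c <;> simp at this
  have hxy : x ≠ y := fun h => hjk (congrArg Prod.fst (φ.injective h))
  have hy'x' : y' ≠ x' := fun h => hjk (congrArg Prod.fst (φ.injective h)).symm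
  have hpx : π x = x := swap_apply_of_ne_of_ne hxx' hxy
  have hpx' : π x' = y := swap_apply_left _ _
  have hpy : π y = x' := swap_apply_right _ _
  have hpy' : π y' = y' := swap_apply_of_ne_of_ne hy'x' hyy'.symm
  have hj' : sw ψ j = swap x y := by
    rw [hconj, hswj, ← swap_apply_apply, hpx, hpx']
  have hk' : sw ψ k = swap x' y' := by
    rw [hconj, hswk, ← swap_apply_apply, hpy, hpy']
  have hu' : ∀ u, u ≠ j → u ≠ k → sw ψ u = sw φ u := by
    intro u huj huk
    rw [hconj, sw, ← swap_apply_apply]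
    have : ∀ d, π (φ (u, d)) = φ (u, d) := by
      intro d
      apply swap_apply_of_ne_of_ne
      · intro h
        exact huj (congrArg Prod.fst (φ.injective h))
      · intro h
        exact huk (congrArg Prod.fst (φ.injective h))
    rw [this, this]
  -- the components
  set w1 := w + (-1 : ℝ) • rt (sw ψ j) w with hw1
  have hw1W : w1 ∈ W := W.add_mem hw (W.smul_mem _ (hW _ _ hw))
  have hw1j : rt (sw ψ j) w1 = (-1 : ℝ) • w1 := rt_proj ψ j w (-1) (by norm_num)
  have hw1u : ∀ u, u ≠ j → u ≠ k → rt (sw ψ u) w1 = (if u ∈ T then (-1 : ℝ) else 1) • w1 := by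
    intro u huj huk
    apply rt_proj_other ψ huj
    rw [hu' u huj huk, hE u]
  have hzero : ∀ (ε : ℝ), ε = 1 ∨ ε = -1 → w1 + ε • rt (sw ψ k) w1 = 0 := by
    intro ε hε
    have hεε : ε * ε = 1 := by rcases hε with h | h <;> rw [h] <;> norm_num
    by_contra hne0
    set w2 := w1 + ε • rt (sw ψ k) w1 with hw2
    have hw2W : w2 ∈ W := W.add_mem hw1W (W.smul_mem _ (hW _ _ hw1W))
    have hw2k : rt (sw ψ k) w2 = ε • w2 := rt_proj ψ k w1 ε hεε
    have hw2j : rt (sw ψ j) w2 = (-1 : ℝ) • w2 := rt_proj_other ψ hjk w1 ε (-1) hw1j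
    have hw2u : ∀ u, u ≠ j → u ≠ k →
        rt (sw ψ u) w2 = (if u ∈ T then (-1 : ℝ) else 1) • w2 := fun u huj huk =>
      rt_proj_other ψ huk w1 ε _ (hw1u u huj huk)
    rcases hε with h | h
    · apply h1
      refine ⟨ψ, insert j T, ?_, w2, hw2W, hne0, ?_⟩
      · rw [Finset.card_insert_of_notMem hj, hc]
      · intro u
        by_cases huj : u = j
        · subst huj
          rw [if_pos (Finset.mem_insert_self _ _)]
          exact hw2j
        · by_cases huk : u = k
          · subst huk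
            have : u ∉ insert j T := by simp [huj, hk]
            rw [if_neg this, hw2k, h]
          · have : (u ∈ insert j T) ↔ (u ∈ T) := by simp [huj]
            rw [if_congr this rfl rfl]
            exact hw2u u huj huk
    · apply h2
      refine ⟨ψ, insert k (insert j T), ?_, w2, hw2W, hne0, ?_⟩
      · rw [Finset.card_insert_of_notMem (by simp [hjk.symm, hk]),
          Finset.card_insert_of_notMem hj, hc]
      · intro u
        by_cases huj : u = j
        · subst huj
          rw [if_pos (by simp)]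
          exact hw2j
        · by_cases huk : u = k
          · subst huk
            rw [if_pos (Finset.mem_insert_self _ _), hw2k, h]
          · have : (u ∈ insert k (insert j T)) ↔ (u ∈ T) := by simp [huj, huk]
            rw [if_congr this rfl rfl]
            exact hw2u u huj huk
  have hw10 : w1 = 0 := by
    have ha := hzero 1 (Or.inl rfl)
    have hb := hzero (-1) (Or.inr rfl)
    have h3 : (2 : ℝ) • w1 = 0 := by
      have : (2 : ℝ) • w1 = (w1 + (1 : ℝ) • rt (sw ψ k) w1) +
          (w1 + (-1 : ℝ) • rt (sw ψ k) w1) := by module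
      rw [this, ha, hb, add_zero]
    simpa using h3
  rw [hw1, hj'] at hw10
  have h4 : w = rt (swap x y) w := by
    have h5 : w - rt (swap x y) w = 0 := by
      rw [← hw10]
      module
    exact sub_eq_zero.mp h5
  exact h4.symm

theorem fix_swap {W : Submodule ℝ (L2 (Perm α))} (hW : InvR W) {t : ℕ}
    (h1 : t + 1 ∉ SS m W) (h2 : t + 2 ∉ SS m W) (φ : Fin m × Bool ≃ α) (T : Finset (Fin m))
    (hc : T.card = t) (w : L2 (Perm α)) (hw : w ∈ W) (hE : Eig φ T w) (j k : Fin m)
    (hj : j ∉ T) (hk : k ∉ T) (b c : Bool) :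
    rt (swap (φ (j, b)) (φ (k, c))) w = w := by
  by_cases hjk : j = k
  · subst hjk
    have hj1 : rt (sw φ j) w = w := by
      rw [hE j, if_neg hj, one_smul]
    cases b <;> cases c
    · rw [swap_self]
      exact rt_one w
    · exact hj1
    · rw [swap_comm]
      exact hj1
    · rw [swap_self]
      exact rt_one w
  · exact fix_swap_aux hW h1 h2 φ T hc w hw hE j k hjk hj hk b c

theorem mem_junta_of {W : Submodule ℝ (L2 (Perm α))} (hW : InvR W) {t : ℕ}
    (h1 : t + 1 ∉ SS m W) (h2 : t + 2 ∉ SS m W) (φ : Fin m × Bool ≃ α) (T : Finset (Fin m))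
    (hc : T.card = t) (w : L2 (Perm α)) (hw : w ∈ W) (hE : Eig φ T w) :
    w ∈ junta α (2 * t) := by
  classical
  let Q : Finset α := (T ×ˢ (Finset.univ : Finset Bool)).map φ.toEmbedding
  have hQ : Q.card = 2 * t := by
    simp [Q, hc, mul_comm]
  have hmemQ : ∀ x, x ∈ Q ↔ (φ.symm x).1 ∈ T := by
    intro x
    simp only [Q, Finset.mem_map, Finset.mem_product, Finset.mem_univ, and_true]
    constructor
    · rintro ⟨p, hp, rfl⟩
      simpa using hp
    · intro h
      exact ⟨φ.symm x, h, by simp⟩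
  let a : Fin (2 * t) ↪ α :=
    (Finset.equivFinOfCardEq hQ).symm.toEmbedding.trans (Function.Embedding.subtype _)
  have ha : ∀ x ∈ Q, ∃ i, a i = x := by
    intro x hx
    exact ⟨Finset.equivFinOfCardEq hQ ⟨x, hx⟩, by simp [a]⟩
  refine mem_junta_of_fixR a w ?_
  intro h hfix
  have hfixQ : ∀ x ∈ Q, h x = x := by
    intro x hx
    obtain ⟨i, hi⟩ := ha x hx
    rw [← hi]
    exact hfix i
  have hmem : ∀ x, (h x ∉ Q) ↔ (x ∉ Q) := by
    intro x
    constructor
    · intro hx hx2
      exact hx (by rw [hfixQ x hx2]; exact hx2)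
    · intro hx hx2
      have := hfixQ (h x) hx2
      have h3 : h x = x := h.injective this
      rw [h3] at hx2
      exact hx hx2
  have hof : Equiv.Perm.ofSubtype (Equiv.Perm.subtypePerm (p := fun x => x ∉ Q) h hmem) = h :=
    Equiv.Perm.ofSubtype_subtypePerm (p := fun x => x ∉ Q) hmem
      (fun x hx hx2 => hx (hfixQ x hx2))
  rw [← hof]
  generalize Equiv.Perm.subtypePerm (p := fun x => x ∉ Q) h hmem = g
  induction g using Equiv.Perm.swap_induction_on with
  | one => rw [map_one]; exact rt_one w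
  | swap_mul f x y hxy ih =>
    rw [map_mul, rt_mul, ih, Equiv.Perm.ofSubtype_swap_eq]
    have hx : (φ.symm x.1).1 ∉ T := fun h => x.2 ((hmemQ _).mpr h)
    have hy : (φ.symm y.1).1 ∉ T := fun h => y.2 ((hmemQ _).mpr h)
    have := fix_swap hW h1 h2 φ T hc w hw hE _ _ hx hy (φ.symm x.1).2 (φ.symm y.1).2
    simpa using this

/-- climbing step -/
theorem climb {W : Submodule ℝ (L2 (Perm α))} (hW : InvR W) {K0 : ℕ}
    (hK : K0 ≤ Fintype.card α) (ho : W ≤ (junta α K0)ᗮ) {t : ℕ} (ht : t ∈ SS m W)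
    (htK : 2 * t ≤ K0) : t + 1 ∈ SS m W ∨ t + 2 ∈ SS m W := by
  by_contra hcon
  push Not at hcon
  obtain ⟨φ, T, hc, w, hw, hw0, hE⟩ := ht
  have h1 := mem_junta_of hW hcon.1 hcon.2 φ T hc w hw hE
  have h2 := junta_mono htK hK h1
  have h3 := ho hw
  rw [Submodule.mem_orthogonal] at h3
  have h4 := h3 w h2
  exact hw0 (inner_self_eq_zero.mp h4)

theorem climb_to {W : Submodule ℝ (L2 (Perm α))} (hW : InvR W) {h K0 : ℕ} (h1 : 2 * h ≤ K0)
    (hK : K0 ≤ Fintype.card α) (ho : W ≤ (junta α K0)ᗮ) :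
    ∀ (n t : ℕ), h - t ≤ n → t ∈ SS m W → t < h → ∃ s ∈ SS m W, h ≤ s ∧ s ≤ h + 1 := by
  intro n
  induction n with
  | zero =>
    intro t hn ht hth
    omega
  | succ n ih =>
    intro t hn ht hth
    have key : ∀ s, s ∈ SS m W → t < s → s ≤ t + 2 → ∃ s ∈ SS m W, h ≤ s ∧ s ≤ h + 1 := by
      intro s hs hts hs2
      by_cases hsh : s < h
      · exact ih s (by omega) hs hsh
      · exact ⟨s, hs, by omega, by omega⟩
    rcases climb hW hK ho ht (by omega) with h2 | h2
    · exact key _ h2 (by omega) (by omega)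
    · exact key _ h2 (by omega) (by omega)

/-! ### sign twist -/

theorem sgnMul_apply' (f : L2 (Perm α)) (g : Perm α) :
    sgnMul α f g = ((Equiv.Perm.sign g : ℤ) : ℝ) * f g := rfl

theorem sign_sq (g : Perm α) :
    ((Equiv.Perm.sign g : ℤ) : ℝ) * ((Equiv.Perm.sign g : ℤ) : ℝ) = 1 := by
  rcases Int.units_eq_one_or (Equiv.Perm.sign g) with h | h <;> rw [h] <;> norm_num

theorem sgnMul_sgnMul (f : L2 (Perm α)) : sgnMul α (sgnMul α f) = f := by
  ext g
  rw [sgnMul_apply', sgnMul_apply', ← mul_assoc, sign_sq, one_mul]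

theorem rt_sgnMul (b : Perm α) (f : L2 (Perm α)) :
    rt b (sgnMul α f) = ((Equiv.Perm.sign b : ℤ) : ℝ) • sgnMul α (rt b f) := by
  ext g
  simp only [rt_apply, sgnMul_apply', WithLp.ofLp_smul, Pi.smul_apply, smul_eq_mul,
    Equiv.Perm.sign_mul]
  push_cast
  ring

theorem inner_sgnMul (f g : L2 (Perm α)) :
    inner ℝ (sgnMul α f) (sgnMul α g) = inner ℝ f g := by
  rw [inner_def', inner_def']
  refine Finset.sum_congr rfl fun x _ => ?_
  rw [sgnMul_apply', sgnMul_apply']
  have := sign_sq x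
  linear_combination (f x * g x) * this

theorem map_map_sgn (W : Submodule ℝ (L2 (Perm α))) : (W.map (sgnMul α)).map (sgnMul α) = W := by
  ext w
  constructor
  · rintro ⟨_, ⟨v, hv, rfl⟩, rfl⟩
    rw [sgnMul_sgnMul]
    exact hv
  · intro h
    exact ⟨sgnMul α w, ⟨w, h, rfl⟩, sgnMul_sgnMul w⟩

theorem invR_map_sgn {W : Submodule ℝ (L2 (Perm α))} (hW : InvR W) :
    InvR (W.map (sgnMul α)) := by
  rintro b _ ⟨f, hf, rfl⟩
  rw [rt_sgnMul]
  exact Submodule.smul_mem _ _ ⟨_, hW b f hf, rfl⟩

theorem map_sgn_orth {W : Submodule ℝ (L2 (Perm α))} {k : ℕ} (hs : W ≤ (sjunta α k)ᗮ) :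
    W.map (sgnMul α) ≤ (junta α k)ᗮ := by
  rintro _ ⟨f, hf, rfl⟩
  rw [Submodule.mem_orthogonal]
  intro u hu
  have h1 := hs hf
  rw [Submodule.mem_orthogonal] at h1
  have h2 := h1 (sgnMul α u) ⟨u, hu, rfl⟩
  rw [← inner_sgnMul, sgnMul_sgnMul]
  exact h2

theorem HasT.sgn {W : Submodule ℝ (L2 (Perm α))} {φ : Fin m × Bool ≃ α}
    {T : Finset (Fin m)} (h : HasT W φ T) : HasT (W.map (sgnMul α)) φ Tᶜ := by
  obtain ⟨w, hw, hw0, hE⟩ := h
  refine ⟨sgnMul α w, ⟨w, hw, rfl⟩, ?_, fun u => ?_⟩
  · intro h0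
    apply hw0
    rw [← sgnMul_sgnMul w, h0, map_zero]
  · have hne : φ (u, false) ≠ φ (u, true) := fun h => by
      have := congrArg Prod.snd (φ.injective h)
      simp at this
    have hsg : Equiv.Perm.sign (sw φ u) = -1 := Equiv.Perm.sign_swap hne
    rw [rt_sgnMul, hE u, hsg, map_smul, smul_smul]
    congr 1
    by_cases hu : u ∈ T
    · simp [hu]
    · simp [hu]

theorem SS_sgn {W : Submodule ℝ (L2 (Perm α))} {t : ℕ} (ht : t ∈ SS m W) :
    m - t ∈ SS m (W.map (sgnMul α)) := by
  obtain ⟨φ, T, hc, h⟩ := ht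
  exact ⟨φ, Tᶜ, by rw [Finset.card_compl, hc, Fintype.card_fin], h.sgn⟩

theorem SS_sgn' {W : Submodule ℝ (L2 (Perm α))} {t : ℕ}
    (ht : t ∈ SS m (W.map (sgnMul α))) : m - t ∈ SS m W := by
  have := SS_sgn ht
  rwa [map_map_sgn] at this

theorem choose_le_choose_half (m h : ℕ) : ∀ n, h + n ≤ m / 2 → m.choose h ≤ m.choose (h + n) := by
  intro n
  induction n with
  | zero => intro _; exact le_rfl
  | succ n ih =>
    intro hn
    exact (ih (by omega)).trans (Nat.choose_le_succ_of_lt_half_left (by omega))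

theorem choose_le_choose_mid {m h s : ℕ} (h1 : h ≤ s) (h2 : s ≤ m - h) (hm : h ≤ m) :
    m.choose h ≤ m.choose s := by
  by_cases hs : s ≤ m / 2
  · obtain ⟨n, rfl⟩ := Nat.exists_eq_add_of_le h1
    exact choose_le_choose_half m h n hs
  · have hsm : s ≤ m := by omega
    rw [← Nat.choose_symm hsm]
    obtain ⟨n, hn⟩ := Nat.exists_eq_add_of_le (show h ≤ m - s by omega)
    rw [hn]
    exact choose_le_choose_half m h n (by omega)

end SignDim

open SignDim in
theorem sign_dim {m h K0 : ℕ} (hm : Fintype.card α = 2 * m) (h1 : 2 * h ≤ K0)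
    (hK : K0 ≤ Fintype.card α) (h2 : 2 * h + 3 ≤ m)
    (W : Submodule ℝ (L2 (Perm α))) (hW : InvR W) (hne : W ≠ ⊥)
    (ho : W ≤ (junta α K0)ᗮ) (hs : W ≤ (sjunta α K0)ᗮ) :
    m.choose h ≤ Module.finrank ℝ W := by
  classical
  have hcard : Fintype.card (Fin m × Bool) = Fintype.card α := by
    rw [hm, Fintype.card_prod, Fintype.card_fin, Fintype.card_bool, mul_comm]
  let φ : Fin m × Bool ≃ α := Fintype.equivOfCardEq hcard
  obtain ⟨T, hT⟩ := exists_hasT W hW hne φ
  have hs0 : T.card ∈ SS m W := ⟨φ, T, rfl, hT⟩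
  obtain ⟨s, hsS, hs1, hs2⟩ : ∃ s ∈ SS m W, h ≤ s ∧ s ≤ m - h := by
    by_cases hlow : T.card < h
    · obtain ⟨s, hsS, h3, h4⟩ := climb_to hW h1 hK ho _ T.card le_rfl hs0 hlow
      exact ⟨s, hsS, h3, by omega⟩
    · by_cases hhigh : T.card ≤ m - h
      · exact ⟨T.card, hs0, by omega, hhigh⟩
      · have hle := SS_le hs0
        have h5 := SS_sgn hs0
        obtain ⟨s, hsS, h3, h4⟩ := climb_to (invR_map_sgn hW) h1 hK (map_sgn_orth hs) _
          (m - T.card) le_rfl h5 (by omega)
        exact ⟨m - s, SS_sgn' hsS, by omega, by omega⟩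
  exact (choose_le_choose_mid hs1 hs2 (by omega)).trans (choose_le_finrank hW hsS)

end Crest.Agent.R155
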