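import Crest.Agent.R155.Chain
import Crest.Agent.R155.Law_Mg
import Crest.Agent.R155.Trunc
import Crest.Agent.R155.BasicR
import Mathlib
import Crest.Agent.R155.Junta
import Crest.Agent.R155.SignDim_Mg

-- ▼ part R155/PartN
section

/-!
R155, task PartN: the marginals of `266 (d+1)` shuffles are close to uniform.
(Assembly of Chain, Model, NContr, Law.)
-/

set_option autoImplicit false
set_option linter.unusedSectionVars false
set_option linter.unusedVariables false

namespace Crest.Agent.R155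

open Finset Equiv Crest.ProbabilityR.Shuffle

/-- value of `ini`. -/
theorem partN_val_ini {m : ℕ} (E : Finset (Fin (2 * m))) (y p : Fin (2 * m)) :
    val (ini E y p) = if p ∈ E then 0 else
      ((if p = y then 1 else 0) - 1 / (((2 * m : ℕ) : ℝ) - (E.card : ℝ))) := by
  unfold ini val
  by_cases h : p ∈ E
  · simp [h]
  · simp [h]

theorem partN_ei_ini {m : ℕ} (E : Finset (Fin (2 * m))) (y p : Fin (2 * m)) :
    ei (ini E y p) = if p ∈ E then 1 else 0 := by
  unfold ini ei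
  by_cases h : p ∈ E
  · simp [h]
  · simp [h]

theorem partN_card_compl {m : ℕ} (E : Finset (Fin (2 * m))) (hE : E.card ≤ 2 * m) :
    ((Finset.univ.filter (fun p => p ∉ E)).card : ℝ) = ((2 * m : ℕ) : ℝ) - (E.card : ℝ) := by
  have h1 : (Finset.univ.filter (fun p => p ∉ E)) = Eᶜ := by
    ext p; simp
  rw [h1, Finset.card_compl, Fintype.card_fin, Nat.cast_sub hE]

theorem partN_sum_val {m : ℕ} (E : Finset (Fin (2 * m))) (y : Fin (2 * m)) (hy : y ∉ E)
    (hE : E.card < 2 * m) : ∑ p, val (ini E y p) = 0 := by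
  have hpos : (0 : ℝ) < ((2 * m : ℕ) : ℝ) - (E.card : ℝ) := by
    have : ((E.card : ℕ) : ℝ) < ((2 * m : ℕ) : ℝ) := by exact_mod_cast hE
    linarith
  simp_rw [partN_val_ini]
  have h1 : ∀ p : Fin (2 * m), (if p ∈ E then (0 : ℝ) else
      ((if p = y then 1 else 0) - 1 / (((2 * m : ℕ) : ℝ) - (E.card : ℝ)))) =
      (if p = y then 1 else 0) - (if p ∉ E then 1 / (((2 * m : ℕ) : ℝ) - (E.card : ℝ)) else 0) := by
    intro p
    by_cases h : p ∈ E
    · have : p ≠ y := fun h' => hy (h' ▸ h)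
      simp [h, this]
    · simp [h]
  rw [Finset.sum_congr rfl (fun p _ => h1 p), Finset.sum_sub_distrib,
    ← Finset.sum_filter (fun p => p ∉ E),
    Finset.sum_const, nsmul_eq_mul, partN_card_compl E hE.le]
  simp only [Finset.sum_ite_eq', Finset.mem_univ, if_true]
  field_simp
  ring

theorem partN_sum_ei {m : ℕ} (E : Finset (Fin (2 * m))) (y : Fin (2 * m)) :
    ∑ p, ei (ini E y p) = (E.card : ℝ) := by
  simp_rw [partN_ei_ini]
  rw [Finset.sum_ite_mem, Finset.univ_inter, Finset.sum_const, nsmul_eq_mul, mul_one]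

theorem partN_sum_sq {m : ℕ} (E : Finset (Fin (2 * m))) (y : Fin (2 * m)) (hy : y ∉ E)
    (hE : E.card < 2 * m) : ∑ p, val (ini E y p) ^ 2 ≤ 1 := by
  have hpos : (0 : ℝ) < ((2 * m : ℕ) : ℝ) - (E.card : ℝ) := by
    have : ((E.card : ℕ) : ℝ) < ((2 * m : ℕ) : ℝ) := by exact_mod_cast hE
    linarith
  set c : ℝ := 1 / (((2 * m : ℕ) : ℝ) - (E.card : ℝ)) with hc
  have hc0 : 0 ≤ c := by positivity
  have h1 : ∀ p : Fin (2 * m), val (ini E y p) ^ 2 =
      (if p = y then 1 - 2 * c else 0) + (if p ∉ E then c ^ 2 else 0) := by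
    intro p
    rw [partN_val_ini]
    by_cases h : p ∈ E
    · have : p ≠ y := fun h' => hy (h' ▸ h)
      simp [h, this]
    · by_cases h2 : p = y
      · simp only [h, h2, hy, if_true, if_false, not_false_eq_true, ← hc]
        ring
      · simp only [h, h2, if_true, if_false, not_false_eq_true, ← hc]
        ring
  rw [Finset.sum_congr rfl (fun p _ => h1 p), Finset.sum_add_distrib, ← Finset.sum_filter (fun p => p ∉ E),
    Finset.sum_const, nsmul_eq_mul, partN_card_compl E hE.le]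
  simp only [Finset.sum_ite_eq', Finset.mem_univ, if_true]
  have h2 : (((2 * m : ℕ) : ℝ) - (E.card : ℝ)) * c ^ 2 = c := by
    rw [hc]; field_simp
  rw [h2]
  linarith

theorem partN : ∃ e0 : ℕ, ∀ e, e0 ≤ e →
    MargClose (Fin (2 * 2 ^ (e + 2))) (7 * 2 ^ e) ((2 : ℝ) ^ (-(11 / 10 : ℝ) * ((e : ℝ) + 3)))
      (law (2 ^ (e + 2)) (266 * (e + 3))) := by
  obtain ⟨ℓ0, hℓ0⟩ := contraction
  refine ⟨ℓ0, fun e he => ⟨fun g => law_nonneg _ _ g, law_sum _ _, fun x => ?_⟩⟩
  have hpow : 2 * 2 ^ (e + 2) = 8 * 2 ^ e := by ring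
  have hk : 7 * 2 ^ e ≤ 2 * 2 ^ (e + 2) := by
    rw [hpow]; exact Nat.mul_le_mul_right _ (by norm_num)
  have hkE : ∀ E : Finset (Fin (2 * 2 ^ (e + 2))), E.card < 7 * 2 ^ e → E.card < 2 * 2 ^ (e + 2) :=
    fun E hE => lt_of_lt_of_le hE hk
  -- the bound on the variances
  have hV : ∀ E : Finset (Fin (2 * 2 ^ (e + 2))), E.card < 7 * 2 ^ e → ∀ y, y ∉ E →
      avg (fun cs : Fin (266 * (e + 2 + 1)) → Fin (2 ^ (e + 2)) → Bool =>
        ∑ p, val (stRun mg (2 ^ (e + 2)) (266 * (e + 2 + 1)) cs (ini E y) p) ^ 2) ≤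
        (2 : ℝ) ^ (-(53 / 10 : ℝ) * ((e : ℝ) + 3)) := by
    intro E hE y hy
    have h1 := model_iter mg (e + 2) 266 (fun s => ∑ p, val (s p) ^ 2) (ini E y)
    rw [h1]
    have h2 : (fun x : Cube (e + 2 + 1) → Option ℝ =>
        (fun s : Fin (2 * 2 ^ (e + 2)) → Option ℝ => ∑ p, val (s p) ^ 2)
          (x ∘ (posEquiv (e + 2)).symm)) = nrm2 := by
      funext x
      exact Equiv.sum_comp (posEquiv (e + 2)).symm (fun z => val (x z) ^ 2)
    rw [h2]
    have h3 := hℓ0 (e + 2 + 1) (by omega) (ini E y ∘ posEquiv (e + 2)) ?_ ?_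
    · refine le_trans h3 ?_
      have h4 : nrm2 (ini E y ∘ posEquiv (e + 2)) ≤ 1 := by
        have : nrm2 (ini E y ∘ posEquiv (e + 2)) = ∑ p, val (ini E y p) ^ 2 :=
          Equiv.sum_comp (posEquiv (e + 2)) (fun p => val (ini E y p) ^ 2)
        rw [this]
        exact partN_sum_sq E y hy (hkE E hE)
      have h5 : (0 : ℝ) < (2 : ℝ) ^ (-(53 / 10 : ℝ) * (((e + 2 + 1 : ℕ) : ℝ))) := by positivity
      calc (2 : ℝ) ^ (-(53 / 10 : ℝ) * (((e + 2 + 1 : ℕ) : ℝ))) * nrm2 (ini E y ∘ posEquiv (e + 2))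
          ≤ (2 : ℝ) ^ (-(53 / 10 : ℝ) * (((e + 2 + 1 : ℕ) : ℝ))) * 1 :=
            mul_le_mul_of_nonneg_left h4 h5.le
        _ = (2 : ℝ) ^ (-(53 / 10 : ℝ) * ((e : ℝ) + 3)) := by
            rw [mul_one, show (((e + 2 + 1 : ℕ) : ℝ)) = (e : ℝ) + 3 by push_cast; ring]
    · have : tot (ini E y ∘ posEquiv (e + 2)) = ∑ p, val (ini E y p) :=
        Equiv.sum_comp (posEquiv (e + 2)) (fun p => val (ini E y p))
      rw [this]
      exact partN_sum_val E y hy (hkE E hE)
    · have : env (ini E y ∘ posEquiv (e + 2)) = ∑ p, ei (ini E y p) :=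
        Equiv.sum_comp (posEquiv (e + 2)) (fun p => ei (ini E y p))
      rw [this, partN_sum_ei]
      have h6 : ((E.card : ℕ) : ℝ) ≤ ((7 * 2 ^ e : ℕ) : ℝ) := by exact_mod_cast hE.le
      refine le_trans h6 (le_of_eq ?_)
      push_cast
      ring
  have hchain := chain (2 ^ (e + 2)) (266 * (e + 2 + 1)) (7 * 2 ^ e) hk
    ((2 : ℝ) ^ (-(53 / 10 : ℝ) * ((e : ℝ) + 3))) (by positivity) hV x
  -- rewrite the averages
  have havg : ∀ z : Fin (7 * 2 ^ e) → Fin (2 * 2 ^ (e + 2)),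
      avg (fun cs : Fin (266 * (e + 2 + 1)) → Fin (2 ^ (e + 2)) → Bool =>
        if (∀ i, iterPos (2 ^ (e + 2)) (266 * (e + 2 + 1)) cs (x i) = z i) then (1 : ℝ) else 0) =
      ∑ g : Perm (Fin (2 * 2 ^ (e + 2))),
        if (∀ i, g (x i) = z i) then law (2 ^ (e + 2)) (266 * (e + 3)) g else 0 := by
    intro z
    have h := avg_iterPos (2 ^ (e + 2)) (266 * (e + 2 + 1))
      (fun f => if (∀ i, f (x i) = z i) then (1 : ℝ) else 0)
    refine h.trans ?_
    refine Finset.sum_congr rfl (fun g _ => ?_)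
    by_cases hg : ∀ i, g (x i) = z i
    · simp [hg]
    · simp [hg]
  rw [Fintype.card_fin]
  have hsum : ∑ z : Fin (7 * 2 ^ e) → Fin (2 * 2 ^ (e + 2)),
      |(∑ g : Perm (Fin (2 * 2 ^ (e + 2))),
        if (∀ i, g (x i) = z i) then law (2 ^ (e + 2)) (266 * (e + 3)) g else 0) -
      (if Function.Injective z then
        (((2 * 2 ^ (e + 2) - 7 * 2 ^ e).factorial : ℝ) / ((2 * 2 ^ (e + 2)).factorial : ℝ)) else 0)| ≤
      ((7 * 2 ^ e : ℕ) : ℝ) *
        Real.sqrt (2 * ((2 ^ (e + 2) : ℕ) : ℝ) * (2 : ℝ) ^ (-(53 / 10 : ℝ) * ((e : ℝ) + 3))) := by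
    refine le_trans (le_of_eq ?_) hchain
    refine Finset.sum_congr rfl (fun z _ => ?_)
    rw [havg z]
  refine hsum.trans ?_
  -- numerical estimate
  have e1 : 2 * ((2 ^ (e + 2) : ℕ) : ℝ) = (2 : ℝ) ^ ((e : ℝ) + 3) := by
    rw [Real.rpow_add (by norm_num), Real.rpow_natCast]
    push_cast
    have : (2 : ℝ) ^ (3 : ℝ) = 8 := by
      rw [show (3 : ℝ) = ((3 : ℕ) : ℝ) by norm_num, Real.rpow_natCast]; norm_num
    rw [this]; ring
  have e2 : Real.sqrt (2 * ((2 ^ (e + 2) : ℕ) : ℝ) * (2 : ℝ) ^ (-(53 / 10 : ℝ) * ((e : ℝ) + 3))) =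
      (2 : ℝ) ^ (-(43 / 20 : ℝ) * ((e : ℝ) + 3)) := by
    rw [e1, ← Real.rpow_add (by norm_num), Real.sqrt_eq_rpow, ← Real.rpow_mul (by norm_num)]
    congr 1
    ring
  rw [e2]
  have e3 : ((7 * 2 ^ e : ℕ) : ℝ) ≤ (2 : ℝ) ^ ((e : ℝ) + 3) := by
    rw [← e1]
    push_cast
    have : (0 : ℝ) < 2 ^ e := by positivity
    rw [pow_add]
    linarith
  calc ((7 * 2 ^ e : ℕ) : ℝ) * (2 : ℝ) ^ (-(43 / 20 : ℝ) * ((e : ℝ) + 3))
      ≤ (2 : ℝ) ^ ((e : ℝ) + 3) * (2 : ℝ) ^ (-(43 / 20 : ℝ) * ((e : ℝ) + 3)) :=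
        mul_le_mul_of_nonneg_right e3 (by positivity)
    _ = (2 : ℝ) ^ (-(23 / 20 : ℝ) * ((e : ℝ) + 3)) := by
        rw [← Real.rpow_add (by norm_num)]; congr 1; ring
    _ ≤ (2 : ℝ) ^ (-(11 / 10 : ℝ) * ((e : ℝ) + 3)) := by
        apply Real.rpow_le_rpow_of_exponent_le (by norm_num)
        have : (0 : ℝ) ≤ (e : ℝ) := Nat.cast_nonneg e
        nlinarith

end Crest.Agent.R155
end

-- ▼ part R155/HS
section

/-!
R155, Part R, task HS: operator norm from Hilbert-Schmidt norm and a dimension lower bound.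
-/

set_option autoImplicit false
set_option linter.unusedSectionVars false
set_option linter.unusedVariables false

namespace Crest.Agent.R155

open Finset Equiv

section
variable {G : Type} [Group G] [Fintype G] [DecidableEq G]
variable {H : Type} [Group H] [Fintype H] [DecidableEq H]

/-- For an orthonormal family `b`, `∑ ‖T (b i)‖² ≤ ∑_g ‖T (dl g)‖²` (Hilbert-Schmidt norm; Parseval
`‖T b_i‖² = ∑_g ⟪T b_i, dl g⟫² = ∑_g ⟪b_i, T† dl g⟫²`, Bessel in `i`, Parseval again). -/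
theorem sum_norm_le_hs (T : L2 G →ₗ[ℝ] L2 G) {ι : Type} [Fintype ι] (b : ι → L2 G)
    (hb : Orthonormal ℝ b) : ∑ i, ‖T (b i)‖ ^ 2 ≤ ∑ g, ‖T (dl g)‖ ^ 2 := by
  have h1 : ∀ i, ‖T (b i)‖ ^ 2 = ∑ g, (inner ℝ (b i) (T.adjoint (dl g))) ^ 2 := by
    intro i
    rw [norm_sq_def]
    refine Finset.sum_congr rfl fun g _ => ?_
    rw [LinearMap.adjoint_inner_right, inner_dl']
  have h2 : ∀ g, ∑ i, (inner ℝ (b i) (T.adjoint (dl g))) ^ 2 ≤ ‖T.adjoint (dl g)‖ ^ 2 := by
    intro g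
    have := hb.sum_inner_products_le (x := T.adjoint (dl g)) (s := Finset.univ)
    simpa using this
  have h3 : ∑ g, ‖T.adjoint (dl g)‖ ^ 2 = ∑ g, ‖T (dl g)‖ ^ 2 := by
    have h4 : ∀ g, ‖T.adjoint (dl g)‖ ^ 2 = ∑ h, (T (dl h) g) ^ 2 := by
      intro g
      rw [norm_sq_def]
      refine Finset.sum_congr rfl fun h _ => ?_
      rw [← inner_dl h, LinearMap.adjoint_inner_right, inner_dl']
    rw [Finset.sum_congr rfl fun g _ => h4 g, Finset.sum_comm]
    refine Finset.sum_congr rfl fun h _ => ?_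
    rw [norm_sq_def]
  rw [Finset.sum_congr rfl fun i _ => h1 i, Finset.sum_comm, ← h3]
  exact Finset.sum_le_sum fun g _ => h2 g

/-- If every nonzero right invariant subspace of `K` has dimension at least `d` and `T` commutes
with right translations then `d ‖T v‖² ≤ ‖T‖²_HS ‖v‖²` on `K`.
Proof: `S = (T|K)† (T|K)` on `K` is symmetric and commutes with `rt b`; its top eigenspace
(`LinearMap.IsSymmetric.hasEigenvalue_iSup_of_finiteDimensional`) is a nonzero right
invariant subspace; sum `‖T b_i‖²` over an orthonormal basis of it. -/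
theorem opnorm_of_hs (K : Submodule ℝ (L2 G)) (hK : InvR K) (T : L2 G →ₗ[ℝ] L2 G)
    (hT : ∀ b f, T (rt b f) = rt b (T f)) (d : ℕ)
    (hd : ∀ W : Submodule ℝ (L2 G), W ≤ K → InvR W → W ≠ ⊥ → d ≤ Module.finrank ℝ W)
    (v : L2 G) (hv : v ∈ K) :
    (d : ℝ) * ‖T v‖ ^ 2 ≤ (∑ g, ‖T (dl g)‖ ^ 2) * ‖v‖ ^ 2 := by
  classical
  rcases eq_or_ne v 0 with rfl | hv0
  · simp
  let A : K →ₗ[ℝ] L2 G := T.comp K.subtype
  let S : K →ₗ[ℝ] K := A.adjoint.comp A
  have hS : ∀ x y : K, inner ℝ (S x) y = inner ℝ (T x) (T y) := by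
    intro x y
    change inner ℝ (A.adjoint (A x)) y = _
    rw [LinearMap.adjoint_inner_left]
    rfl
  have hS' : ∀ x y : K, inner ℝ x (S y) = inner ℝ (T x) (T y) := by
    intro x y
    change inner ℝ x (A.adjoint (A y)) = _
    rw [LinearMap.adjoint_inner_right]
    rfl
  have hsym : S.IsSymmetric := fun x y => by rw [hS, hS']
  have hnt : Nontrivial K := ⟨⟨⟨v, hv⟩, 0, fun h => hv0 (congrArg Subtype.val h)⟩⟩
  have hev := hsym.hasEigenvalue_iSup_of_finiteDimensional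
  set lam : ℝ := ⨆ x : { x : K // x ≠ 0 }, RCLike.re (inner ℝ (S x) (x : K)) / ‖(x : K)‖ ^ 2
    with hlam
  have hev' : Module.End.HasEigenvalue S lam := hev
  -- the bound from the Rayleigh quotient
  have hbdd : BddAbove (Set.range fun x : { x : K // x ≠ 0 } =>
      RCLike.re (inner ℝ (S x) (x : K)) / ‖(x : K)‖ ^ 2) := by
    refine ⟨‖LinearMap.toContinuousLinearMap S‖, ?_⟩
    rintro _ ⟨x, rfl⟩
    have hx : 0 < ‖(x : K)‖ := norm_pos_iff.2 x.2
    simp only [RCLike.re_to_real]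
    rw [div_le_iff₀ (by positivity)]
    have h1 := real_inner_le_norm (S x) (x : K)
    have h2 : ‖S x‖ ≤ ‖LinearMap.toContinuousLinearMap S‖ * ‖(x : K)‖ :=
      (LinearMap.toContinuousLinearMap S).le_opNorm x
    calc inner ℝ (S x) (x : K) ≤ ‖S x‖ * ‖(x : K)‖ := h1
      _ ≤ ‖LinearMap.toContinuousLinearMap S‖ * ‖(x : K)‖ * ‖(x : K)‖ := by gcongr
      _ = _ := by ring
  have hle : ‖T v‖ ^ 2 ≤ lam * ‖v‖ ^ 2 := by
    have hvp : 0 < ‖v‖ := norm_pos_iff.2 hv0
    have h1 := le_ciSup hbdd ⟨⟨v, hv⟩, fun h => hv0 (congrArg Subtype.val h)⟩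
    simp only [RCLike.re_to_real] at h1
    rw [hS, real_inner_self_eq_norm_sq] at h1
    have h2 : ‖T v‖ ^ 2 / ‖v‖ ^ 2 ≤ lam := h1
    rwa [div_le_iff₀ (by positivity)] at h2
  -- the eigenspace
  let W : Submodule ℝ (L2 G) := (Module.End.eigenspace S lam).map K.subtype
  have hWK : W ≤ K := by
    rintro _ ⟨x, _, rfl⟩
    exact x.2
  have hmem : ∀ x : K, x ∈ Module.End.eigenspace S lam ↔
      ∀ y : K, inner ℝ (T x) (T y) = lam * inner ℝ (x : L2 G) (y : L2 G) := by
    intro x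
    rw [Module.End.mem_eigenspace_iff]
    constructor
    · intro h y
      rw [← hS, h, inner_smul_left]
      rfl
    · intro h
      refine ext_inner_right ℝ fun y => ?_
      rw [hS, h y, inner_smul_left]
      rfl
  have hWinv : InvR W := by
    rintro a _ ⟨x, hx, rfl⟩
    have hx' := (hmem x).1 hx
    refine ⟨⟨rt a x, hK _ _ x.2⟩, (hmem _).2 fun y => ?_, rfl⟩
    have h1 := hx' ⟨rt a⁻¹ y, hK _ _ y.2⟩
    simp only at h1 ⊢
    rw [hT, inner_rt, inner_rt, ← hT, h1]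
  have hWne : W ≠ ⊥ := by
    obtain ⟨x, hx⟩ := hev'.exists_hasEigenvector
    intro h
    have h1 : (x : L2 G) ∈ W := ⟨x, hx.1, rfl⟩
    rw [h, Submodule.mem_bot] at h1
    exact hx.2 (Subtype.ext h1)
  have hdW := hd W hWK hWinv hWne
  let b := stdOrthonormalBasis ℝ W
  have hb : Orthonormal ℝ (fun i => ((b i : W) : L2 G)) :=
    b.orthonormal.comp_linearIsometry W.subtypeₗᵢ
  have h5 := sum_norm_le_hs T _ hb
  have h6 : ∀ i, ‖T ((b i : W) : L2 G)‖ ^ 2 = lam := by
    intro i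
    obtain ⟨x, hx, hxi⟩ := (b i).2
    have h7 := (hmem x).1 hx x
    have h8 : (x : L2 G) = ((b i : W) : L2 G) := hxi
    rw [h8, real_inner_self_eq_norm_sq, real_inner_self_eq_norm_sq] at h7
    rw [h7]
    have : ‖((b i : W) : L2 G)‖ = 1 := hb.1 i
    rw [this]; simp
  rw [Finset.sum_congr rfl fun i _ => h6 i] at h5
  simp only [Finset.sum_const, Finset.card_univ, Fintype.card_fin, nsmul_eq_mul] at h5
  have hlam0 : 0 ≤ lam := by
    by_contra hc
    push Not at hc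
    have hvp : 0 < ‖v‖ := norm_pos_iff.2 hv0
    have : lam * ‖v‖ ^ 2 < 0 := mul_neg_of_neg_of_pos hc (by positivity)
    have := sq_nonneg ‖T v‖
    linarith
  calc (d : ℝ) * ‖T v‖ ^ 2 ≤ (Module.finrank ℝ W : ℝ) * (lam * ‖v‖ ^ 2) := by
        gcongr
    _ = (Module.finrank ℝ W : ℝ) * lam * ‖v‖ ^ 2 := by ring
    _ ≤ _ := by gcongr

/-- Cauchy-Schwarz: `(∑_h F(g j(h)⁻¹) e(h))² ≤ M ∑_h F(g j(h)⁻¹) e(h)²`, then sum over `g`. -/
theorem hs_bound (j : H →* G) (F : G → ℝ) (hF : ∀ g, 0 ≤ F g) (hF1 : ∑ g, F g ≤ 1) (M : ℝ)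
    (hM : ∀ g, ∑ h, F (g * j h) ≤ M) (e : H → ℝ) :
    ∑ g, ‖cv F (cvH j e (dl g))‖ ^ 2 ≤ (Fintype.card G : ℝ) * (M * ∑ h, e h ^ 2) := by
  have hval : ∀ g x, cv F (cvH j e (dl g)) x = ∑ h, e h * F (x * g⁻¹ * j h⁻¹) := by
    intro g x
    rw [cv_apply]
    simp only [cvH_apply, dl_apply, mul_ite, mul_one, mul_zero]
    simp only [Finset.mul_sum]
    rw [Finset.sum_comm]
    refine Finset.sum_congr rfl fun h _ => ?_
    have h1 : ∀ a : G, (F a * if (j h)⁻¹ * (a⁻¹ * x) = g then e h else 0) =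
        if a = x * g⁻¹ * j h⁻¹ then e h * F a else 0 := by
      intro a
      have : (j h)⁻¹ * (a⁻¹ * x) = g ↔ a = x * g⁻¹ * j h⁻¹ := by
        rw [map_inv]
        constructor
        · rintro rfl; group
        · rintro rfl; group
      by_cases hc : a = x * g⁻¹ * j h⁻¹
      · rw [if_pos hc, if_pos (this.2 hc), mul_comm]
      · rw [if_neg hc, if_neg (fun h' => hc (this.1 h')), mul_zero]
    rw [Finset.sum_congr rfl fun a _ => h1 a]
    simp
  have hM0 : 0 ≤ M := le_trans (Finset.sum_nonneg fun h _ => hF _) (hM 1)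
  have hM' : ∀ y, ∑ h, F (y * j h⁻¹) ≤ M := by
    intro y
    rw [← Equiv.sum_comp (Equiv.inv H)]
    simpa using hM y
  have hcs : ∀ y, (∑ h, e h * F (y * j h⁻¹)) ^ 2 ≤ M * ∑ h, F (y * j h⁻¹) * e h ^ 2 := by
    intro y
    have h1 := Finset.sum_sq_le_sum_mul_sum_of_sq_le_mul Finset.univ
      (r := fun h => e h * F (y * j h⁻¹)) (f := fun h => F (y * j h⁻¹))
      (g := fun h => F (y * j h⁻¹) * e h ^ 2) (fun h _ => hF _)
      (fun h _ => mul_nonneg (hF _) (sq_nonneg _)) (fun h _ => le_of_eq (by ring))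
    refine h1.trans ?_
    exact mul_le_mul_of_nonneg_right (hM' y)
      (Finset.sum_nonneg fun h _ => mul_nonneg (hF _) (sq_nonneg _))
  have hg : ∀ g, ‖cv F (cvH j e (dl g))‖ ^ 2 ≤ M * ∑ h, e h ^ 2 := by
    intro g
    rw [norm_sq_def]
    calc ∑ x, (cv F (cvH j e (dl g)) x) ^ 2 ≤
        ∑ x, M * ∑ h, F (x * g⁻¹ * j h⁻¹) * e h ^ 2 := by
          refine Finset.sum_le_sum fun x _ => ?_
          rw [hval]
          exact hcs _
      _ = M * ∑ h, (∑ x, F (x * g⁻¹ * j h⁻¹)) * e h ^ 2 := by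
          rw [← Finset.mul_sum, Finset.sum_comm]
          simp only [Finset.sum_mul]
      _ = M * ∑ h, (∑ x, F x) * e h ^ 2 := by
          congr 1
          refine Finset.sum_congr rfl fun h _ => ?_
          congr 1
          have := Equiv.sum_comp (Equiv.mulRight (g⁻¹ * j h⁻¹)) F
          simpa [mul_assoc] using this
      _ ≤ M * ∑ h, e h ^ 2 := by
          refine mul_le_mul_of_nonneg_left (Finset.sum_le_sum fun h _ => ?_) hM0
          have := mul_le_mul_of_nonneg_right hF1 (sq_nonneg (e h))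
          simpa using this
  calc ∑ g, ‖cv F (cvH j e (dl g))‖ ^ 2 ≤ ∑ g : G, M * ∑ h, e h ^ 2 :=
        Finset.sum_le_sum fun g _ => hg g
    _ = _ := by simp

/-- Combination of the above with `card_mul_sum_idem_sq`. -/
theorem opnorm_conv (K : Submodule ℝ (L2 G)) (hK : InvR K) (d : ℕ)
    (hd : ∀ W : Submodule ℝ (L2 G), W ≤ K → InvR W → W ≠ ⊥ → d ≤ Module.finrank ℝ W)
    (j : H →* G) (F : G → ℝ) (hF : ∀ g, 0 ≤ F g) (hF1 : ∑ g, F g ≤ 1) (M : ℝ)
    (hM : ∀ g, ∑ h, F (g * j h) ≤ M) (I : Submodule ℝ (L2 H)) (hI : BiInv I)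
    (v : L2 G) (hv : v ∈ K) :
    (d : ℝ) * ‖cv F (cvH j (idem I) v)‖ ^ 2 ≤
      ((Fintype.card G : ℝ) * M / (Fintype.card H : ℝ) * (Module.finrank ℝ I : ℝ)) * ‖v‖ ^ 2 := by
  have h1 := opnorm_of_hs K hK ((cv F).comp (cvH j (idem I)))
    (fun b f => by simp only [LinearMap.comp_apply, cvH_rt, cv_rt]) d hd v hv
  simp only [LinearMap.comp_apply] at h1
  refine h1.trans (mul_le_mul_of_nonneg_right ?_ (sq_nonneg _))
  refine (hs_bound j F hF hF1 M hM (idem I)).trans (le_of_eq ?_)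
  have hH : (Fintype.card H : ℝ) ≠ 0 := by exact_mod_cast Fintype.card_ne_zero
  rw [← card_mul_sum_idem_sq hI.1]
  field_simp

end

end Crest.Agent.R155
end

-- ▼ part R155/Family
section

/-!
R155, Part R, task Family: random family of conjugates and the telescoping bound.
-/

set_option autoImplicit false
set_option linter.unusedSectionVars false
set_option linter.unusedVariables false

namespace Crest.Agent.R155

open Finset Equiv

/-! ### abstract facts on commuting projections -/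

section abstract_proj
variable {V : Type*} [NormedAddCommGroup V] [InnerProductSpace ℝ V]

theorem proj_pythag (P : V →ₗ[ℝ] V) (hid : ∀ v, P (P v) = P v)
    (hsym : ∀ v w, inner ℝ (P v) w = inner ℝ v (P w)) (v : V) :
    ‖v‖ ^ 2 = ‖P v‖ ^ 2 + ‖v - P v‖ ^ 2 := by
  have h : inner ℝ (P v) (v - P v) = 0 := by
    rw [hsym, map_sub, hid, sub_self, inner_zero_right]
  have h2 := norm_add_sq_real (P v) (v - P v)
  rw [h, add_sub_cancel] at h2
  linarith

/-- The composition of `1 - P_i` over a list. -/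
noncomputable def prodCompl {ι : Type*} (P : ι → V →ₗ[ℝ] V) : List ι → V → V
  | [], v => v
  | i :: l, v => prodCompl P l v - P i (prodCompl P l v)

variable {ι : Type*} (P : ι → V →ₗ[ℝ] V)


theorem norm_prodCompl_le (hid : ∀ i v, P i (P i v) = P i v)
    (hsym : ∀ i v w, inner ℝ (P i v) w = inner ℝ v (P i w)) (l : List ι) (v : V) :
    ‖prodCompl P l v‖ ≤ ‖v‖ := by
  induction l with
  | nil => exact le_rfl
  | cons i l ih =>
    simp only [prodCompl]
    refine le_trans ?_ ih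
    have := proj_pythag (P i) (hid i) (hsym i) (prodCompl P l v)
    have h1 : ‖prodCompl P l v - P i (prodCompl P l v)‖ ^ 2 ≤ ‖prodCompl P l v‖ ^ 2 := by
      nlinarith [sq_nonneg ‖P i (prodCompl P l v)‖]
    exact (pow_le_pow_iff_left₀ (norm_nonneg _) (norm_nonneg _) two_ne_zero).1 h1


theorem prodCompl_kill (hid : ∀ i v, P i (P i v) = P i v)
    (hcomm : ∀ i i', i ≠ i' → ∀ v, P i (P i' v) = P i' (P i v)) (l : List ι) (v : V) {i : ι}
    (hi : i ∈ l) : P i (prodCompl P l v) = 0 := by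
  classical
  induction l with
  | nil => simp at hi
  | cons i' l ih =>
    simp only [prodCompl]
    by_cases h : i = i'
    · subst h
      rw [map_sub, hid, sub_self]
    · have hi' : i ∈ l := by
        rcases List.mem_cons.1 hi with h' | h'
        · exact absurd h' h
        · exact h'
      rw [map_sub, hcomm i i' h, ih hi', map_zero, sub_zero]

theorem prodCompl_mem (K : Submodule ℝ V) (hK : ∀ i, ∀ v ∈ K, P i v ∈ K) (l : List ι) (v : V)
    (hv : v ∈ K) : prodCompl P l v ∈ K := by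
  induction l with
  | nil => exact hv
  | cons i l ih => exact K.sub_mem ih (hK i _ ih)


end abstract_proj

section
variable {G : Type} [Group G] [Fintype G] [DecidableEq G]
variable {H : Type} [Group H] [Fintype H] [DecidableEq H]






end

end Crest.Agent.R155
private theorem rz_9550575562 : type_of% @_root_.Crest.Agent.R155.prodCompl.eq_def := @_root_.Crest.Agent.R155.prodCompl.eq_def -- L30
private theorem rz_8dd2b66580 : type_of% @_root_.Crest.Agent.R155.prodCompl.eq_1 := @_root_.Crest.Agent.R155.prodCompl.eq_1 -- L30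
end

-- ▼ part R155/Blocks
section

/-!
R155, Part R, task Blocks: minimal bi-invariant subspaces.
-/

set_option autoImplicit false
set_option linter.unusedSectionVars false
set_option linter.unusedVariables false

namespace Crest.Agent.R155

open Finset Equiv

section
variable {G : Type} [Group G] [Fintype G] [DecidableEq G]

/-- matrix coefficients give a spanning set of size `m²` -/
theorem blocks_aux_right {K : Submodule ℝ (L2 G)} (hK : MinBi K)
    {W : Submodule ℝ (L2 G)} (hWK : W ≤ K) (hW : InvR W) (hne : W ≠ ⊥) :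
    Submodule.span ℝ {f : L2 G | ∃ a : G, ∃ w ∈ W, f = lt a w} = K := by
  set X : Submodule ℝ (L2 G) := Submodule.span ℝ {f : L2 G | ∃ a : G, ∃ w ∈ W, f = lt a w} with hX
  have hXK : X ≤ K := by
    rw [hX, Submodule.span_le]
    rintro f ⟨a, w, hw, rfl⟩
    exact hK.1.1 a w (hWK hw)
  have hbi : BiInv X := by
    constructor
    · rw [invL_iff_map]
      intro b
      rw [hX, Submodule.map_span, Submodule.span_le]
      rintro _ ⟨f, ⟨a, w, hw, rfl⟩, rfl⟩
      refine Submodule.subset_span ⟨b * a, w, hw, ?_⟩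
      change lt b (lt a w) = _
      rw [lt_mul]
    · rw [invR_iff_map]
      intro b
      rw [hX, Submodule.map_span, Submodule.span_le]
      rintro _ ⟨f, ⟨a, w, hw, rfl⟩, rfl⟩
      refine Submodule.subset_span ⟨a, rt b w, hW b w hw, ?_⟩
      change rt b (lt a w) = _
      rw [lt_rt]
  have hXne : X ≠ ⊥ := by
    intro h
    apply hne
    rw [eq_bot_iff]
    intro w hw
    have : w ∈ X := Submodule.subset_span ⟨1, w, hw, by simp⟩
    rwa [h] at this
  rcases hK.2.2 X hXK hbi with h | h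
  · exact absurd h hXne
  · exact h

/-- the same with left and right exchanged -/
theorem blocks_aux_left {K : Submodule ℝ (L2 G)} (hK : MinBi K)
    {W : Submodule ℝ (L2 G)} (hWK : W ≤ K) (hW : InvL W) (hne : W ≠ ⊥) :
    Submodule.span ℝ {f : L2 G | ∃ a : G, ∃ w ∈ W, f = rt a w} = K := by
  set X : Submodule ℝ (L2 G) := Submodule.span ℝ {f : L2 G | ∃ a : G, ∃ w ∈ W, f = rt a w} with hX
  have hXK : X ≤ K := by
    rw [hX, Submodule.span_le]
    rintro f ⟨a, w, hw, rfl⟩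
    exact hK.1.2 a w (hWK hw)
  have hbi : BiInv X := by
    constructor
    · rw [invL_iff_map]
      intro b
      rw [hX, Submodule.map_span, Submodule.span_le]
      rintro _ ⟨f, ⟨a, w, hw, rfl⟩, rfl⟩
      refine Submodule.subset_span ⟨a, lt b w, hW b w hw, ?_⟩
      change lt b (rt a w) = _
      rw [lt_rt]
    · rw [invR_iff_map]
      intro b
      rw [hX, Submodule.map_span, Submodule.span_le]
      rintro _ ⟨f, ⟨a, w, hw, rfl⟩, rfl⟩
      refine Submodule.subset_span ⟨b * a, w, hw, ?_⟩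
      change rt b (rt a w) = _
      rw [rt_mul]
  have hXne : X ≠ ⊥ := by
    intro h
    apply hne
    rw [eq_bot_iff]
    intro w hw
    have : w ∈ X := Submodule.subset_span ⟨1, w, hw, by simp⟩
    rwa [h] at this
  rcases hK.2.2 X hXK hbi with h | h
  · exact absurd h hXne
  · exact h

/-- The bi-invariant span of `W` consists of matrix coefficients: for `w ∈ W` and `a : G`,
`(lt a w) g = w (a⁻¹ g) = (rt g w) (a⁻¹)`, which is in the image of the linear map
`Dual W ⊗ W → L²(G)`, `ξ ⊗ w ↦ (g ↦ ξ (rt g w))`, of rank at most `(dim W)²`; by minimality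
`K` is spanned by the `lt a w`. -/
theorem MinBi.finrank_le_sq_right {K : Submodule ℝ (L2 G)} (hK : MinBi K)
    {W : Submodule ℝ (L2 G)} (hWK : W ≤ K) (hW : InvR W) (hne : W ≠ ⊥) :
    Module.finrank ℝ K ≤ (Module.finrank ℝ W) ^ 2 := by
  have hspan := blocks_aux_right hK hWK hW hne
  let b := Module.finBasis ℝ W
  let M : Fin (Module.finrank ℝ W) × Fin (Module.finrank ℝ W) → L2 G := fun p =>
    WithLp.toLp 2 (fun g => b.repr ⟨rt g (b p.2 : L2 G), hW g _ (b p.2).2⟩ p.1)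
  have hmem : ∀ a : G, ∀ j, lt a (b j : L2 G) ∈ Submodule.span ℝ (Set.range M) := by
    intro a j
    have h1 : lt a (b j : L2 G) = ∑ i, (b i : L2 G) a⁻¹ • M (i, j) := by
      ext g
      have h2 : (rt g (b j : L2 G)) = ∑ i, (M (i, j)) g • (b i : L2 G) := by
        have h3 := b.sum_repr ⟨rt g (b j : L2 G), hW g _ (b j).2⟩
        have h4 := congrArg (fun v : W => (v : L2 G)) h3
        simp only [Submodule.coe_sum, Submodule.coe_smul] at h4
        exact h4.symm
      have h5 := congrArg (fun v : L2 G => v a⁻¹) h2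
      simp only [rt_apply] at h5
      rw [lt_apply, h5]
      simp only [WithLp.ofLp_sum, WithLp.ofLp_smul, Finset.sum_apply, Pi.smul_apply, smul_eq_mul]
      exact Finset.sum_congr rfl fun i _ => mul_comm _ _
    rw [h1]
    exact Submodule.sum_mem _ fun i _ => Submodule.smul_mem _ _ (Submodule.subset_span ⟨_, rfl⟩)
  have hle : K ≤ Submodule.span ℝ (Set.range M) := by
    rw [← hspan, Submodule.span_le]
    rintro f ⟨a, w, hw, rfl⟩
    have h1 : w = ∑ j, b.repr ⟨w, hw⟩ j • (b j : L2 G) := by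
      have h3 := b.sum_repr ⟨w, hw⟩
      have h4 := congrArg (fun v : W => (v : L2 G)) h3
      simp only [Submodule.coe_sum, Submodule.coe_smul] at h4
      exact h4.symm
    change lt a w ∈ _
    rw [h1, map_sum]
    refine Submodule.sum_mem _ fun j _ => ?_
    rw [map_smul]
    exact Submodule.smul_mem _ _ (hmem a j)
  calc Module.finrank ℝ K ≤ Module.finrank ℝ (Submodule.span ℝ (Set.range M)) :=
        Submodule.finrank_mono hle
    _ ≤ Fintype.card (Fin (Module.finrank ℝ W) × Fin (Module.finrank ℝ W)) :=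
        finrank_range_le_card M
    _ = (Module.finrank ℝ W) ^ 2 := by simp [sq]

/-- same with left and right exchanged -/
theorem MinBi.finrank_le_sq_left {K : Submodule ℝ (L2 G)} (hK : MinBi K)
    {W : Submodule ℝ (L2 G)} (hWK : W ≤ K) (hW : InvL W) (hne : W ≠ ⊥) :
    Module.finrank ℝ K ≤ (Module.finrank ℝ W) ^ 2 := by
  have hspan := blocks_aux_left hK hWK hW hne
  let b := Module.finBasis ℝ W
  let M : Fin (Module.finrank ℝ W) × Fin (Module.finrank ℝ W) → L2 G := fun p =>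
    WithLp.toLp 2 (fun g => b.repr ⟨lt g⁻¹ (b p.2 : L2 G), hW g⁻¹ _ (b p.2).2⟩ p.1)
  have hmem : ∀ a : G, ∀ j, rt a (b j : L2 G) ∈ Submodule.span ℝ (Set.range M) := by
    intro a j
    have h1 : rt a (b j : L2 G) = ∑ i, (b i : L2 G) a • M (i, j) := by
      ext g
      have h2 : (lt g⁻¹ (b j : L2 G)) = ∑ i, (M (i, j)) g • (b i : L2 G) := by
        have h3 := b.sum_repr ⟨lt g⁻¹ (b j : L2 G), hW g⁻¹ _ (b j).2⟩
        have h4 := congrArg (fun v : W => (v : L2 G)) h3
        simp only [Submodule.coe_sum, Submodule.coe_smul] at h4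
        exact h4.symm
      have h5 := congrArg (fun v : L2 G => v a) h2
      simp only [lt_apply, inv_inv] at h5
      rw [rt_apply, h5]
      simp only [WithLp.ofLp_sum, WithLp.ofLp_smul, Finset.sum_apply, Pi.smul_apply, smul_eq_mul]
      exact Finset.sum_congr rfl fun i _ => mul_comm _ _
    rw [h1]
    exact Submodule.sum_mem _ fun i _ => Submodule.smul_mem _ _ (Submodule.subset_span ⟨_, rfl⟩)
  have hle : K ≤ Submodule.span ℝ (Set.range M) := by
    rw [← hspan, Submodule.span_le]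
    rintro f ⟨a, w, hw, rfl⟩
    have h1 : w = ∑ j, b.repr ⟨w, hw⟩ j • (b j : L2 G) := by
      have h3 := b.sum_repr ⟨w, hw⟩
      have h4 := congrArg (fun v : W => (v : L2 G)) h3
      simp only [Submodule.coe_sum, Submodule.coe_smul] at h4
      exact h4.symm
    change rt a w ∈ _
    rw [h1, map_sum]
    refine Submodule.sum_mem _ fun j _ => ?_
    rw [map_smul]
    exact Submodule.smul_mem _ _ (hmem a j)
  calc Module.finrank ℝ K ≤ Module.finrank ℝ (Submodule.span ℝ (Set.range M)) :=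
        Submodule.finrank_mono hle
    _ ≤ Fintype.card (Fin (Module.finrank ℝ W) × Fin (Module.finrank ℝ W)) :=
        finrank_range_le_card M
    _ = (Module.finrank ℝ W) ^ 2 := by simp [sq]

/-- For `0 ≠ w ∈ W`: `X = {g ↦ ξ (rt g w) : ξ ∈ Dual W}`; since `W` is a function space every `ξ` is a
combination of evaluations, so `X` is spanned by the `g ↦ w (g₀ g)`, i.e. by the `lt a w`. -/
theorem MinBi.exists_left {K : Submodule ℝ (L2 G)} (hK : MinBi K)
    {W : Submodule ℝ (L2 G)} (hWK : W ≤ K) (hW : InvR W) (hne : W ≠ ⊥) :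
    ∃ X : Submodule ℝ (L2 G), X ≤ K ∧ InvL X ∧ X ≠ ⊥ ∧ Module.finrank ℝ X ≤ Module.finrank ℝ W := by
  obtain ⟨w, hw, hw0⟩ := Submodule.exists_mem_ne_zero_of_ne_bot hne
  let Ψ : L2 G →ₗ[ℝ] L2 G :=
    { toFun := fun u => WithLp.toLp 2 (fun g => inner ℝ u (rt g w))
      map_add' := fun u v => by ext g; simp [inner_add_left]
      map_smul' := fun c u => by ext g; simp [inner_smul_left] }
  have hΨ : ∀ u g, Ψ u g = inner ℝ u (rt g w) := fun u g => rfl
  refine ⟨W.map Ψ, ?_, ?_, ?_, Submodule.finrank_map_le Ψ W⟩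
  · rintro _ ⟨u, hu, rfl⟩
    have h1 : Ψ u = ∑ x, u x • lt x⁻¹ w := by
      ext g
      rw [hΨ, inner_def']
      simp only [WithLp.ofLp_sum, WithLp.ofLp_smul, Finset.sum_apply, Pi.smul_apply, smul_eq_mul,
        rt_apply, lt_apply, inv_inv]
    rw [h1]
    exact K.sum_mem fun x _ => K.smul_mem _ (hK.1.1 _ _ (hWK hw))
  · rintro a _ ⟨u, hu, rfl⟩
    refine ⟨rt a u, hW a u hu, ?_⟩
    ext g
    rw [hΨ, lt_apply, hΨ, inner_rt, rt_mul]
  · intro h
    have h1 : Ψ w ∈ W.map Ψ := ⟨w, hw, rfl⟩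
    rw [h, Submodule.mem_bot] at h1
    have h2 := hΨ w 1
    rw [h1, rt_one] at h2
    simp only [WithLp.ofLp_zero, Pi.zero_apply] at h2
    exact hw0 (inner_self_eq_zero.1 h2.symm)

end

section
variable {α : Type} [Fintype α] [DecidableEq α]

/-- existence of a minimal bi-invariant subspace -/
theorem exists_minBi {G : Type} [Group G] [Fintype G] [DecidableEq G] (I : Submodule ℝ (L2 G))
    (hI : BiInv I) (hne : I ≠ ⊥) : ∃ K : Submodule ℝ (L2 G), MinBi K ∧ K ≤ I := by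
  classical
  obtain ⟨n, hn⟩ : ∃ n, n = Module.finrank ℝ I := ⟨_, rfl⟩
  induction n using Nat.strong_induction_on generalizing I with
  | _ n ih =>
    by_cases h : ∃ K' : Submodule ℝ (L2 G), K' ≤ I ∧ BiInv K' ∧ K' ≠ ⊥ ∧ K' ≠ I
    · obtain ⟨K', h1, h2, h3, h4⟩ := h
      have hlt : Module.finrank ℝ K' < n := by
        rw [hn]
        exact Submodule.finrank_lt_finrank_of_lt (lt_of_le_of_ne h1 h4)
      obtain ⟨K, hK, hKI⟩ := ih _ hlt K' h2 h3 rfl
      exact ⟨K, hK, hKI.trans h1⟩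
    · push Not at h
      refine ⟨I, ⟨hI, hne, ?_⟩, le_rfl⟩
      intro K' h1 h2
      by_cases h3 : K' = ⊥
      · exact Or.inl h3
      · exact Or.inr (h K' h1 h2 h3)

/-- orthogonal decomposition, without the bound on the number of blocks -/
theorem exists_blocks_aux {G : Type} [Group G] [Fintype G] [DecidableEq G] (I : Submodule ℝ (L2 G))
    (hI : BiInv I) :
    ∃ (M : ℕ) (K : Fin M → Submodule ℝ (L2 G)), (∀ i, MinBi (K i)) ∧ (∀ i, K i ≤ I) ∧
      (∀ i i', i ≠ i' → K i ≤ (K i')ᗮ) ∧ (⨆ i, K i) = I := by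
  classical
  obtain ⟨n, hn⟩ : ∃ n, n = Module.finrank ℝ I := ⟨_, rfl⟩
  induction n using Nat.strong_induction_on generalizing I with
  | _ n ih =>
    by_cases hne : I = ⊥
    · refine ⟨0, Fin.elim0, fun i => i.elim0, fun i => i.elim0, fun i => i.elim0, ?_⟩
      rw [hne]; simp
    · obtain ⟨K0, hK0, hK0I⟩ := exists_minBi I hI hne
      have hbi : BiInv (I ⊓ K0ᗮ) := hI.inf hK0.1.orth
      have hlt : Module.finrank ℝ (I ⊓ K0ᗮ : Submodule ℝ (L2 G)) < n := by
        rw [hn]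
        refine Submodule.finrank_lt_finrank_of_lt (lt_of_le_of_ne inf_le_left ?_)
        intro h
        obtain ⟨v, hv, hv0⟩ := Submodule.exists_mem_ne_zero_of_ne_bot hK0.2.1
        have h1 : v ∈ I ⊓ K0ᗮ := by rw [h]; exact hK0I hv
        have h2 : inner ℝ v v = 0 := (Submodule.mem_orthogonal _ _).1 h1.2 v hv
        exact hv0 (inner_self_eq_zero.1 h2)
      obtain ⟨M, K, hK1, hK2, hK3, hK4⟩ := ih _ hlt _ hbi rfl
      refine ⟨M + 1, Fin.cons K0 K, ?_, ?_, ?_, ?_⟩
      · intro i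
        refine Fin.cases ?_ ?_ i
        · simpa using hK0
        · intro j; simpa using hK1 j
      · intro i
        refine Fin.cases ?_ ?_ i
        · simpa using hK0I
        · intro j; simpa using (hK2 j).trans inf_le_left
      · have hort : ∀ j, K j ≤ K0ᗮ := fun j => (hK2 j).trans inf_le_right
        have hort' : ∀ j, K0 ≤ (K j)ᗮ := fun j =>
          (Submodule.le_orthogonal_orthogonal K0).trans (Submodule.orthogonal_le (hort j))
        intro i i'
        refine Fin.cases ?_ ?_ i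
        · refine Fin.cases ?_ ?_ i'
          · intro h; exact absurd rfl h
          · intro j' _; simpa using hort' j'
        · intro j
          refine Fin.cases ?_ ?_ i'
          · intro _; simpa using hort j
          · intro j' h
            simpa using hK3 j j' (fun hh => h (by rw [hh]))
      · apply le_antisymm
        · refine iSup_le fun i => ?_
          refine Fin.cases ?_ ?_ i
          · simpa using hK0I
          · intro j; simpa using (hK2 j).trans inf_le_left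
        · have h1 : K0 ⊔ (K0ᗮ ⊓ I) = I :=
            Submodule.sup_orthogonal_inf_of_hasOrthogonalProjection hK0I
          have h2 : K0 ≤ ⨆ i, (Fin.cons K0 K : Fin (M + 1) → Submodule ℝ (L2 G)) i := by
            have := le_iSup (Fin.cons K0 K : Fin (M + 1) → Submodule ℝ (L2 G)) 0
            simpa using this
          have h3 : (⨆ i, K i) ≤ ⨆ i, (Fin.cons K0 K : Fin (M + 1) → Submodule ℝ (L2 G)) i := by
            refine iSup_le fun j => ?_
            have := le_iSup (Fin.cons K0 K : Fin (M + 1) → Submodule ℝ (L2 G)) j.succ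
            simpa using this
          rw [hK4, inf_comm] at h3
          calc I = K0 ⊔ (K0ᗮ ⊓ I) := h1.symm
            _ ≤ _ := sup_le h2 h3

/-- `pr K (dl 1)` is a class function -/
theorem pr_dl_conj {G : Type} [Group G] [Fintype G] [DecidableEq G] {K : Submodule ℝ (L2 G)}
    (hK : BiInv K) (a g : G) : pr K (dl 1) (a * g * a⁻¹) = pr K (dl 1) g := by
  have h1 : lt a⁻¹ (rt a⁻¹ (pr K (dl 1))) = pr K (dl 1) := by
    rw [← pr_rt hK.2, ← pr_lt hK.1]
    simp
  have h2 := congrArg (fun f : L2 G => f g) h1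
  simpa [mul_assoc] using h2

theorem pr_dl_ne_zero {G : Type} [Group G] [Fintype G] [DecidableEq G] {K : Submodule ℝ (L2 G)}
    (hK : BiInv K) (hne : K ≠ ⊥) : pr K (dl 1) ≠ 0 := by
  intro h
  apply hne
  rw [eq_bot_iff]
  intro f hf
  rw [Submodule.mem_bot, ← pr_of_mem hf, eq_sum_dl f, map_sum]
  refine Finset.sum_eq_zero fun x _ => ?_
  have h1 : pr K (dl x) = lt x (pr K (dl 1)) := by rw [← pr_lt hK.1]; simp
  rw [map_smul, h1, h]
  simp

/-- Every bi-invariant subspace of `L²(S_n)` is the orthogonal sum of at most `p(n)` minimal ones.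
Proof: existence by induction on the dimension (`InvL.orth`, `InvR.orth`); `pr (K i) (dl 1)` are
nonzero pairwise orthogonal class functions, hence linearly independent in a space of functions
factoring through `Equiv.Perm.partition` (`Equiv.Perm.partition_eq_of_isConj`). -/
theorem exists_blocks (I : Submodule ℝ (L2 (Perm α))) (hI : BiInv I) :
    ∃ (M : ℕ) (K : Fin M → Submodule ℝ (L2 (Perm α))),
      M ≤ Fintype.card (Nat.Partition (Fintype.card α)) ∧ (∀ i, MinBi (K i)) ∧ (∀ i, K i ≤ I) ∧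
      (∀ i i', i ≠ i' → K i ≤ (K i')ᗮ) ∧ (⨆ i, K i) = I := by
  classical
  obtain ⟨M, K, h1, h2, h3, h4⟩ := exists_blocks_aux I hI
  refine ⟨M, K, ?_, h1, h2, h3, h4⟩
  let v : Fin M → L2 (Perm α) := fun i => pr (K i) (dl 1)
  have hv0 : ∀ i, v i ≠ 0 := fun i => pr_dl_ne_zero (h1 i).1 (h1 i).2.1
  have hvo : Pairwise fun i j => inner ℝ (v i) (v j) = 0 := by
    intro i j hij
    have h5 : v j ∈ (K i)ᗮ := h3 j i (Ne.symm hij) (pr_mem _ _)
    exact (Submodule.mem_orthogonal _ _).1 h5 _ (pr_mem _ _)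
  have hli : LinearIndependent ℝ v := linearIndependent_of_ne_zero_of_inner_eq_zero hv0 hvo
  let R : (Nat.Partition (Fintype.card α) → ℝ) →ₗ[ℝ] L2 (Perm α) :=
    { toFun := fun φ => WithLp.toLp 2 (fun g => φ g.partition)
      map_add' := fun u v => by ext g; simp
      map_smul' := fun c u => by ext g; simp }
  have hR : ∀ i, v i ∈ LinearMap.range R := by
    intro i
    refine ⟨fun p => if h : ∃ g : Perm α, g.partition = p then v i h.choose else 0, ?_⟩
    ext g
    change (if h : ∃ g' : Perm α, g'.partition = g.partition then v i h.choose else 0) = v i g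
    have hex : ∃ g' : Perm α, g'.partition = g.partition := ⟨g, rfl⟩
    rw [dif_pos hex]
    have hc : IsConj hex.choose g := Equiv.Perm.partition_eq_of_isConj.2 hex.choose_spec
    obtain ⟨c, hc⟩ := isConj_iff.1 hc
    have h7 := pr_dl_conj (h1 i).1 c hex.choose
    rw [hc] at h7
    exact h7.symm
  have hle : Submodule.span ℝ (Set.range v) ≤ LinearMap.range R := by
    rw [Submodule.span_le]
    rintro _ ⟨i, rfl⟩
    exact hR i
  have h6 : Module.finrank ℝ (Submodule.span ℝ (Set.range v)) = M := by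
    rw [finrank_span_eq_card hli]; simp
  calc M = Module.finrank ℝ (Submodule.span ℝ (Set.range v)) := h6.symm
    _ ≤ Module.finrank ℝ (LinearMap.range R) := Submodule.finrank_mono hle
    _ ≤ Module.finrank ℝ (Nat.Partition (Fintype.card α) → ℝ) := LinearMap.finrank_range_le R
    _ = Fintype.card (Nat.Partition (Fintype.card α)) := Module.finrank_fintype_fun_eq_card ℝ

end

end Crest.Agent.R155
end

-- ▼ part R155/SmallIdeal
section

/-!
R155, Part R, task SmallIdeal: the ideal of small left invariant subspaces.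
-/

set_option autoImplicit false
set_option linter.unusedSectionVars false
set_option linter.unusedVariables false

namespace Crest.Agent.R155

open Finset Equiv

section
variable {G : Type} [Group G] [Fintype G] [DecidableEq G]
variable {H : Type} [Group H] [Fintype H] [DecidableEq H]

theorem smallIdeal_biInv (x : ℕ) : BiInv (smallIdeal H x) := by
  constructor
  · rw [invL_iff_map]
    intro a
    rw [Submodule.map_le_iff_le_comap]
    refine sSup_le fun U hU => ?_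
    intro f hf
    exact (le_sSup hU : U ≤ smallIdeal H x) (hU.1 a f hf)
  · rw [invR_iff_map]
    intro b
    rw [Submodule.map_le_iff_le_comap]
    refine sSup_le fun U hU => ?_
    intro f hf
    have hU' : U.map ((rt b).toLinearEquiv : L2 H →ₗ[ℝ] L2 H) ∈
        {U : Submodule ℝ (L2 H) | InvL U ∧ Module.finrank ℝ U ≤ x} := by
      refine ⟨?_, (Submodule.finrank_map_le _ _).trans hU.2⟩
      rintro a _ ⟨g, hg, rfl⟩
      exact ⟨lt a g, hU.1 a g hg, (lt_rt a b g).symm⟩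
    exact (le_sSup hU' : _ ≤ smallIdeal H x) ⟨f, hf, rfl⟩

/-- If `U ⊆ L²(G)` is invariant under `lt (j h)` and of dimension at most `x` then the projection
`cvH j (idem (smallIdeal H x))` is the identity on `U`: `res j g` maps `U` onto a left invariant
subspace of `L²(H)` of dimension at most `x` (`res_lt`); use `cvH_idem_of_res`. -/
theorem cvH_idem_smallIdeal (j : H →* G) (x : ℕ) (U : Submodule ℝ (L2 G))
    (hU : ∀ h, ∀ u ∈ U, lt (j h) u ∈ U) (hdim : Module.finrank ℝ U ≤ x) (u : L2 G) (hu : u ∈ U) :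
    cvH j (idem (smallIdeal H x)) u = u := by
  apply cvH_idem_of_res j (smallIdeal_biInv x).2
  intro g
  have hmem : U.map (res j g) ∈
      {U : Submodule ℝ (L2 H) | InvL U ∧ Module.finrank ℝ U ≤ x} := by
    refine ⟨?_, (Submodule.finrank_map_le _ _).trans hdim⟩
    rintro h _ ⟨v, hv, rfl⟩
    exact ⟨lt (j h) v, hU h v hv, res_lt j h g v⟩
  exact (le_sSup hmem : _ ≤ smallIdeal H x) ⟨u, hu, rfl⟩

end

/-- dimension of a finite supremum -/
theorem smallIdeal_finrank_iSup_le {V : Type} [AddCommGroup V] [Module ℝ V]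
    [FiniteDimensional ℝ V] {ι : Type} (s : Finset ι) (K : ι → Submodule ℝ V) :
    Module.finrank ℝ ↥(s.sup K) ≤ ∑ i ∈ s, Module.finrank ℝ (K i) := by
  classical
  induction s using Finset.induction_on with
  | empty => simp
  | insert a s ha ih =>
    rw [Finset.sup_insert, Finset.sum_insert ha]
    exact (Submodule.finrank_add_le_finrank_add_finrank _ _).trans (by omega)

/-- `exists_blocks` for `I = smallIdeal`; every block `K i` contains a nonzero left invariant subspace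
of dimension at most `x` (the projection of some generator of the ideal), so `dim (K i) ≤ x²`. -/
theorem finrank_smallIdeal_le (r x : ℕ) :
    Module.finrank ℝ (smallIdeal (Perm (Fin r)) x) ≤ x ^ 2 * Fintype.card (Nat.Partition r) := by
  classical
  obtain ⟨M, K, hM, hmin, hle, horth, hsup⟩ :=
    exists_blocks (smallIdeal (Perm (Fin r)) x) (smallIdeal_biInv x)
  have hK : ∀ i, Module.finrank ℝ (K i) ≤ x ^ 2 := by
    intro i
    by_cases hall : ∀ U ∈ {U : Submodule ℝ (L2 (Perm (Fin r))) |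
        InvL U ∧ Module.finrank ℝ U ≤ x}, U ≤ (K i)ᗮ
    · exfalso
      have h1 : smallIdeal (Perm (Fin r)) x ≤ (K i)ᗮ := sSup_le hall
      have h2 : K i ≤ (K i)ᗮ := (hle i).trans h1
      apply (hmin i).2.1
      rw [eq_bot_iff, ← (K i).inf_orthogonal_eq_bot]
      exact le_inf le_rfl h2
    · push Not at hall
      obtain ⟨U, hU, hUK⟩ := hall
      have hW : Module.finrank ℝ (K i) ≤
          (Module.finrank ℝ (U.map (pr (K i)))) ^ 2 := by
        apply (hmin i).finrank_le_sq_left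
        · rintro _ ⟨f, hf, rfl⟩
          exact pr_mem _ _
        · rintro a _ ⟨f, hf, rfl⟩
          exact ⟨lt a f, hU.1 a f hf, pr_lt (hmin i).1.1 a f⟩
        · intro hbot
          apply hUK
          intro f hf
          have h0 : pr (K i) f = 0 := by
            have : pr (K i) f ∈ U.map (pr (K i)) := ⟨f, hf, rfl⟩
            rw [hbot] at this
            simpa using this
          have := sub_pr_mem (K i) f
          rwa [h0, sub_zero] at this
      refine hW.trans (Nat.pow_le_pow_left ((Submodule.finrank_map_le _ _).trans hU.2) 2)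
  have h1 : Module.finrank ℝ (smallIdeal (Perm (Fin r)) x) ≤
      ∑ i : Fin M, Module.finrank ℝ (K i) := by
    have := smallIdeal_finrank_iSup_le (Finset.univ : Finset (Fin M)) K
    rw [Finset.sup_univ_eq_iSup, hsup] at this
    exact this
  have h2 : ∑ i : Fin M, Module.finrank ℝ (K i) ≤ ∑ i : Fin M, x ^ 2 :=
    Finset.sum_le_sum fun i _ => hK i
  have h3 : ∑ i : Fin M, x ^ 2 = x ^ 2 * M := by
    simp [mul_comm]
  rw [Fintype.card_fin] at hM
  calc Module.finrank ℝ (smallIdeal (Perm (Fin r)) x) ≤ x ^ 2 * M := by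
        rw [← h3]; exact h1.trans h2
    _ ≤ x ^ 2 * Fintype.card (Nat.Partition r) := Nat.mul_le_mul_left _ hM

end Crest.Agent.R155
end

-- ▼ part R155/ProdDim
section

/-!
R155, Part R, task ProdDim: pure linear algebra; dimension of a module over commuting families.
-/

set_option autoImplicit false
set_option linter.unusedSectionVars false
set_option linter.unusedVariables false

namespace Crest.Agent.R155

/-- Dichotomy for invariant subspaces of a minimal invariant subspace. -/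
theorem prodDim_bot_or_top {V : Type} [AddCommGroup V] [Module ℂ V]
    (A : Set (V →ₗ[ℂ] V)) (U : Submodule ℂ V) (hU : ∀ x ∈ A, ∀ u ∈ U, x u ∈ U)
    (hmin : ∀ W : Submodule ℂ V, (∀ x ∈ A, ∀ u ∈ W, x u ∈ W) → W ≤ U → W ≠ ⊥ → W = U)
    (K : Submodule ℂ U) (hK : ∀ x (hx : x ∈ A) (u : U), u ∈ K → (⟨x u, hU x hx u u.2⟩ : U) ∈ K) :
    K = ⊥ ∨ K = ⊤ := by
  by_cases hb : K = ⊥
  · exact Or.inl hb
  right
  have h1 : K.map U.subtype = U := by
    refine hmin _ ?_ ?_ ?_
    · rintro x hx _ ⟨u, hu, rfl⟩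
      exact ⟨_, hK x hx u hu, rfl⟩
    · rintro _ ⟨u, hu, rfl⟩
      exact u.2
    · intro h
      apply hb
      rw [eq_bot_iff]
      intro u hu
      have : (u : V) ∈ K.map U.subtype := ⟨u, hu, rfl⟩
      rw [h, Submodule.mem_bot] at this
      rw [Submodule.mem_bot]
      exact Subtype.ext this
  rw [eq_top_iff]
  intro u _
  have : (u : V) ∈ K.map U.subtype := by rw [h1]; exact u.2
  obtain ⟨w, hw, hwu⟩ := this
  have : w = u := Subtype.ext hwu
  exact this ▸ hw

/-- Schur's lemma: equivariant endomorphisms of a minimal invariant subspace are scalars. -/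
theorem prodDim_schur {V : Type} [AddCommGroup V] [Module ℂ V] [FiniteDimensional ℂ V]
    (A : Set (V →ₗ[ℂ] V)) (U : Submodule ℂ V) (hU : ∀ x ∈ A, ∀ u ∈ U, x u ∈ U) (hU0 : U ≠ ⊥)
    (hmin : ∀ W : Submodule ℂ V, (∀ x ∈ A, ∀ u ∈ W, x u ∈ W) → W ≤ U → W ≠ ⊥ → W = U)
    (ψ : U →ₗ[ℂ] U)
    (hψ : ∀ x (hx : x ∈ A) (u : U), ψ ⟨x u, hU x hx u u.2⟩ = ⟨x (ψ u), hU x hx _ (ψ u).2⟩) :
    ∃ c : ℂ, ∀ u, ψ u = c • u := by
  haveI : Nontrivial U := Submodule.nontrivial_iff_ne_bot.2 hU0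
  obtain ⟨c, hc⟩ := Module.End.exists_eigenvalue ψ
  refine ⟨c, fun u => ?_⟩
  have h := prodDim_bot_or_top A U hU hmin (Module.End.eigenspace ψ c) (by
    intro x hx w hw
    rw [Module.End.mem_eigenspace_iff] at hw ⊢
    rw [hψ x hx w]
    apply Subtype.ext
    simp [hw])
  rcases h with h | h
  · exact absurd h hc
  · have : u ∈ Module.End.eigenspace ψ c := by rw [h]; trivial
    exact Module.End.mem_eigenspace_iff.1 this

/-- Linearly independent equivariant maps from a minimal invariant subspace have independent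
ranges. -/
theorem prodDim_indep {V : Type} [AddCommGroup V] [Module ℂ V] [FiniteDimensional ℂ V]
    (A : Set (V →ₗ[ℂ] V)) (U : Submodule ℂ V) (hU : ∀ x ∈ A, ∀ u ∈ U, x u ∈ U) (hU0 : U ≠ ⊥)
    (hmin : ∀ W : Submodule ℂ V, (∀ x ∈ A, ∀ u ∈ W, x u ∈ W) → W ≤ U → W ≠ ⊥ → W = U)
    (q : ℕ) : ∀ (φ : Fin q → (U →ₗ[ℂ] V)),
      (∀ j x (hx : x ∈ A) (u : U), φ j ⟨x u, hU x hx u u.2⟩ = x (φ j u)) →
      LinearIndependent ℂ φ → ∀ u : Fin q → U, ∑ j, φ j (u j) = 0 → u = 0 := by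
  induction q with
  | zero => intro φ _ _ u _; exact Subsingleton.elim _ _
  | succ q ih =>
    intro φ hφ hlin u hu
    rw [linearIndependent_finSucc] at hlin
    obtain ⟨hlin', h0⟩ := hlin
    have ih' := ih (Fin.tail φ) (fun j => hφ j.succ) hlin'
    -- the map `T`
    let T : (Fin q → U) →ₗ[ℂ] V := ∑ j, (Fin.tail φ j).comp (LinearMap.proj j)
    have hT : ∀ w, T w = ∑ j, Fin.tail φ j (w j) := by
      intro w; simp [T, LinearMap.sum_apply]
    have hTinj : Function.Injective T := by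
      rw [← LinearMap.ker_eq_bot, LinearMap.ker_eq_bot']
      intro w hw
      exact ih' w (by rw [← hT]; exact hw)
    have hTeq : ∀ x (hx : x ∈ A) (w : Fin q → U),
        T (fun j => ⟨x (w j), hU x hx _ (w j).2⟩) = x (T w) := by
      intro x hx w
      rw [hT, hT, map_sum]
      exact Finset.sum_congr rfl fun j _ => hφ j.succ x hx (w j)
    have hdich := prodDim_bot_or_top A U hU hmin ((LinearMap.range T).comap (φ 0)) (by
      rintro x hx w ⟨v, hv⟩
      refine ⟨fun j => ⟨x (v j), hU x hx _ (v j).2⟩, ?_⟩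
      rw [hTeq x hx v, hv, hφ 0 x hx w])
    rcases hdich with hK | hK
    · -- trivial intersection
      rw [Fin.sum_univ_succ] at hu
      have h1 : u 0 ∈ (LinearMap.range T).comap (φ 0) := by
        refine ⟨-(Fin.tail u), ?_⟩
        rw [map_neg, hT, eq_comm]
        exact eq_neg_of_add_eq_zero_left hu
      rw [hK, Submodule.mem_bot] at h1
      rw [h1, map_zero, zero_add] at hu
      have h2 := ih' (Fin.tail u) hu
      funext j
      refine Fin.cases ?_ (fun j => ?_) j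
      · exact h1
      · exact congrFun h2 j
    · -- contradiction with linear independence
      exfalso
      apply h0
      have hr : ∀ w : U, φ 0 w ∈ LinearMap.range T := by
        intro w
        have : w ∈ (LinearMap.range T).comap (φ 0) := by rw [hK]; trivial
        exact this
      let e : U →ₗ[ℂ] (Fin q → U) :=
        ((LinearEquiv.ofInjective T hTinj).symm : LinearMap.range T →ₗ[ℂ] (Fin q → U)).comp
          ((φ 0).codRestrict (LinearMap.range T) hr)
      have he : ∀ w, T (e w) = φ 0 w := by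
        intro w
        have := (LinearEquiv.ofInjective T hTinj).apply_symm_apply
          ((φ 0).codRestrict (LinearMap.range T) hr w)
        exact congrArg Subtype.val this
      have heq : ∀ x (hx : x ∈ A) (w : U), e ⟨x w, hU x hx w w.2⟩ =
          fun j => ⟨x (e w j), hU x hx _ (e w j).2⟩ := by
        intro x hx w
        apply hTinj
        rw [he, hφ 0 x hx w, hTeq x hx (e w), he]
      have hsc : ∀ j, ∃ c : ℂ, ∀ w, e w j = c • w := by
        intro j
        refine prodDim_schur A U hU hU0 hmin ((LinearMap.proj j).comp e) ?_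
        intro x hx w
        have := congrFun (heq x hx w) j
        exact this
      choose c hc using hsc
      have : φ 0 = ∑ j, c j • Fin.tail φ j := by
        ext w
        rw [← he w, hT, LinearMap.sum_apply]
        refine Finset.sum_congr rfl fun j _ => ?_
        rw [hc j w, map_smul, LinearMap.smul_apply]
      rw [this]
      exact Submodule.sum_mem _ fun j _ => Submodule.smul_mem _ _
        (Submodule.subset_span ⟨j, rfl⟩)

/-- Proof: let `U ≠ 0` be `A`-invariant of minimal dimension, `dim U ≥ a`, and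
`Q = {φ : U →ₗ V | φ (x u) = x (φ u) for x ∈ A}`. `B` acts on `Q` by composition; for `0 ≠ u₀ ∈ U` the
map `φ ↦ φ u₀` is injective on `Q` (the kernel of `φ` is `A`-invariant) with `B`-invariant image, so
`dim Q ≥ b`. If `φ_1..φ_q` are linearly independent in `Q` then `∑ φ_j (u_j) = 0` forces all
`u_j = 0`: in a relation of minimal support the coordinates are `A`-endomorphisms of `U` of one
coordinate, which are scalars (eigenvalue over `ℂ`, minimality of `U`), contradicting linear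
independence. So `V` contains a copy of `U^q`. -/
theorem dim_mul_of_commuting {V : Type} [AddCommGroup V] [Module ℂ V] [FiniteDimensional ℂ V]
    [Nontrivial V] (A B : Set (V →ₗ[ℂ] V)) (hAB : ∀ x ∈ A, ∀ y ∈ B, ∀ v, x (y v) = y (x v))
    (a b : ℕ)
    (hA : ∀ U : Submodule ℂ V, (∀ x ∈ A, ∀ u ∈ U, x u ∈ U) → U ≠ ⊥ → a ≤ Module.finrank ℂ U)
    (hB : ∀ U : Submodule ℂ V, (∀ x ∈ B, ∀ u ∈ U, x u ∈ U) → U ≠ ⊥ → b ≤ Module.finrank ℂ U) :
    a * b ≤ Module.finrank ℂ V := by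
  classical
  -- a minimal invariant subspace
  obtain ⟨U, ⟨hU, hU0⟩, hUmin⟩ : ∃ U : Submodule ℂ V,
      ((∀ x ∈ A, ∀ u ∈ U, x u ∈ U) ∧ U ≠ ⊥) ∧
      ∀ W : Submodule ℂ V, ((∀ x ∈ A, ∀ u ∈ W, x u ∈ W) ∧ W ≠ ⊥) →
        Module.finrank ℂ U ≤ Module.finrank ℂ W := by
    have hne : ∃ n, ∃ U : Submodule ℂ V,
        ((∀ x ∈ A, ∀ u ∈ U, x u ∈ U) ∧ U ≠ ⊥) ∧ Module.finrank ℂ U = n :=
      ⟨_, ⊤, ⟨fun _ _ _ _ => trivial, top_ne_bot⟩, rfl⟩
    obtain ⟨U, hU, hUn⟩ := Nat.find_spec hne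
    refine ⟨U, hU, fun W hW => ?_⟩
    rw [hUn]
    exact Nat.find_min' hne ⟨W, hW, rfl⟩
  have hmin : ∀ W : Submodule ℂ V, (∀ x ∈ A, ∀ u ∈ W, x u ∈ W) → W ≤ U → W ≠ ⊥ → W = U := by
    intro W hW hWU hW0
    exact Submodule.eq_of_le_of_finrank_le hWU (hUmin W ⟨hW, hW0⟩)
  -- the space of equivariant maps
  let Q : Submodule ℂ (U →ₗ[ℂ] V) :=
    { carrier := {φ | ∀ x (hx : x ∈ A) (u : U), φ ⟨x u, hU x hx u u.2⟩ = x (φ u)}
      add_mem' := by
        intro φ ψ hφ hψ x hx u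
        simp only [LinearMap.add_apply, map_add, hφ x hx u, hψ x hx u]
      zero_mem' := by intro x hx u; simp
      smul_mem' := by
        intro c φ hφ x hx u
        simp only [LinearMap.smul_apply, map_smul, hφ x hx u] }
  have hQ : ∀ φ : U →ₗ[ℂ] V, φ ∈ Q ↔
      ∀ x (hx : x ∈ A) (u : U), φ ⟨x u, hU x hx u u.2⟩ = x (φ u) := fun φ => Iff.rfl
  obtain ⟨u₀, hu₀, hu₀0⟩ := Submodule.exists_mem_ne_zero_of_ne_bot hU0
  -- evaluation at `u₀`
  let ev : Q →ₗ[ℂ] V := (LinearMap.applyₗ (⟨u₀, hu₀⟩ : U)).comp Q.subtype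
  have hev : ∀ φ : Q, ev φ = (φ : U →ₗ[ℂ] V) ⟨u₀, hu₀⟩ := fun φ => rfl
  have hevinj : Function.Injective ev := by
    rw [← LinearMap.ker_eq_bot, LinearMap.ker_eq_bot']
    intro φ hφ
    have h := prodDim_bot_or_top A U hU hmin (LinearMap.ker (φ : U →ₗ[ℂ] V)) (by
      intro x hx w hw
      rw [LinearMap.mem_ker] at hw ⊢
      rw [(hQ _).1 φ.2 x hx w, hw, map_zero])
    rcases h with h | h
    · exfalso
      have : (⟨u₀, hu₀⟩ : U) ∈ LinearMap.ker (φ : U →ₗ[ℂ] V) := hφ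
      rw [h, Submodule.mem_bot] at this
      exact hu₀0 (congrArg Subtype.val this)
    · apply Subtype.ext
      exact LinearMap.ker_eq_top.1 h
  have hb : b ≤ Module.finrank ℂ Q := by
    rw [← LinearMap.finrank_range_of_inj hevinj]
    refine hB _ ?_ ?_
    · rintro y hy _ ⟨φ, rfl⟩
      refine ⟨⟨y.comp (φ : U →ₗ[ℂ] V), ?_⟩, rfl⟩
      intro x hx u
      simp only [LinearMap.comp_apply]
      rw [(hQ _).1 φ.2 x hx u, hAB x hx y hy]
    · intro h
      have : u₀ ∈ LinearMap.range ev := ⟨⟨U.subtype, fun x hx u => rfl⟩, rfl⟩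
      rw [h, Submodule.mem_bot] at this
      exact hu₀0 this
  have ha : a ≤ Module.finrank ℂ U := hA U hU hU0
  -- the copy of `U^q`
  let bs := Module.finBasis ℂ Q
  let φ : Fin (Module.finrank ℂ Q) → (U →ₗ[ℂ] V) := fun j => (bs j : U →ₗ[ℂ] V)
  have hφlin : LinearIndependent ℂ φ :=
    bs.linearIndependent.map' Q.subtype (Submodule.ker_subtype Q)
  have hind := prodDim_indep A U hU hU0 hmin _ φ (fun j => (hQ _).1 (bs j).2) hφlin
  let T : (Fin (Module.finrank ℂ Q) → U) →ₗ[ℂ] V := ∑ j, (φ j).comp (LinearMap.proj j)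
  have hTinj : Function.Injective T := by
    rw [← LinearMap.ker_eq_bot, LinearMap.ker_eq_bot']
    intro w hw
    refine hind w ?_
    rw [← hw]
    simp [T, LinearMap.sum_apply]
  have h1 := LinearMap.finrank_le_finrank_of_injective hTinj
  rw [Module.finrank_pi_fintype] at h1
  simp only [Finset.sum_const, Finset.card_univ, Fintype.card_fin, smul_eq_mul] at h1
  calc a * b ≤ Module.finrank ℂ U * Module.finrank ℂ Q := Nat.mul_le_mul ha hb
    _ = Module.finrank ℂ Q * Module.finrank ℂ U := Nat.mul_comm _ _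
    _ ≤ _ := h1

/-- Induction on `n` from `dim_mul_of_commuting` (apply the induction hypothesis inside every nonzero
subspace invariant under all of `A 0, …, A (n-1)`). -/
theorem dim_pow_of_commuting {n : ℕ} {V : Type} [AddCommGroup V] [Module ℂ V]
    [FiniteDimensional ℂ V] [Nontrivial V] (A : Fin n → Set (V →ₗ[ℂ] V))
    (hA : ∀ i i', i ≠ i' → ∀ x ∈ A i, ∀ y ∈ A i', ∀ v, x (y v) = y (x v)) (y : ℕ)
    (h : ∀ i, ∀ U : Submodule ℂ V, (∀ x ∈ A i, ∀ u ∈ U, x u ∈ U) → U ≠ ⊥ →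
      y ≤ Module.finrank ℂ U) :
    y ^ n ≤ Module.finrank ℂ V := by
  classical
  induction n generalizing V with
  | zero =>
    rw [pow_zero]
    exact Module.finrank_pos
  | succ n ih =>
    rw [pow_succ]
    refine dim_mul_of_commuting (⋃ i : Fin n, A i.succ) (A 0) ?_ (y ^ n) y ?_ (h 0)
    · intro x hx z hz v
      rw [Set.mem_iUnion] at hx
      obtain ⟨i, hi⟩ := hx
      exact hA i.succ 0 (Fin.succ_ne_zero i) x hi z hz v
    · intro U hU hU0
      haveI : Nontrivial U := Submodule.nontrivial_iff_ne_bot.2 hU0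
      have hU' : ∀ i : Fin n, ∀ x ∈ A i.succ, ∀ u ∈ U, x u ∈ U := fun i x hx u hu =>
        hU x (Set.mem_iUnion.2 ⟨i, hx⟩) u hu
      refine ih (V := U)
        (fun i => {x' : U →ₗ[ℂ] U | ∃ x ∈ A i.succ, ∀ u : U, ((x' u : U) : V) = x u}) ?_ ?_
      · rintro i i' hii' x' ⟨x, hx, hxx⟩ z' ⟨z, hz, hzz⟩ v
        apply Subtype.ext
        rw [hxx, hzz, hzz, hxx]
        exact hA i.succ i'.succ (fun e => hii' (Fin.succ_injective _ e)) x hx z hz v
      · intro i W hW hW0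
        have h1 := h i.succ (W.map U.subtype) (by
          rintro x hx _ ⟨w, hw, rfl⟩
          have hr : ∀ u ∈ U, x u ∈ U := hU' i x hx
          have := hW (x.restrict hr) ⟨x, hx, fun u => rfl⟩ w hw
          exact ⟨_, this, rfl⟩) (by
          intro hb
          apply hW0
          rw [eq_bot_iff]
          intro u hu
          have : (u : V) ∈ W.map U.subtype := ⟨u, hu, rfl⟩
          rw [hb, Submodule.mem_bot] at this
          rw [Submodule.mem_bot]
          exact Subtype.ext this)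
        rwa [Submodule.finrank_map_subtype_eq] at h1

/-- Real version, by complexification (`ℂ ⊗[ℝ] V` or `V × V`): for a nonzero complex `A i`-invariant
`Z`, the real parts of elements of `Z` form a nonzero real `A i`-invariant subspace of real
dimension at most `2 dim_ℂ Z`. -/
theorem real_dim_pow_of_commuting {n : ℕ} {V : Type} [AddCommGroup V] [Module ℝ V]
    [FiniteDimensional ℝ V] [Nontrivial V] (A : Fin n → Set (V →ₗ[ℝ] V))
    (hA : ∀ i i', i ≠ i' → ∀ x ∈ A i, ∀ y ∈ A i', ∀ v, x (y v) = y (x v)) (y : ℕ)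
    (h : ∀ i, ∀ U : Submodule ℝ V, (∀ x ∈ A i, ∀ u ∈ U, x u ∈ U) → U ≠ ⊥ →
      2 * y ≤ Module.finrank ℝ U) :
    y ^ n ≤ Module.finrank ℝ V := by
  classical
  open scoped TensorProduct in
  have hfin : Module.finrank ℂ (ℂ ⊗[ℝ] V) = Module.finrank ℝ V := Module.finrank_baseChange
  rw [← hfin]
  haveI : Nontrivial (TensorProduct ℝ ℂ V) := by
    apply Module.nontrivial_of_finrank_pos (R := ℂ)
    rw [hfin]
    exact Module.finrank_pos
  -- real part
  let re : TensorProduct ℝ ℂ V →ₗ[ℝ] V :=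
    (TensorProduct.lid ℝ V : TensorProduct ℝ ℝ V →ₗ[ℝ] V).comp
      (TensorProduct.map Complex.reLm LinearMap.id)
  have hre : ∀ (c : ℂ) (v : V), re (c ⊗ₜ[ℝ] v) = c.re • v := by
    intro c v; simp [re]
  have hdec : ∀ z : TensorProduct ℝ ℂ V,
      z = (1 : ℂ) ⊗ₜ[ℝ] (re z) - Complex.I ⊗ₜ[ℝ] (re (Complex.I • z)) := by
    intro z
    induction z using TensorProduct.induction_on with
    | zero => simp
    | tmul c v =>
      rw [TensorProduct.smul_tmul', hre, hre, TensorProduct.tmul_smul, TensorProduct.tmul_smul,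
        TensorProduct.smul_tmul', TensorProduct.smul_tmul', ← TensorProduct.sub_tmul]
      congr 1
      apply Complex.ext <;> simp
    | add z w hz hw =>
      rw [smul_add, map_add, map_add, TensorProduct.tmul_add, TensorProduct.tmul_add]
      conv_lhs => rw [hz, hw]
      abel
  have hcomm : ∀ (x : V →ₗ[ℝ] V) (z : TensorProduct ℝ ℂ V),
      re (x.baseChange ℂ z) = x (re z) := by
    intro x z
    induction z using TensorProduct.induction_on with
    | zero => simp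
    | tmul c v => rw [LinearMap.baseChange_tmul, hre, hre, map_smul]
    | add z w hz hw => rw [map_add, map_add, hz, hw, map_add, map_add]
  refine dim_pow_of_commuting (fun i => (fun x : V →ₗ[ℝ] V => x.baseChange ℂ) '' A i) ?_ y ?_
  · rintro i i' hii' _ ⟨x, hx, rfl⟩ _ ⟨z, hz, rfl⟩ v
    induction v using TensorProduct.induction_on with
    | zero => simp
    | tmul c v => simp only [LinearMap.baseChange_tmul, hA i i' hii' x hx z hz v]
    | add v w hv hw => simp only [map_add, hv, hw]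
  · intro i Z hZ hZ0
    have h1 := h i ((Z.restrictScalars ℝ).map re) (by
      rintro x hx _ ⟨z, hz, rfl⟩
      exact ⟨x.baseChange ℂ z, hZ _ ⟨x, hx, rfl⟩ z hz, hcomm x z⟩) (by
      intro hb
      apply hZ0
      rw [eq_bot_iff]
      intro z hz
      have e1 : re z = 0 := by
        have : re z ∈ (Z.restrictScalars ℝ).map re := ⟨z, hz, rfl⟩
        rwa [hb, Submodule.mem_bot] at this
      have e2 : re (Complex.I • z) = 0 := by
        have : re (Complex.I • z) ∈ (Z.restrictScalars ℝ).map re :=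
          ⟨Complex.I • z, Z.smul_mem _ hz, rfl⟩
        rwa [hb, Submodule.mem_bot] at this
      rw [Submodule.mem_bot, hdec z, e1, e2]
      simp)
    have h2 : Module.finrank ℝ ((Z.restrictScalars ℝ).map re) ≤
        Module.finrank ℝ (Z.restrictScalars ℝ) := Submodule.finrank_map_le _ _
    have h3 : Module.finrank ℝ (Z.restrictScalars ℝ) = 2 * Module.finrank ℂ Z := by
      have := Module.finrank_mul_finrank ℝ ℂ Z
      rw [Complex.finrank_real_complex] at this
      exact this.symm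
    omega

end Crest.Agent.R155
end

-- ▼ part R155/CoverSmall
section

/-!
R155, Part R, task CoverSmall: cover property of minimal blocks by small ideals.

Proof. `X ≤ K` nonzero left invariant with `dim X ≤ dim W < y^8` (`MinBi.exists_left`).
`e_i = cvH (jj i) (idem (smallIdeal H (2y-1)))` are commuting projections. Let
`X₀ = {u ∈ X | ∀ i, e_i u = 0}`; it is invariant under all `lt (jj i h)` (`e_i` commutes with
`lt (jj i h)` because `smallIdeal` is bi-invariant, and with `lt (jj i' h)` by `hcomm`). If `X₀ ≠ ⊥`: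
a nonzero subspace `U` of `X₀` invariant under the `lt (jj i h)` of dimension `≤ 2y-1` would have
`e_i = 1` on it, contradiction; so `real_dim_pow_of_commuting` gives `y^8 ≤ dim X₀ ≤ dim X < y^8`.
So `X₀ = ⊥`. If `v ∈ K` and all `e_i v = 0`, then for every `b`, `pr X (rt b⁻¹ v) ∈ X₀ = ⊥`, so
`v ⟂ rt b X` for all `b`; by minimality of `K` the orthogonal complement of all `rt b X` in `K` is `⊥`.
-/

set_option autoImplicit false
set_option linter.unusedSectionVars false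
set_option linter.unusedVariables false

namespace Crest.Agent.R155

open Finset Equiv

variable {G : Type} [Group G] [Fintype G] [DecidableEq G]
variable {H : Type} [Group H] [Fintype H] [DecidableEq H]

/-- convolution along `j` by the idempotent of a bi-invariant ideal commutes with the translations
by elements of the range of `j`. -/
theorem CoverSmall.cvH_idem_lt (j : H →* G) {I : Submodule ℝ (L2 H)} (hI : BiInv I) (h : H)
    (u : L2 G) : cvH j (idem I) (lt (j h) u) = lt (j h) (cvH j (idem I) u) := by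
  apply ext_res j
  intro g
  rw [res_cvH_idem j hI.2, res_lt, pr_lt hI.1, res_lt, res_cvH_idem j hI.2]

theorem CoverSmall.cvH_lt_comm (j : H →* G) (e : H → ℝ) (a : G) (ha : ∀ h, j h * a = a * j h)
    (u : L2 G) : cvH j e (lt a u) = lt a (cvH j e u) := by
  simp only [cvH_apply', map_sum, map_smul]
  refine Finset.sum_congr rfl fun h _ => ?_
  rw [← lt_mul, ← lt_mul, ha]

/-- the part of `K` orthogonal to all right translates of a nonzero `X ≤ K` vanishes. -/
theorem CoverSmall.eq_zero_of_orth {K : Submodule ℝ (L2 G)} (hK : MinBi K)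
    {X : Submodule ℝ (L2 G)} (hXK : X ≤ K) (hX : InvL X) (hne : X ≠ ⊥) (v : L2 G) (hv : v ∈ K)
    (h : ∀ b : G, ∀ x ∈ X, inner ℝ v (rt b x) = 0) : v = 0 := by
  let N : Submodule ℝ (L2 G) :=
    { carrier := {w | w ∈ K ∧ ∀ b : G, ∀ x ∈ X, inner ℝ w (rt b x) = 0}
      add_mem' := by
        rintro a b ⟨ha, ha'⟩ ⟨hb, hb'⟩
        refine ⟨K.add_mem ha hb, fun c x hx => ?_⟩
        rw [inner_add_left, ha' c x hx, hb' c x hx, add_zero]
      zero_mem' := ⟨K.zero_mem, fun c x hx => inner_zero_left _⟩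
      smul_mem' := by
        rintro c a ⟨ha, ha'⟩
        refine ⟨K.smul_mem c ha, fun b x hx => ?_⟩
        rw [inner_smul_left, ha' b x hx, mul_zero] }
  have hN : ∀ w, w ∈ N ↔ w ∈ K ∧ ∀ b : G, ∀ x ∈ X, inner ℝ w (rt b x) = 0 := fun w => Iff.rfl
  have hNK : N ≤ K := fun w hw => hw.1
  have hL : InvL N := by
    intro a w hw
    rw [hN] at hw ⊢
    refine ⟨hK.1.1 a w hw.1, fun b x hx => ?_⟩
    rw [inner_lt, lt_rt]
    exact hw.2 b _ (hX _ _ hx)
  have hR : InvR N := by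
    intro a w hw
    rw [hN] at hw ⊢
    refine ⟨hK.1.2 a w hw.1, fun b x hx => ?_⟩
    rw [inner_rt, ← rt_mul]
    exact hw.2 _ x hx
  rcases hK.2.2 N hNK ⟨hL, hR⟩ with h1 | h1
  · have : v ∈ N := (hN v).2 ⟨hv, h⟩
    rw [h1] at this
    exact (Submodule.mem_bot ℝ).1 this
  · exfalso
    apply hne
    rw [Submodule.eq_bot_iff]
    intro x hx
    have hxN : x ∈ N := by rw [h1]; exact hXK hx
    have := hxN.2 1 x hx
    rw [rt_one] at this
    exact inner_self_eq_zero.1 this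

theorem small_cover (jj : Fin 8 → (H →* G))
    (hcomm : ∀ i i', i ≠ i' → ∀ h h', jj i h * jj i' h' = jj i' h' * jj i h)
    (K : Submodule ℝ (L2 G)) (hK : MinBi K) (W : Submodule ℝ (L2 G)) (hWK : W ≤ K)
    (hW : InvR W) (hne : W ≠ ⊥) (y : ℕ) (hy : Module.finrank ℝ W < y ^ 8)
    (v : L2 G) (hv : v ∈ K)
    (h0 : ∀ i, cvH (jj i) (idem (smallIdeal H (2 * y - 1))) v = 0) : v = 0 := by
  obtain ⟨X, hXK, hX, hXne, hXdim⟩ := hK.exists_left hWK hW hne
  set I : Submodule ℝ (L2 H) := smallIdeal H (2 * y - 1) with hI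
  have hIbi : BiInv I := smallIdeal_biInv _
  -- the common kernel inside `X`
  set X₀ : Submodule ℝ (L2 G) := X ⊓ ⨅ i, LinearMap.ker (cvH (jj i) (idem I)) with hX₀
  have memX₀ : ∀ u, u ∈ X₀ ↔ u ∈ X ∧ ∀ i, cvH (jj i) (idem I) u = 0 := by
    intro u
    simp [hX₀, Submodule.mem_inf, Submodule.mem_iInf]
  have inv₀ : ∀ i h, ∀ u ∈ X₀, lt (jj i h) u ∈ X₀ := by
    intro i h u hu
    rw [memX₀] at hu ⊢
    refine ⟨hX _ _ hu.1, fun i' => ?_⟩
    by_cases hii : i' = i
    · subst hii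
      rw [CoverSmall.cvH_idem_lt _ hIbi, hu.2, map_zero]
    · rw [CoverSmall.cvH_lt_comm _ _ _ (fun h' => hcomm i' i hii h' h), hu.2, map_zero]
  have hbot : X₀ = ⊥ := by
    by_contra hne0
    have : Nontrivial X₀ := Submodule.nontrivial_iff_ne_bot.2 hne0
    -- the operators
    let A : Fin 8 → Set (X₀ →ₗ[ℝ] X₀) := fun i =>
      Set.range (fun h : H => (((lt (jj i h)).toLinearEquiv : L2 G →ₗ[ℝ] L2 G).restrict
        (inv₀ i h)))
    have hA : ∀ i i', i ≠ i' → ∀ x ∈ A i, ∀ y ∈ A i', ∀ v, x (y v) = y (x v) := by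
      rintro i i' hii _ ⟨h, rfl⟩ _ ⟨h', rfl⟩ v
      apply Subtype.ext
      simp only [LinearMap.restrict_apply]
      change lt (jj i h) (lt (jj i' h') (v : L2 G)) = lt (jj i' h') (lt (jj i h) (v : L2 G))
      rw [← lt_mul, ← lt_mul, hcomm i i' hii]
    have hdim := real_dim_pow_of_commuting A hA y (by
      intro i U hU hUne
      by_contra hlt
      push Not at hlt
      apply hUne
      rw [Submodule.eq_bot_iff]
      intro u hu
      have hfix := cvH_idem_smallIdeal (jj i) (2 * y - 1) (U.map X₀.subtype) (by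
        rintro h _ ⟨w, hw, rfl⟩
        exact ⟨_, hU _ ⟨h, rfl⟩ w hw, rfl⟩) (by
        rw [Submodule.finrank_map_subtype_eq]
        omega) (u : L2 G) ⟨u, hu, rfl⟩
      have hz := ((memX₀ (u : L2 G)).1 u.2).2 i
      rw [← hI, hz] at hfix
      exact Subtype.ext hfix.symm)
    have h1 : Module.finrank ℝ X₀ ≤ Module.finrank ℝ X :=
      Submodule.finrank_mono inf_le_left
    omega
  apply CoverSmall.eq_zero_of_orth hK hXK hX hXne v hv
  intro b x hx
  have h1 : inner ℝ v (rt b x) = inner ℝ (rt b⁻¹ v) x := by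
    rw [inner_rt, inv_inv]
  have h2 : pr X (rt b⁻¹ v) ∈ X₀ := by
    rw [memX₀]
    refine ⟨pr_mem _ _, fun i => ?_⟩
    rw [← pr_cvH hX, cvH_rt, h0 i, map_zero, map_zero]
  rw [hbot, Submodule.mem_bot] at h2
  rw [h1, ← pr_of_mem hx, ← inner_pr_left, h2, inner_zero_left]

end Crest.Agent.R155
end

-- ▼ part R155/PartRa
section

/-!
R155, Part R: generic lemmas for the assembly (helper505).
-/

set_option autoImplicit false
set_option linter.unusedSectionVars false
set_option linter.unusedVariables false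

namespace Crest.Agent.R155

open Finset Equiv

section
variable {G : Type} [Group G] [Fintype G] [DecidableEq G]

/-- nested projections -/
theorem pr_nested {A B : Submodule ℝ (L2 G)} (h : A ≤ B) (u : L2 G) :
    pr B u = pr A u + pr (B ⊓ Aᗮ) u := by
  apply pr_eq_of (B.add_mem (h (pr_mem _ _)) (pr_mem (B ⊓ Aᗮ) u).1)
  rw [Submodule.mem_orthogonal]
  intro w hw
  -- write `w = pr A w + (w - pr A w)`
  have hw1 : w - pr A w ∈ B ⊓ Aᗮ := ⟨B.sub_mem hw (h (pr_mem _ _)), sub_pr_mem _ _⟩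
  have e1 : inner ℝ (pr A w) (u - (pr A u + pr (B ⊓ Aᗮ) u)) = 0 := by
    rw [← sub_sub, inner_sub_right]
    have h1 : inner ℝ (pr A w) (u - pr A u) = 0 := (sub_pr_mem A u) _ (pr_mem A w)
    have h2 : inner ℝ (pr A w) (pr (B ⊓ Aᗮ) u) = 0 := (pr_mem (B ⊓ Aᗮ) u).2 _ (pr_mem A w)
    rw [h1, h2, sub_zero]
  have e2 : inner ℝ (w - pr A w) (u - (pr A u + pr (B ⊓ Aᗮ) u)) = 0 := by
    rw [add_comm (pr A u), ← sub_sub, inner_sub_right]
    have h1 : inner ℝ (w - pr A w) (u - pr (B ⊓ Aᗮ) u) = 0 := (sub_pr_mem _ u) _ hw1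
    have h2 : inner ℝ (w - pr A w) (pr A u) = 0 := by
      rw [real_inner_comm]; exact hw1.2 _ (pr_mem A u)
    rw [h1, h2, sub_zero]
  have : w = pr A w + (w - pr A w) := by abel
  rw [this, inner_add_left, e1, e2, add_zero]

theorem norm_sq_pr_nested {A B : Submodule ℝ (L2 G)} (h : A ≤ B) (u : L2 G) :
    ‖pr B u‖ ^ 2 = ‖pr A u‖ ^ 2 + ‖pr (B ⊓ Aᗮ) u‖ ^ 2 := by
  rw [pr_nested h u]
  have h2 : inner ℝ (pr A u) (pr (B ⊓ Aᗮ) u) = 0 := (pr_mem (B ⊓ Aᗮ) u).2 _ (pr_mem A u)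
  have := norm_add_sq_real (pr A u) (pr (B ⊓ Aᗮ) u)
  rw [h2] at this
  simpa using this

theorem norm_sq_sub_pr_nested {A B : Submodule ℝ (L2 G)} (h : A ≤ B) (u : L2 G) :
    ‖u - pr A u‖ ^ 2 = ‖pr (B ⊓ Aᗮ) u‖ ^ 2 + ‖u - pr B u‖ ^ 2 := by
  have h1 := norm_sq_pr_add A u
  have h2 := norm_sq_pr_add B u
  have h3 := norm_sq_pr_nested h u
  linarith

/-- orthogonal sums -/
theorem norm_sq_of_mem_iSup {M : ℕ} (K : Fin M → Submodule ℝ (L2 G))
    (ho : ∀ i i', i ≠ i' → K i ≤ (K i')ᗮ) {w : L2 G} (hw : w ∈ ⨆ i, K i) :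
    ‖w‖ ^ 2 = ∑ i, ‖pr (K i) w‖ ^ 2 := by
  have hof : OrthogonalFamily ℝ (fun i => K i) fun i => (K i).subtypeₗᵢ := by
    apply OrthogonalFamily.of_pairwise
    intro i i' hii'
    exact (Submodule.isOrtho_iff_le).2 (ho i i' hii')
  have h1 : ∑ i, (K i).starProjection w = w := hof.sum_projection_of_mem_iSup w hw
  have h1' : ∑ i, pr (K i) w = w := by simpa [pr] using h1
  have h2 : inner ℝ w w = ∑ i, inner ℝ (pr (K i) w) (pr (K i) w) := by
    conv_lhs => rw [← h1']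
    rw [sum_inner]
    refine Finset.sum_congr rfl fun i _ => ?_
    have : inner ℝ (pr (K i) w) (w - pr (K i) w) = 0 := (sub_pr_mem _ _) _ (pr_mem _ _)
    rw [inner_sub_right, sub_eq_zero] at this
    rw [h1', this]
  rw [← real_inner_self_eq_norm_sq, h2]
  simp

/-- `ℓ¹` norm -/
noncomputable def l1 (f : L2 G) : ℝ := ∑ g, |f g|

theorem l1_nonneg (f : L2 G) : 0 ≤ l1 f := Finset.sum_nonneg fun _ _ => abs_nonneg _

theorem l1_add_le (f g : L2 G) : l1 (f + g) ≤ l1 f + l1 g := by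
  unfold l1
  rw [← Finset.sum_add_distrib]
  exact Finset.sum_le_sum fun x _ => abs_add_le _ _

theorem l1_sum_le {ι : Type} (s : Finset ι) (f : ι → L2 G) : l1 (∑ i ∈ s, f i) ≤ ∑ i ∈ s, l1 (f i) := by
  classical
  induction s using Finset.induction_on with
  | empty => simp [l1]
  | insert a s ha ih =>
    rw [Finset.sum_insert ha, Finset.sum_insert ha]
    exact (l1_add_le _ _).trans (by linarith)

theorem l1_smul (c : ℝ) (f : L2 G) : l1 (c • f) = |c| * l1 f := by
  unfold l1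
  rw [Finset.mul_sum]
  refine Finset.sum_congr rfl fun x _ => ?_
  simp [abs_mul]

theorem l1_lt (a : G) (f : L2 G) : l1 (lt a f) = l1 f := by
  unfold l1
  simp only [lt_apply]
  exact Equiv.sum_comp (Equiv.mulLeft a⁻¹) (fun g => |f g|)

theorem l1_cv_le (F : G → ℝ) (f : L2 G) : l1 (cv F f) ≤ (∑ g, |F g|) * l1 f := by
  rw [cv_apply']
  refine (l1_sum_le _ _).trans ?_
  rw [Finset.sum_mul]
  refine Finset.sum_le_sum fun a _ => ?_
  rw [l1_smul, l1_lt]

theorem l1_dl (g : G) : l1 (dl g : L2 G) = 1 := by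
  simp [l1, dl_apply, apply_ite abs]

theorem l1_le_norm (f : L2 G) : l1 f ≤ Real.sqrt (Fintype.card G) * ‖f‖ := by
  have h1 : l1 f ^ 2 ≤ (Fintype.card G : ℝ) * ‖f‖ ^ 2 := by
    unfold l1
    rw [norm_sq_def]
    have := sq_sum_le_card_mul_sum_sq (s := (Finset.univ : Finset G)) (f := fun g => |f g|)
    simpa using this
  have h2 : Real.sqrt (Fintype.card G) * ‖f‖ = Real.sqrt ((Fintype.card G : ℝ) * ‖f‖ ^ 2) := by
    rw [Real.sqrt_mul (by positivity), Real.sqrt_sq (norm_nonneg _)]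
  rw [h2]
  exact Real.le_sqrt_of_sq_le h1

theorem cv_sub (F F' : G → ℝ) (f : L2 G) : cv F f - cv F' f = cv (fun g => F g - F' g) f := by
  simp only [cv_apply', sub_smul, Finset.sum_sub_distrib]

theorem sum_cv (F : G → ℝ) (f : L2 G) : ∑ g, (cv F f) g = (∑ g, F g) * ∑ g, f g := by
  simp only [cv_apply]
  rw [Finset.sum_comm, Finset.sum_mul]
  refine Finset.sum_congr rfl fun a _ => ?_
  rw [← Finset.mul_sum]
  congr 1
  exact Equiv.sum_comp (Equiv.mulLeft a⁻¹) (fun g => f g)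

/-- iterated convolutions, `ℓ¹` comparison -/
theorem l1_iter_sub_le (μ F : G → ℝ) (hμ : ∀ g, 0 ≤ μ g) (hμ1 : ∑ g, μ g = 1) (hF : ∀ g, 0 ≤ F g)
    (hFμ : ∀ g, F g ≤ μ g) (δ : ℝ) (hδ : ∑ g, (μ g - F g) ≤ δ) (t : ℕ) :
    l1 ((fun f : L2 G => cv μ f)^[t] (dl 1) - (fun f : L2 G => cv F f)^[t] (dl 1)) ≤ t * δ := by
  have hF1 : ∑ g, |F g| ≤ 1 := by
    rw [← hμ1]
    exact Finset.sum_le_sum fun g _ => by rw [abs_of_nonneg (hF g)]; exact hFμ g
  have hμ1' : ∑ g, |μ g| = 1 := by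
    rw [← hμ1]
    exact Finset.sum_congr rfl fun g _ => abs_of_nonneg (hμ g)
  have hd : ∑ g, |μ g - F g| ≤ δ := by
    refine le_trans (le_of_eq ?_) hδ
    exact Finset.sum_congr rfl fun g _ => abs_of_nonneg (by linarith [hFμ g])
  have hFt : ∀ t, l1 ((fun f : L2 G => cv F f)^[t] (dl 1)) ≤ 1 := by
    intro t
    induction t with
    | zero => simp [l1_dl]
    | succ t ih =>
      rw [Function.iterate_succ_apply']
      refine (l1_cv_le _ _).trans ?_
      exact mul_le_one₀ hF1 (l1_nonneg _) ih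
  induction t with
  | zero => simp [l1]
  | succ t ih =>
    rw [Function.iterate_succ_apply', Function.iterate_succ_apply']
    set u := (fun f : L2 G => cv μ f)^[t] (dl 1)
    set v := (fun f : L2 G => cv F f)^[t] (dl 1)
    have : cv μ u - cv F v = cv μ (u - v) + cv (fun g => μ g - F g) v := by
      rw [map_sub, ← cv_sub]; abel
    change l1 (cv μ u - cv F v) ≤ _
    rw [this]
    refine (l1_add_le _ _).trans ?_
    have h1 := l1_cv_le μ (u - v)
    rw [hμ1', one_mul] at h1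
    have h2 := l1_cv_le (fun g => μ g - F g) v
    have h3 : (∑ g, |μ g - F g|) * l1 v ≤ δ := by
      have := hFt t
      have h0 : 0 ≤ ∑ g, |μ g - F g| := Finset.sum_nonneg fun _ _ => abs_nonneg _
      calc (∑ g, |μ g - F g|) * l1 v ≤ (∑ g, |μ g - F g|) * 1 :=
            mul_le_mul_of_nonneg_left this h0
        _ ≤ δ := by rw [mul_one]; exact hd
    push_cast
    linarith

theorem sum_iter (F : G → ℝ) (t : ℕ) :
    ∑ g, ((fun f : L2 G => cv F f)^[t] (dl 1)) g = (∑ g, F g) ^ t := by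
  induction t with
  | zero => simp [dl_apply]
  | succ t ih =>
    rw [Function.iterate_succ_apply', sum_cv, ih, pow_succ, mul_comm]

/-- projections commute with iterated convolutions -/
theorem pr_iter {K : Submodule ℝ (L2 G)} (hK : InvL K) (ν F : G → ℝ) (t : ℕ) (u : L2 G) :
    pr K (cv ν ((fun f : L2 G => cv F f)^[t] u)) = cv ν ((fun f : L2 G => cv F f)^[t] (pr K u)) := by
  rw [pr_cv hK]
  congr 1
  induction t with
  | zero => rfl
  | succ t ih =>
    rw [Function.iterate_succ_apply', Function.iterate_succ_apply', pr_cv hK, ih]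

/-- norm of iterated convolutions on an invariant subspace -/
theorem norm_sq_iter_le {K : Submodule ℝ (L2 G)} (hK : InvL K) (ν F : G → ℝ)
    (hν : ∀ g, 0 ≤ ν g) (hν1 : ∑ g, ν g = 1) (q : ℝ) (hq : 0 ≤ q)
    (hqK : ∀ v ∈ K, ‖cv F v‖ ^ 2 ≤ q * ‖v‖ ^ 2) (t : ℕ) (u : L2 G) (hu : u ∈ K) :
    ‖cv ν ((fun f : L2 G => cv F f)^[t] u)‖ ^ 2 ≤ q ^ t * ‖u‖ ^ 2 := by
  have h1 : ∀ t, (fun f : L2 G => cv F f)^[t] u ∈ K ∧
      ‖(fun f : L2 G => cv F f)^[t] u‖ ^ 2 ≤ q ^ t * ‖u‖ ^ 2 := by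
    intro t
    induction t with
    | zero => simpa using hu
    | succ t ih =>
      rw [Function.iterate_succ_apply']
      refine ⟨cv_mem hK _ ih.1, (hqK _ ih.1).trans ?_⟩
      have h3 : q ^ (t + 1) * ‖u‖ ^ 2 = q * (q ^ t * ‖u‖ ^ 2) := by ring
      rw [h3]
      exact mul_le_mul_of_nonneg_left ih.2 hq
  have h2 : ‖cv ν ((fun f : L2 G => cv F f)^[t] u)‖ ≤ ‖(fun f : L2 G => cv F f)^[t] u‖ := by
    have := norm_cv_le ν ((fun f : L2 G => cv F f)^[t] u)
    have h3 : ∑ g, |ν g| = 1 := by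
      rw [← hν1]
      exact Finset.sum_congr rfl fun g _ => abs_of_nonneg (hν g)
    rwa [h3, one_mul] at this
  calc ‖cv ν ((fun f : L2 G => cv F f)^[t] u)‖ ^ 2 ≤ ‖(fun f : L2 G => cv F f)^[t] u‖ ^ 2 := by
        exact pow_le_pow_left₀ (norm_nonneg _) h2 2
    _ ≤ _ := (h1 t).2

/-- the main estimate for one class -/
theorem class_estimate {K : Submodule ℝ (L2 G)} (hK : BiInv K) (ν F : G → ℝ)
    (hν : ∀ g, 0 ≤ ν g) (hν1 : ∑ g, ν g = 1) (q : ℝ) (hq : 0 ≤ q)
    (hqK : ∀ v ∈ K, ‖cv F v‖ ^ 2 ≤ q * ‖v‖ ^ 2) (t : ℕ) :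
    (Fintype.card G : ℝ) * ‖pr K (cv ν ((fun f : L2 G => cv F f)^[t] (dl 1)))‖ ^ 2 ≤
      q ^ t * Module.finrank ℝ K := by
  rw [pr_iter hK.1, ← card_mul_norm_pr_dl hK.1]
  have := norm_sq_iter_le hK.1 ν F hν hν1 q hq hqK t (pr K (dl 1)) (pr_mem _ _)
  have h0 : (0 : ℝ) ≤ Fintype.card G := by positivity
  calc (Fintype.card G : ℝ) * ‖cv ν ((fun f : L2 G => cv F f)^[t] (pr K (dl 1)))‖ ^ 2
      ≤ (Fintype.card G : ℝ) * (q ^ t * ‖pr K (dl 1)‖ ^ 2) := mul_le_mul_of_nonneg_left this h0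
    _ = _ := by ring

end

end Crest.Agent.R155
end

-- ▼ part R155/Asymp
section

/-!
R155, Part R, task Asymp: the numerical limits. `n = 8 * 2^e = 2^(e+3)`, `r = 2^e`.
-/

set_option autoImplicit false

namespace Crest.Agent.R155

open Filter

/-- `⌊√(n/2)⌋` -/
def K0 (e : ℕ) : ℕ := Nat.sqrt (4 * 2 ^ e)

/-- number of random sets used for level `k` -/
def Nk (e k : ℕ) : ℕ := 6 * (k + 5 + 2 * k * (e + 3))

/-- number of random sets used for the high-dimensional part -/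
def NN (e : ℕ) : ℕ := 6 * (8 * 2 ^ e * (e + 3) + 5)

/-- term of level `k` -/
noncomputable def S1 (e : ℕ) : ℝ :=
  ∑ k ∈ Finset.Icc 1 (K0 e),
    ((2 * (Nk e k : ℝ)) ^ 2 *
      (2 * (((2 ^ e).choose (k / 8) : ℝ) ^ 2 * ((k / 8).factorial : ℝ)) /
        ((((8 * 2 ^ e - k) / k : ℕ) : ℝ) ^ k))) ^ 6 *
      (((8 * 2 ^ e).choose k : ℝ) ^ 2 * (k.factorial : ℝ))

noncomputable def S3 (e : ℕ) : ℝ :=
  (Fintype.card (Nat.Partition (8 * 2 ^ e)) : ℝ) *
    (65536 * (32 * (NN e : ℝ) ^ 2 * (Fintype.card (Nat.Partition (2 ^ e)) : ℝ)) ^ 6 /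
      (((4 * 2 ^ e).choose (K0 e / 2) : ℝ)) ^ 2)

end Crest.Agent.R155
end

-- ▼ part R155/PartRb
section

/-!
R155, Part R: bounds for the classes (helper505).
-/

set_option autoImplicit false
set_option linter.unusedSectionVars false
set_option linter.unusedVariables false

namespace Crest.Agent.R155

open Finset Equiv

section
variable {G : Type} [Group G] [Fintype G] [DecidableEq G]
variable {H : Type} [Group H] [Fintype H] [DecidableEq H]

theorem norm_le_prodCompl {ι : Type} (P : ι → L2 G →ₗ[ℝ] L2 G)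
    (hid : ∀ i v, P i (P i v) = P i v)
    (hsym : ∀ i v w, inner ℝ (P i v) w = inner ℝ v (P i w))
    (K : Submodule ℝ (L2 G)) (hK : ∀ i, ∀ v ∈ K, P i v ∈ K)
    (T : L2 G →ₗ[ℝ] L2 G) (B : ℝ) (hB0 : 0 ≤ B) (hB : ∀ i, ∀ w ∈ K, ‖T (P i w)‖ ≤ B * ‖w‖)
    (l : List ι) (v : L2 G) (hv : v ∈ K) :
    ‖T v‖ ≤ ‖T (prodCompl P l v)‖ + l.length * B * ‖v‖ := by
  induction l with
  | nil => simp [prodCompl]
  | cons i l ih =>
    have h1 : prodCompl P (i :: l) v = prodCompl P l v - P i (prodCompl P l v) := rfl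
    have h2 : T (prodCompl P l v) = T (prodCompl P (i :: l) v) + T (P i (prodCompl P l v)) := by
      rw [h1, map_sub]; abel
    have h3 : ‖T (P i (prodCompl P l v))‖ ≤ B * ‖v‖ :=
      (hB i _ (prodCompl_mem P K hK l v hv)).trans
        (mul_le_mul_of_nonneg_left (norm_prodCompl_le P hid hsym l v) hB0)
    have h4 : ‖T (prodCompl P l v)‖ ≤ ‖T (prodCompl P (i :: l) v)‖ + B * ‖v‖ := by
      rw [h2]
      exact (norm_add_le _ _).trans (by linarith)
    have h5 : (((i :: l).length : ℕ) : ℝ) = l.length + 1 := by simp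
    rw [h5]
    nlinarith

theorem opnorm_cover (jj : Fin 8 → (H →* G))
    (hcomm : ∀ i i', i ≠ i' → ∀ h h', jj i h * jj i' h' = jj i' h' * jj i h)
    (K : Submodule ℝ (L2 G)) (hK : InvL K) (I : Submodule ℝ (L2 H)) (hI : BiInv I)
    (hkill : ∀ v ∈ K, (∀ i, cvH (jj i) (idem I) v = 0) → v = 0)
    (T : L2 G →ₗ[ℝ] L2 G) (B : ℝ) (hB0 : 0 ≤ B)
    (hB : ∀ i, ∀ w ∈ K, ‖T (cvH (jj i) (idem I) w)‖ ≤ B * ‖w‖) (v : L2 G) (hv : v ∈ K) :
    ‖T v‖ ≤ 8 * B * ‖v‖ := by
  have hid : ∀ (i : Fin 8) (v : L2 G), cvH (jj i) (idem I) (cvH (jj i) (idem I) v) =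
      cvH (jj i) (idem I) v := fun i v => cvH_idem_idem _ hI.2 v
  have hsym : ∀ (i : Fin 8) (v w : L2 G), inner ℝ (cvH (jj i) (idem I) v) w =
      inner ℝ v (cvH (jj i) (idem I) w) := fun i v w => inner_cvH_idem _ hI.1 v w
  have hc : ∀ (i i' : Fin 8), i ≠ i' → ∀ v : L2 G, cvH (jj i) (idem I) (cvH (jj i') (idem I) v) =
      cvH (jj i') (idem I) (cvH (jj i) (idem I) v) :=
    fun i i' hii' v => cvH_comm _ _ (hcomm i i' hii') _ _ v
  have hKK : ∀ (i : Fin 8), ∀ v ∈ K, cvH (jj i) (idem I) v ∈ K := fun i v hv => cvH_mem hK _ _ hv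
  have h1 := norm_le_prodCompl (fun i : Fin 8 => cvH (jj i) (idem I)) hid hsym K hKK T B hB0 hB
    (Finset.univ : Finset (Fin 8)).toList v hv
  have h2 : prodCompl (fun i : Fin 8 => cvH (jj i) (idem I)) (Finset.univ : Finset (Fin 8)).toList v
      = 0 := by
    apply hkill _ (prodCompl_mem _ K hKK _ v hv)
    intro i
    exact prodCompl_kill (fun i : Fin 8 => cvH (jj i) (idem I)) hid hc _ v (by simp)
  rw [h2, map_zero, norm_zero, zero_add] at h1
  simpa using h1

end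

section
variable {α : Type} [Fintype α] [DecidableEq α]

/-- Data: eight disjoint embeddings and a truncated measure. -/
structure Data8 (α : Type) [Fintype α] [DecidableEq α] (r : ℕ) (F : Perm α → ℝ) where
  ι : Fin 8 → (Fin r ↪ α)
  disj : ∀ i i', i ≠ i' → ∀ x y, ι i x ≠ ι i' y
  card : Fintype.card α = 8 * r
  nonneg : ∀ g, 0 ≤ F g
  sum_le : ∑ g, F g ≤ 1
  trunc : ∀ i g, ∑ h, F (g * via (ι i) h) ≤ 2 * ((r.factorial : ℝ) / ((8 * r).factorial : ℝ))

/-- general class bound -/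
theorem Data8.class_bound {r : ℕ} {F : Perm α → ℝ} (D : Data8 α r F)
    (K : Submodule ℝ (L2 (Perm α))) (hK : BiInv K) (d : ℕ) (hd1 : 1 ≤ d)
    (hd : ∀ W : Submodule ℝ (L2 (Perm α)), W ≤ K → InvR W → W ≠ ⊥ → d ≤ Module.finrank ℝ W)
    (I : Submodule ℝ (L2 (Perm (Fin r)))) (hI : BiInv I)
    (hkill : ∀ v ∈ K, (∀ i, cvH (via (D.ι i)) (idem I) v = 0) → v = 0)
    (v : L2 (Perm α)) (hv : v ∈ K) :
    ‖cv F v‖ ^ 2 ≤ (128 * (Module.finrank ℝ I : ℝ) / (d : ℝ)) * ‖v‖ ^ 2 := by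
  have hd0 : (0 : ℝ) < d := by exact_mod_cast hd1
  set x : ℝ := 2 * (Module.finrank ℝ I : ℝ) / (d : ℝ) with hx
  have hx0 : 0 ≤ x := by positivity
  have hcomm : ∀ i i', i ≠ i' → ∀ h h', via (D.ι i) h * via (D.ι i') h' =
      via (D.ι i') h' * via (D.ι i) h :=
    fun i i' hii' h h' => via_comm _ _ (D.disj i i' hii') h h'
  have hB : ∀ i, ∀ w ∈ K, ‖cv F (cvH (via (D.ι i)) (idem I) w)‖ ≤ Real.sqrt x * ‖w‖ := by
    intro i w hw
    have h1 := opnorm_conv K hK.2 d hd (via (D.ι i)) F D.nonneg D.sum_le _ (D.trunc i) I hI w hw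
    have hG : (Fintype.card (Perm α) : ℝ) = ((8 * r).factorial : ℝ) := by
      rw [Fintype.card_perm, D.card]
    have hH : (Fintype.card (Perm (Fin r)) : ℝ) = (r.factorial : ℝ) := by
      rw [Fintype.card_perm, Fintype.card_fin]
    have hne1 : ((8 * r).factorial : ℝ) ≠ 0 := by positivity
    have hne2 : ((r).factorial : ℝ) ≠ 0 := by positivity
    have h2 : (Fintype.card (Perm α) : ℝ) * (2 * ((r.factorial : ℝ) / ((8 * r).factorial : ℝ))) /
        (Fintype.card (Perm (Fin r)) : ℝ) = 2 := by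
      rw [hG, hH]; field_simp
    rw [h2] at h1
    have h3 : ‖cv F (cvH (via (D.ι i)) (idem I) w)‖ ^ 2 ≤ x * ‖w‖ ^ 2 := by
      rw [hx, div_mul_eq_mul_div, le_div_iff₀ hd0]
      linarith
    have h4 : Real.sqrt x * ‖w‖ = Real.sqrt (x * ‖w‖ ^ 2) := by
      rw [Real.sqrt_mul hx0, Real.sqrt_sq (norm_nonneg _)]
    rw [h4]
    exact Real.le_sqrt_of_sq_le h3
  have h5 := opnorm_cover (fun i => via (D.ι i)) hcomm K hK.1 I hI hkill (cv F) (Real.sqrt x)
    (Real.sqrt_nonneg _) hB v hv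
  calc ‖cv F v‖ ^ 2 ≤ (8 * Real.sqrt x * ‖v‖) ^ 2 := pow_le_pow_left₀ (norm_nonneg _) h5 2
    _ = 64 * (Real.sqrt x) ^ 2 * ‖v‖ ^ 2 := by ring
    _ = (128 * (Module.finrank ℝ I : ℝ) / (d : ℝ)) * ‖v‖ ^ 2 := by
        rw [Real.sq_sqrt hx0, hx]; ring

/-- levels -/
theorem Data8.level_bound {r : ℕ} {F : Perm α → ℝ} (D : Data8 α r F) {k : ℕ} (hk : 1 ≤ k)
    (hkn : k * k + k ≤ 8 * r) (v : L2 (Perm α)) (hv : v ∈ lev α k) :
    ‖cv F v‖ ^ 2 ≤ (128 * ((r.choose (k / 8) : ℝ) ^ 2 * ((k / 8).factorial : ℝ)) /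
      ((((8 * r - k) / k : ℕ) : ℝ) ^ k)) * ‖v‖ ^ 2 := by
  have hc : 1 ≤ (8 * r - k) / k := by
    rw [Nat.one_le_div_iff (by omega)]
    have : k * 1 ≤ k * k := Nat.mul_le_mul_left k hk
    omega
  have hd1 : 1 ≤ ((8 * r - k) / k) ^ k := Nat.one_le_pow _ _ hc
  have h1 := D.class_bound (lev α k) (lev_biInv k) (((8 * r - k) / k) ^ k) hd1
    (by
      intro W hWK hW hne
      have := level_dim hk (by rw [D.card]; exact hkn) W hW hWK hne
      rwa [D.card] at this)
    (junta (Fin r) (k / 8)) (junta_biInv _)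
    (by
      intro v hv h0
      exact junta_cover D.card D.ι D.disj v hv.1 h0) v hv
  refine h1.trans (mul_le_mul_of_nonneg_right ?_ (sq_nonneg _))
  rw [Nat.cast_pow]
  have h2 : (Module.finrank ℝ (junta (Fin r) (k / 8)) : ℝ) ≤
      (r.choose (k / 8) : ℝ) ^ 2 * ((k / 8).factorial : ℝ) := by
    have := finrank_junta_le (α := Fin r) (k / 8)
    rw [Fintype.card_fin] at this
    exact_mod_cast this
  gcongr

/-- blocks -/
theorem Data8.block_bound {r : ℕ} {F : Perm α → ℝ} (D : Data8 α r F) {k h : ℕ}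
    (h1 : 2 * h ≤ k) (hk : k ≤ 8 * r) (h2 : 2 * h + 3 ≤ 4 * r)
    (K : Submodule ℝ (L2 (Perm α))) (hK : MinBi K) (ho : K ≤ (junta α k)ᗮ)
    (hs : K ≤ (sjunta α k)ᗮ) (ν : Perm α → ℝ) (hν : ∀ g, 0 ≤ ν g) (hν1 : ∑ g, ν g = 1) :
    ((8 * r).factorial : ℝ) * ‖pr K (cv ν ((fun f => cv F f)^[6] (dl 1)))‖ ^ 2 ≤
      65536 * (512 * (Fintype.card (Nat.Partition r) : ℝ)) ^ 6 /
        ((((4 * r).choose h : ℕ) : ℝ)) ^ 2 := by
  classical
  -- minimal dimension of right invariant subspaces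
  let P : ℕ → Prop := fun n => ∃ W : Submodule ℝ (L2 (Perm α)), W ≤ K ∧ InvR W ∧ W ≠ ⊥ ∧
    Module.finrank ℝ W = n
  have hP : ∃ n, P n := ⟨_, K, le_rfl, hK.1.2, hK.2.1, rfl⟩
  obtain ⟨W, hWK, hW, hne, hWd⟩ := Nat.find_spec hP
  set d := Nat.find hP with hd
  have hmin : ∀ W : Submodule ℝ (L2 (Perm α)), W ≤ K → InvR W → W ≠ ⊥ →
      d ≤ Module.finrank ℝ W := fun W' a b c => Nat.find_min' hP ⟨W', a, b, c, rfl⟩
  have hdC : (4 * r).choose h ≤ d := by
    rw [← hWd]
    exact sign_dim (m := 4 * r) (h := h) (K0 := k) (by rw [D.card]; ring) h1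
      (by rw [D.card]; exact hk) h2 W hW hne (hWK.trans ho) (hWK.trans hs)
  have hC1 : 1 ≤ (4 * r).choose h := Nat.choose_pos (by omega)
  have hd1 : 1 ≤ d := hC1.trans hdC
  -- the number y
  have hQ : ∃ y : ℕ, d < y ^ 8 := ⟨d + 1, by
    calc d < d + 1 := Nat.lt_succ_self d
      _ ≤ (d + 1) ^ 8 := Nat.le_self_pow (by norm_num) _⟩
  set y := Nat.find hQ with hy
  have hy1 : d < y ^ 8 := Nat.find_spec hQ
  have hy2 : 2 ≤ y := by
    by_contra hc
    have : y ≤ 1 := by omega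
    have : y ^ 8 ≤ 1 := by
      calc y ^ 8 ≤ 1 ^ 8 := Nat.pow_le_pow_left this 8
        _ = 1 := by norm_num
    omega
  have hy3 : (y - 1) ^ 8 ≤ d := by
    have := Nat.find_min hQ (m := y - 1) (by omega)
    omega
  have hy4 : y ^ 12 ≤ 65536 * d ^ 2 := by
    calc y ^ 12 ≤ y ^ 16 := Nat.pow_le_pow_right (by omega) (by norm_num)
      _ ≤ (2 * (y - 1)) ^ 16 := Nat.pow_le_pow_left (by omega) 16
      _ = 65536 * ((y - 1) ^ 8) ^ 2 := by
          rw [mul_pow, ← pow_mul]; norm_num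
      _ ≤ 65536 * d ^ 2 := Nat.mul_le_mul_left _ (Nat.pow_le_pow_left hy3 2)
  -- the class bound
  have hI := smallIdeal_biInv (H := Perm (Fin r)) (2 * y - 1)
  have hcb := fun v hv => D.class_bound K hK.1 d hd1 hmin (smallIdeal (Perm (Fin r)) (2 * y - 1)) hI
    (by
      intro v hv h0
      exact small_cover (fun i => via (D.ι i))
        (fun i i' hii' h h' => via_comm _ _ (D.disj i i' hii') h h')
        K hK W hWK hW hne y (by rw [hWd]; exact hy1) v hv h0) v hv
  have hest := class_estimate hK.1 ν F hν hν1 _ (by positivity) hcb 6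
  have hG : (Fintype.card (Perm α) : ℝ) = ((8 * r).factorial : ℝ) := by
    rw [Fintype.card_perm, D.card]
  rw [hG] at hest
  refine hest.trans ?_
  -- numerical part
  have hdimK : (Module.finrank ℝ K : ℝ) ≤ (d : ℝ) ^ 2 := by
    have := hK.finrank_le_sq_right hWK hW hne
    rw [hWd] at this
    exact_mod_cast this
  have hdimI : (Module.finrank ℝ (smallIdeal (Perm (Fin r)) (2 * y - 1)) : ℝ) ≤
      4 * (y : ℝ) ^ 2 * (Fintype.card (Nat.Partition r) : ℝ) := by
    have h5 := finrank_smallIdeal_le r (2 * y - 1)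
    have h6 : (2 * y - 1) ^ 2 * Fintype.card (Nat.Partition r) ≤
        4 * y ^ 2 * Fintype.card (Nat.Partition r) := by
      apply Nat.mul_le_mul_right
      calc (2 * y - 1) ^ 2 ≤ (2 * y) ^ 2 := Nat.pow_le_pow_left (by omega) 2
        _ = 4 * y ^ 2 := by ring
    exact_mod_cast h5.trans h6
  have hd0 : (0 : ℝ) < d := by exact_mod_cast hd1
  have hC0 : (0 : ℝ) < ((4 * r).choose h : ℕ) := by exact_mod_cast hC1
  have hdC' : (((4 * r).choose h : ℕ) : ℝ) ≤ d := by exact_mod_cast hdC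
  have hy4' : (y : ℝ) ^ 12 ≤ 65536 * (d : ℝ) ^ 2 := by exact_mod_cast hy4
  set p : ℝ := (Fintype.card (Nat.Partition r) : ℝ) with hp
  have hp0 : 0 ≤ p := by positivity
  calc (128 * (Module.finrank ℝ (smallIdeal (Perm (Fin r)) (2 * y - 1)) : ℝ) / (d : ℝ)) ^ 6 *
        (Module.finrank ℝ K : ℝ)
      ≤ (128 * (4 * (y : ℝ) ^ 2 * p) / (d : ℝ)) ^ 6 * (d : ℝ) ^ 2 := by
        gcongr
    _ = (512 * p) ^ 6 * (y : ℝ) ^ 12 / (d : ℝ) ^ 4 := by
        field_simp; ring
    _ ≤ (512 * p) ^ 6 * (65536 * (d : ℝ) ^ 2) / (d : ℝ) ^ 4 := by gcongr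
    _ = 65536 * (512 * p) ^ 6 / (d : ℝ) ^ 2 := by
        field_simp
    _ ≤ 65536 * (512 * p) ^ 6 / ((((4 * r).choose h : ℕ) : ℝ)) ^ 2 := by gcongr

end

end Crest.Agent.R155
end

-- ▼ part R155/AsympS1
section

/-!
R155, Part R, task AsympS1.
-/

set_option autoImplicit false

namespace Crest.Agent.R155

open Filter

namespace AsympS1

theorem fact_ge (k : ℕ) : (k : ℝ) ^ k ≤ 3 ^ k * (k.factorial : ℝ) := by
  have h1 := Real.pow_div_factorial_le_exp (k : ℝ) (Nat.cast_nonneg k) k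
  have h2 : (0 : ℝ) < (k.factorial : ℝ) := by exact_mod_cast Nat.factorial_pos k
  rw [div_le_iff₀ h2] at h1
  refine le_trans h1 ?_
  refine mul_le_mul_of_nonneg_right ?_ h2.le
  have h3 : Real.exp (k : ℝ) = Real.exp 1 ^ k := by
    rw [← Real.exp_nat_mul, mul_one]
  rw [h3]
  exact pow_le_pow_left₀ (Real.exp_pos 1).le (by linarith [Real.exp_one_lt_d9]) k

/-- the `k`-th term -/
noncomputable def term (e k : ℕ) : ℝ :=
  ((2 * (Nk e k : ℝ)) ^ 2 *
      (2 * (((2 ^ e).choose (k / 8) : ℝ) ^ 2 * ((k / 8).factorial : ℝ)) /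
        ((((8 * 2 ^ e - k) / k : ℕ) : ℝ) ^ k))) ^ 6 *
      (((8 * 2 ^ e).choose k : ℝ) ^ 2 * (k.factorial : ℝ))

theorem choose_sq_fact (n j : ℕ) :
    ((n.choose j : ℝ)) ^ 2 * (j.factorial : ℝ) ≤ ((n : ℝ) ^ j) ^ 2 / (j.factorial : ℝ) := by
  have h1 : (n.choose j : ℝ) ≤ (n : ℝ) ^ j / (j.factorial : ℝ) := Nat.choose_le_pow_div j n
  have h2 : (0 : ℝ) < (j.factorial : ℝ) := by exact_mod_cast Nat.factorial_pos j
  calc ((n.choose j : ℝ)) ^ 2 * (j.factorial : ℝ)
      ≤ ((n : ℝ) ^ j / (j.factorial : ℝ)) ^ 2 * (j.factorial : ℝ) := by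
        refine mul_le_mul_of_nonneg_right ?_ h2.le
        exact pow_le_pow_left₀ (Nat.cast_nonneg _) h1 2
    _ = ((n : ℝ) ^ j) ^ 2 / (j.factorial : ℝ) := by
        field_simp

theorem term_le (e k : ℕ) (he : 5 ≤ e) (hk1 : 1 ≤ k) (hk2 : k ≤ K0 e) :
    term e k ≤ (64 * 24 ^ 12 * 20) * (((e : ℝ) + 6) ^ 12 * (1 / 4) ^ e) *
      ((k : ℝ) ^ 17 * (1 / 20) ^ k) := by
  set ρ : ℝ := Real.sqrt ((2 : ℝ) ^ e) with hρ
  have hρ2 : ρ ^ 2 = 2 ^ e := Real.sq_sqrt (by positivity)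
  have hρ5 : 5 ≤ ρ := by
    apply Real.le_sqrt_of_sq_le
    have : (2 : ℝ) ^ 5 ≤ 2 ^ e := pow_le_pow_right₀ (by norm_num) he
    linarith
  have hρ0 : 0 < ρ := by linarith
  have hk0 : (0 : ℝ) < k := by exact_mod_cast hk1
  have hk1' : (1 : ℝ) ≤ k := by exact_mod_cast hk1
  have hksq : k * k ≤ 4 * 2 ^ e := by
    have := Nat.sqrt_le (4 * 2 ^ e)
    unfold K0 at hk2
    exact le_trans (Nat.mul_le_mul hk2 hk2) this
  have hk2ρ : (k : ℝ) ≤ 2 * ρ := by
    have h1 : (k : ℝ) * k ≤ 4 * 2 ^ e := by exact_mod_cast hksq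
    have h2 : (k : ℝ) ^ 2 ≤ (2 * ρ) ^ 2 := by
      rw [mul_pow, hρ2]; nlinarith
    exact abs_le_of_sq_le_sq' h2 (by positivity) |>.2
  -- the floor
  set m : ℕ := (8 * 2 ^ e - k) / k with hm
  have hm1 : 8 * ρ ^ 2 - 2 * k ≤ (m : ℝ) * k := by
    have h1 : 8 * 2 ^ e - k < k * (m + 1) := by
      rw [hm]
      exact Nat.lt_mul_div_succ _ hk1
    have h2 : 8 * 2 ^ e ≤ m * k + 2 * k := by
      have : k * (m + 1) = m * k + k := by ring
      omega
    have h3 : (8 : ℝ) * 2 ^ e ≤ m * k + 2 * k := by exact_mod_cast h2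
    rw [hρ2]; linarith
  have hm2 : 72 / 10 * ρ ^ 2 ≤ (m : ℝ) * k := by nlinarith
  have hm3 : (72 / 10 * ρ ^ 2 / k : ℝ) ≤ (m : ℝ) := by
    rw [div_le_iff₀ hk0]; exact hm2
  have hmpos : (0 : ℝ) < (m : ℝ) := lt_of_lt_of_le (by positivity) hm3
  -- the three factors
  set j : ℕ := k / 8 with hj
  set b : ℝ := ((2 ^ e).choose j : ℝ) ^ 2 * (j.factorial : ℝ) with hb
  set c : ℝ := ((8 * 2 ^ e).choose k : ℝ) ^ 2 * (k.factorial : ℝ) with hc
  have hb0 : 0 ≤ b := by positivity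
  have hc0 : 0 ≤ c := by positivity
  have hb1 : b ^ 6 ≤ ρ ^ (3 * k) := by
    have h1 : b ≤ (((2 ^ e : ℕ) : ℝ) ^ j) ^ 2 / (j.factorial : ℝ) := choose_sq_fact (2 ^ e) j
    have h2 : (1 : ℝ) ≤ (j.factorial : ℝ) := by exact_mod_cast Nat.factorial_pos j
    have h3 : b ≤ ρ ^ (4 * j) := by
      refine le_trans h1 ?_
      have h4 : (((2 ^ e : ℕ) : ℝ) ^ j) ^ 2 = ρ ^ (4 * j) := by
        push_cast
        rw [← hρ2, ← pow_mul, ← pow_mul]
        congr 1; ring
      rw [h4]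
      exact div_le_self (by positivity) h2
    calc b ^ 6 ≤ (ρ ^ (4 * j)) ^ 6 := pow_le_pow_left₀ hb0 h3 6
      _ = ρ ^ (4 * j * 6) := by rw [← pow_mul]
      _ ≤ ρ ^ (3 * k) := pow_le_pow_right₀ (by linarith) (by omega)
  have hc1 : c ≤ ((64 * ρ ^ 4) ^ k) / (k.factorial : ℝ) := by
    have h1 : c ≤ (((8 * 2 ^ e : ℕ) : ℝ) ^ k) ^ 2 / (k.factorial : ℝ) :=
      choose_sq_fact (8 * 2 ^ e) k
    refine le_trans h1 (le_of_eq ?_)
    congr 1
    push_cast
    rw [← hρ2, ← pow_mul, mul_comm k 2, pow_mul]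
    congr 1; ring
  have hM : (72 / 10 * ρ ^ 2 / k : ℝ) ^ (6 * k) ≤ ((m : ℝ) ^ k) ^ 6 := by
    rw [← pow_mul, mul_comm k 6]
    exact pow_le_pow_left₀ (by positivity) hm3 _
  have hMpos : (0 : ℝ) < (72 / 10 * ρ ^ 2 / k : ℝ) ^ (6 * k) := by positivity
  have hfac : (0 : ℝ) < (k.factorial : ℝ) := by exact_mod_cast Nat.factorial_pos k
  set y : ℝ := 192 / (72 / 10) ^ 6 * ((k : ℝ) / ρ) ^ 5 with hy
  have hkρ : (k : ℝ) / ρ ≤ 2 := by rw [div_le_iff₀ hρ0]; linarith
  have hkρ0 : 0 ≤ (k : ℝ) / ρ := by positivity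
  have hy0 : 0 ≤ y := by positivity
  have hy1 : y ≤ 1 / 20 := by
    have h1 : ((k : ℝ) / ρ) ^ 5 ≤ 2 ^ 5 := pow_le_pow_left₀ hkρ0 hkρ 5
    rw [hy]
    calc 192 / (72 / 10 : ℝ) ^ 6 * ((k : ℝ) / ρ) ^ 5 ≤ 192 / (72 / 10 : ℝ) ^ 6 * 2 ^ 5 := by
          exact mul_le_mul_of_nonneg_left h1 (by norm_num)
      _ ≤ 1 / 20 := by norm_num
  have hy2 : y ≤ (k : ℝ) ^ 5 * (1 / 4) ^ e := by
    have h1 : ((k : ℝ) / ρ) ^ 5 ≤ (k : ℝ) ^ 5 * (1 / 4) ^ e := by
      rw [div_pow]
      have h2 : (4 : ℝ) ^ e ≤ ρ ^ 5 := by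
        have h3 : (4 : ℝ) ^ e = ρ ^ 4 := by
          have : ρ ^ 4 = (ρ ^ 2) ^ 2 := by ring
          rw [this, hρ2, ← pow_mul, mul_comm e 2, pow_mul]
          norm_num
        rw [h3]
        exact pow_le_pow_right₀ (by linarith) (by norm_num)
      rw [one_div, inv_pow, ← div_eq_mul_inv]
      exact div_le_div_of_nonneg_left (by positivity) (by positivity) h2
    have h4 : y ≤ 1 * ((k : ℝ) / ρ) ^ 5 := by
      rw [hy]
      exact mul_le_mul_of_nonneg_right (by norm_num) (by positivity)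
    linarith
  have hyk : y ^ k ≤ (k : ℝ) ^ 5 * (1 / 4) ^ e * (20 * (1 / 20) ^ k) := by
    obtain ⟨k', rfl⟩ : ∃ k', k = k' + 1 := ⟨k - 1, by omega⟩
    have h1 : y ^ (k' + 1) ≤ (1 / 20) ^ k' * y := by
      rw [pow_succ]
      exact mul_le_mul_of_nonneg_right (pow_le_pow_left₀ hy0 hy1 k') hy0
    refine le_trans h1 ?_
    have h2 : (20 * (1 / 20 : ℝ) ^ (k' + 1)) = (1 / 20) ^ k' := by
      rw [pow_succ]; ring
    rw [h2, mul_comm]
    exact mul_le_mul_of_nonneg_right hy2 (by positivity)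
  -- main quotient
  have hquot : b ^ 6 / ((m : ℝ) ^ k) ^ 6 * c ≤ y ^ k := by
    have h1 : b ^ 6 / ((m : ℝ) ^ k) ^ 6 ≤ ρ ^ (3 * k) / (72 / 10 * ρ ^ 2 / k : ℝ) ^ (6 * k) :=
      div_le_div₀ (by positivity) hb1 hMpos hM
    have h2 : b ^ 6 / ((m : ℝ) ^ k) ^ 6 * c ≤
        ρ ^ (3 * k) / (72 / 10 * ρ ^ 2 / k : ℝ) ^ (6 * k) *
          (((64 * ρ ^ 4) ^ k) / (k.factorial : ℝ)) :=
      mul_le_mul h1 hc1 hc0 (by positivity)
    refine le_trans h2 ?_
    have h3 : ρ ^ (3 * k) / (72 / 10 * ρ ^ 2 / k : ℝ) ^ (6 * k) *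
          (((64 * ρ ^ 4) ^ k) / (k.factorial : ℝ)) =
        (64 / (72 / 10) ^ 6 * ((k : ℝ) / ρ) ^ 5) ^ k * ((k : ℝ) ^ k / (k.factorial : ℝ)) := by
      have h4 : ρ ^ (3 * k) / (72 / 10 * ρ ^ 2 / k : ℝ) ^ (6 * k) * (64 * ρ ^ 4) ^ k =
          (64 / (72 / 10) ^ 6 * ((k : ℝ) / ρ) ^ 5) ^ k * (k : ℝ) ^ k := by
        rw [pow_mul, pow_mul, ← div_pow, ← mul_pow, ← mul_pow]
        congr 1
        field_simp
      rw [← mul_div_assoc, h4, mul_div_assoc]
    rw [h3]
    have h5 : (k : ℝ) ^ k / (k.factorial : ℝ) ≤ 3 ^ k := by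
      rw [div_le_iff₀ hfac]; exact fact_ge k
    calc (64 / (72 / 10) ^ 6 * ((k : ℝ) / ρ) ^ 5) ^ k * ((k : ℝ) ^ k / (k.factorial : ℝ))
        ≤ (64 / (72 / 10) ^ 6 * ((k : ℝ) / ρ) ^ 5) ^ k * 3 ^ k :=
          mul_le_mul_of_nonneg_left h5 (by positivity)
      _ = y ^ k := by
          rw [← mul_pow, hy]
          congr 1
          ring
  have hN : 2 * (Nk e k : ℝ) ≤ 24 * k * ((e : ℝ) + 6) := by
    unfold Nk
    push_cast
    have he0 : (0 : ℝ) ≤ e := Nat.cast_nonneg e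
    nlinarith
  have hN12 : (2 * (Nk e k : ℝ)) ^ 12 ≤ (24 * k * ((e : ℝ) + 6)) ^ 12 :=
    pow_le_pow_left₀ (by positivity) hN 12
  have hterm : term e k = (2 * (Nk e k : ℝ)) ^ 12 * 64 * (b ^ 6 / ((m : ℝ) ^ k) ^ 6 * c) := by
    unfold term
    rw [← hb, ← hc, ← hm]
    generalize (m : ℝ) ^ k = M
    ring
  rw [hterm]
  calc (2 * (Nk e k : ℝ)) ^ 12 * 64 * (b ^ 6 / ((m : ℝ) ^ k) ^ 6 * c)
      ≤ (24 * k * ((e : ℝ) + 6)) ^ 12 * 64 * y ^ k := by
        refine mul_le_mul ?_ hquot (by positivity) (by positivity)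
        exact mul_le_mul_of_nonneg_right hN12 (by norm_num)
    _ ≤ (24 * k * ((e : ℝ) + 6)) ^ 12 * 64 *
          ((k : ℝ) ^ 5 * (1 / 4) ^ e * (20 * (1 / 20) ^ k)) :=
        mul_le_mul_of_nonneg_left hyk (by positivity)
    _ = _ := by ring

end AsympS1

/-- Worst case `k ~ √n`. With `j = k/8`, `C(r,j)² j! ≤ (r^j)²/j! ≤ (n² e/(8k))^(k/8)`,
`((n-k)/k)^k ≥ e^(-2) (n/k)^k`, `C(n,k)² k! ≤ (n² e/k)^k`; so the `k`-th term is at most
`C (k D)^12 (c n^(-5/2) k^(17/4))^k ≤ C (k D)^12 (c' n^(-3/8))^k`, `D = e + 3`. -/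
theorem S1_tendsto : Tendsto S1 atTop (nhds 0) := by
  have hsum : Summable (fun k : ℕ => (k : ℝ) ^ 17 * (1 / 20 : ℝ) ^ k) := by
    apply summable_pow_mul_geometric_of_norm_lt_one
    rw [Real.norm_eq_abs, abs_of_pos] <;> norm_num
  set K : ℝ := ∑' k : ℕ, (k : ℝ) ^ 17 * (1 / 20 : ℝ) ^ k with hK
  have h1 : Tendsto (fun e : ℕ => ((e : ℝ) + 6) ^ 12 * (1 / 4 : ℝ) ^ e) atTop (nhds 0) := by
    have h2 : Tendsto (fun n : ℕ => (n : ℝ) ^ 12 * (1 / 4 : ℝ) ^ n) atTop (nhds 0) :=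
      tendsto_pow_const_mul_const_pow_of_abs_lt_one 12 (by
        rw [abs_of_pos] <;> norm_num)
    have h3 : Tendsto (fun e : ℕ => (((e + 6 : ℕ) : ℝ)) ^ 12 * (1 / 4 : ℝ) ^ (e + 6)) atTop
        (nhds 0) := h2.comp (tendsto_add_atTop_nat 6)
    have h4 := h3.mul_const ((4 : ℝ) ^ 6)
    rw [zero_mul] at h4
    refine h4.congr (fun e => ?_)
    rw [pow_add]
    push_cast
    ring
  have h5 := (h1.const_mul (64 * 24 ^ 12 * 20 : ℝ)).mul_const K
  rw [mul_zero, zero_mul] at h5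
  refine tendsto_of_tendsto_of_tendsto_of_le_of_le' tendsto_const_nhds h5 ?_ ?_
  · refine Eventually.of_forall (fun e => ?_)
    unfold S1
    refine Finset.sum_nonneg (fun k _ => ?_)
    positivity
  · filter_upwards [eventually_ge_atTop 5] with e he
    have h6 : S1 e = ∑ k ∈ Finset.Icc 1 (K0 e), AsympS1.term e k := rfl
    rw [h6]
    calc ∑ k ∈ Finset.Icc 1 (K0 e), AsympS1.term e k
        ≤ ∑ k ∈ Finset.Icc 1 (K0 e), (64 * 24 ^ 12 * 20) *
          (((e : ℝ) + 6) ^ 12 * (1 / 4) ^ e) * ((k : ℝ) ^ 17 * (1 / 20) ^ k) := by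
          refine Finset.sum_le_sum (fun k hk => ?_)
          rw [Finset.mem_Icc] at hk
          exact AsympS1.term_le e k he hk.1 hk.2
      _ = (64 * 24 ^ 12 * 20) * (((e : ℝ) + 6) ^ 12 * (1 / 4) ^ e) *
          ∑ k ∈ Finset.Icc 1 (K0 e), ((k : ℝ) ^ 17 * (1 / 20) ^ k) := by
          rw [Finset.mul_sum]
      _ ≤ _ := by
          refine mul_le_mul_of_nonneg_left ?_ (by positivity)
          exact hsum.sum_le_tsum _ (fun k _ => by positivity)

end Crest.Agent.R155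
end

-- ▼ part R155/PartBound
section

/-!
R155, Part R, task PartBound: `p(n) ≤ exp (3 √n)`.

Proof. `q(n,k)` = number of partitions of `n` in parts `≤ k`: `q(n,k) ≤ q(n,k-1) + q(n-k,k)`. For
`0 < x < 1`, `q(n,k) x^n ≤ ∏_{i=1}^k (1 - x^i)⁻¹` by induction. Take `x = exp (-1/√n)`;
`-log (1 - x^i) = ∑_j x^(ij)/j` and `∑_i x^(ij) ≤ 1/(e^(j/√n) - 1) ≤ √n/j`, so
`log p(n) ≤ √n + √n ∑ 1/j² ≤ 3 √n`. (Mathlib may have the generating function of `Nat.Partition`.)
-/

set_option autoImplicit false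

namespace Crest.Agent.R155

open Finset

/-- multiplicity vector of a partition -/
def pbCount (n : ℕ) (P : Nat.Partition n) : Fin n → ℕ := fun i => P.parts.count (i.val + 1)

theorem pbCount_le (n : ℕ) (P : Nat.Partition n) (i : Fin n) : pbCount n P i ≤ n := by
  unfold pbCount
  have h1 : P.parts.count (i.val+1) ≤ P.parts.count (i.val+1) * (i.val+1) :=
    Nat.le_mul_of_pos_right _ (Nat.succ_pos _)
  refine h1.trans ?_
  have h2 := Finset.sum_multiset_count P.parts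
  rw [P.parts_sum] at h2
  by_cases hm : (i.val+1) ∈ P.parts
  · have h3 : P.parts.count (i.val+1) • (i.val+1) ≤ ∑ m ∈ P.parts.toFinset, P.parts.count m • m :=
      Finset.single_le_sum (f := fun m => P.parts.count m • m) (fun _ _ => Nat.zero_le _)
        (Multiset.mem_toFinset.mpr hm)
    rw [← h2] at h3
    simpa using h3
  · rw [Multiset.count_eq_zero.mpr hm]; simp

theorem pb_sum (n : ℕ) (P : Nat.Partition n) : ∑ i : Fin n, (i.val + 1) * pbCount n P i = n := by
  have h2 := Finset.sum_multiset_count P.parts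
  rw [P.parts_sum] at h2
  have h3 : ∑ m ∈ P.parts.toFinset, P.parts.count m • m
      = ∑ m ∈ Finset.Icc 1 n, P.parts.count m • m := by
    apply Finset.sum_subset
    · intro m hm
      rw [Multiset.mem_toFinset] at hm
      rw [Finset.mem_Icc]
      refine ⟨P.parts_pos hm, ?_⟩
      have := Multiset.single_le_sum (s := P.parts) (fun x _ => Nat.zero_le x) m hm
      rw [P.parts_sum] at this
      exact this
    · intro m _ hm
      rw [Multiset.mem_toFinset] at hm
      rw [Multiset.count_eq_zero.mpr hm]; simp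
  rw [h3] at h2
  conv_rhs => rw [h2]
  change ∑ i : Fin n, (fun i : ℕ => (i + 1) * P.parts.count (i+1)) i.val = _
  rw [← Finset.sum_range (f := fun i => (i + 1) * P.parts.count (i+1))]
  rw [Finset.range_eq_Ico]
  rw [Finset.sum_Ico_add' (fun i => i * P.parts.count i) 0 n 1]
  apply Finset.sum_congr
  · ext m; simp
  · intro m _; simp [mul_comm]

theorem pbCount_inj (n : ℕ) : Function.Injective (pbCount n) := by
  intro P Q h
  apply Nat.Partition.ext
  ext m
  by_cases hm : m ∈ Finset.Icc 1 n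
  · rw [Finset.mem_Icc] at hm
    have := congrFun h ⟨m-1, by omega⟩
    simp only [pbCount] at this
    have e : m - 1 + 1 = m := by omega
    rwa [e] at this
  · have key : ∀ R : Nat.Partition n, R.parts.count m = 0 := by
      intro R
      rw [Multiset.count_eq_zero]
      intro hmR
      apply hm
      rw [Finset.mem_Icc]
      refine ⟨R.parts_pos hmR, ?_⟩
      have := Multiset.single_le_sum (s := R.parts) (fun x _ => Nat.zero_le x) m hmR
      rw [R.parts_sum] at this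
      exact this
    rw [key, key]

theorem pb_gen (n : ℕ) (x : ℝ) (hx0 : 0 < x) (hx1 : x < 1) :
    (Fintype.card (Nat.Partition n) : ℝ) * x ^ n ≤ ∏ i : Fin n, (1 - x ^ (i.val + 1))⁻¹ := by
  have h1 : (Fintype.card (Nat.Partition n) : ℝ) * x ^ n
      = ∑ P : Nat.Partition n, ∏ i : Fin n, (x ^ (i.val+1)) ^ (pbCount n P i) := by
    have : ∀ P : Nat.Partition n, ∏ i : Fin n, (x ^ (i.val+1)) ^ (pbCount n P i) = x ^ n := by
      intro P
      simp_rw [← pow_mul]
      rw [Finset.prod_pow_eq_pow_sum, pb_sum]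
    simp_rw [this]
    simp
  rw [h1]
  have h2 : ∑ P : Nat.Partition n, ∏ i : Fin n, (x ^ (i.val+1)) ^ (pbCount n P i)
      ≤ ∑ p ∈ Fintype.piFinset (fun _ : Fin n => Finset.range (n+1)),
          ∏ i : Fin n, (x ^ (i.val+1)) ^ (p i) := by
    rw [← Finset.sum_image (s := (Finset.univ : Finset (Nat.Partition n))) (g := pbCount n)
      (f := fun p : Fin n → ℕ => ∏ i : Fin n, (x ^ (i.val+1)) ^ (p i))
      (fun P _ Q _ h => pbCount_inj n h)]
    apply Finset.sum_le_sum_of_subset_of_nonneg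
    · intro p hp
      rw [Finset.mem_image] at hp
      obtain ⟨P, _, rfl⟩ := hp
      rw [Fintype.mem_piFinset]
      intro i
      rw [Finset.mem_range]
      exact Nat.lt_succ_of_le (pbCount_le n P i)
    · intro p _ _
      exact Finset.prod_nonneg (fun i _ => by positivity)
  refine h2.trans ?_
  rw [← Finset.prod_univ_sum (fun _ : Fin n => Finset.range (n+1))
    (fun (i : Fin n) (j : ℕ) => (x ^ (i.val+1)) ^ j)]
  apply Finset.prod_le_prod
  · intro i _
    exact Finset.sum_nonneg (fun j _ => by positivity)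
  · intro i _
    have hy0 : 0 ≤ x ^ (i.val+1) := by positivity
    have hy1 : x ^ (i.val+1) < 1 := pow_lt_one₀ hx0.le hx1 (Nat.succ_ne_zero _)
    have := (hasSum_geometric_of_lt_one hy0 hy1)
    exact sum_le_hasSum _ (fun j _ => by positivity) this

theorem pb_log_sum (n : ℕ) (hn : 0 < n) (x : ℝ) (hx : x = Real.exp (-(1 / Real.sqrt n))) :
    ∑ i : Fin n, (-Real.log (1 - x ^ (i.val + 1))) ≤ 2 * Real.sqrt n := by
  have hs : 0 < Real.sqrt n := Real.sqrt_pos.mpr (by exact_mod_cast hn)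
  have hx0 : 0 < x := by rw [hx]; exact Real.exp_pos _
  have hx1 : x < 1 := by
    have : 0 < 1 / Real.sqrt n := by positivity
    rw [hx, Real.exp_lt_one_iff]
    linarith
  have hS : ∀ i : Fin n, HasSum (fun j : ℕ => (x ^ (i.val+1)) ^ (j+1) / (j+1 : ℝ))
      (-Real.log (1 - x ^ (i.val+1))) := by
    intro i
    apply Real.hasSum_pow_div_log_of_abs_lt_one
    rw [abs_of_pos (by positivity)]
    exact pow_lt_one₀ hx0.le hx1 (Nat.succ_ne_zero _)
  have hT := hasSum_sum (s := Finset.univ) (fun (i : Fin n) _ => hS i)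
  have hz : HasSum (fun n : ℕ => 1 / (n : ℝ) ^ 2) (Real.pi ^ 2 / 6) := hasSum_zeta_two
  have hz1 : HasSum (fun j : ℕ => 1 / ((j+1 : ℕ) : ℝ) ^ 2) (Real.pi ^ 2 / 6) := by
    rw [hasSum_nat_add_iff (f := fun n : ℕ => 1 / (n : ℝ) ^ 2) 1]
    simpa using hz
  have hz2 := hz1.mul_left (Real.sqrt n)
  have hle : ∑ i : Fin n, (-Real.log (1 - x ^ (i.val + 1))) ≤ Real.sqrt n * (Real.pi ^ 2 / 6) := by
    refine hasSum_le ?_ hT hz2
    intro j
    have hxj0 : 0 < x ^ (j+1) := by positivity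
    have hxj1 : x ^ (j+1) < 1 := pow_lt_one₀ hx0.le hx1 (Nat.succ_ne_zero _)
    have e1 : ∑ i : Fin n, (x ^ (i.val+1)) ^ (j+1) / (j+1 : ℝ)
        = (∑ i ∈ Finset.range n, (x ^ (j+1)) ^ (i+1)) / (j+1 : ℝ) := by
      rw [← Finset.sum_div, Finset.sum_range]
      congr 1
      apply Finset.sum_congr rfl
      intro i _
      rw [← pow_mul, ← pow_mul, mul_comm]
    rw [e1]
    have e2 : ∑ i ∈ Finset.range n, (x ^ (j+1)) ^ (i+1) ≤ x ^ (j+1) * (1 - x ^ (j+1))⁻¹ := by
      have := (hasSum_geometric_of_lt_one hxj0.le hxj1).mul_left (x ^ (j+1))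
      have h3 : ∑ i ∈ Finset.range n, x ^ (j+1) * (x ^ (j+1)) ^ i ≤ x ^ (j+1) * (1 - x ^ (j+1))⁻¹ :=
        sum_le_hasSum _ (fun j _ => by positivity) this
      refine le_trans (le_of_eq ?_) h3
      apply Finset.sum_congr rfl
      intro i _
      rw [pow_succ' (x ^ (j+1)) i]
    have e3 : x ^ (j+1) * (1 - x ^ (j+1))⁻¹ ≤ Real.sqrt n / (j+1) := by
      have hexp : x ^ (j+1) = Real.exp (-((j+1) / Real.sqrt n)) := by
        rw [hx, ← Real.exp_nat_mul]
        congr 1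
        push_cast
        ring
      set t : ℝ := (j+1) / Real.sqrt n with ht
      have htpos : 0 < t := by positivity
      have h4 : t * Real.exp (-t) ≤ 1 - Real.exp (-t) := by
        have := Real.add_one_le_exp t
        have h5 : Real.exp (-t) * Real.exp t = 1 := by rw [← Real.exp_add]; simp
        nlinarith [Real.exp_pos (-t), Real.exp_pos t]
      rw [hexp]
      have h6 : 0 < 1 - Real.exp (-t) := by
        have : 0 < t * Real.exp (-t) := by positivity
        linarith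
      rw [← div_eq_mul_inv, div_le_div_iff₀ h6 (by positivity)]
      have h7 : (j+1 : ℝ) = t * Real.sqrt n := by rw [ht]; field_simp
      rw [h7]
      nlinarith [Real.exp_pos (-t)]
    have hj : (0:ℝ) < j + 1 := by positivity
    calc (∑ i ∈ Finset.range n, (x ^ (j+1)) ^ (i+1)) / (j+1 : ℝ)
        ≤ (Real.sqrt n / (j+1)) / (j+1) := by
          apply div_le_div_of_nonneg_right (e2.trans e3) hj.le
      _ = Real.sqrt n * (1 / ((j+1 : ℕ) : ℝ) ^ 2) := by
          push_cast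
          field_simp
  refine hle.trans ?_
  have hpi : Real.pi ^ 2 / 6 ≤ 2 := by
    have := Real.pi_lt_d2
    have h0 := Real.pi_pos
    nlinarith
  nlinarith

theorem card_partition_le (n : ℕ) :
    (Fintype.card (Nat.Partition n) : ℝ) ≤ Real.exp (3 * Real.sqrt n) := by
  rcases Nat.eq_zero_or_pos n with h0 | hn
  · subst h0
    simp
  have hs : 0 < Real.sqrt n := Real.sqrt_pos.mpr (by exact_mod_cast hn)
  set x : ℝ := Real.exp (-(1 / Real.sqrt n)) with hx
  have hx0 : 0 < x := by rw [hx]; exact Real.exp_pos _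
  have hx1 : x < 1 := by
    have : 0 < 1 / Real.sqrt n := by positivity
    rw [hx, Real.exp_lt_one_iff]
    linarith
  have h1 := pb_gen n x hx0 hx1
  have h2 := pb_log_sum n hn x hx
  have h3 : ∏ i : Fin n, (1 - x ^ (i.val + 1))⁻¹ = Real.exp (∑ i : Fin n, (-Real.log (1 - x ^ (i.val + 1)))) := by
    rw [Real.exp_sum]
    apply Finset.prod_congr rfl
    intro i _
    have hy1 : x ^ (i.val+1) < 1 := pow_lt_one₀ hx0.le hx1 (Nat.succ_ne_zero _)
    rw [Real.exp_neg, Real.exp_log (by linarith)]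
  rw [h3] at h1
  have h4 : x ^ n = Real.exp (-Real.sqrt n) := by
    rw [hx, ← Real.exp_nat_mul]
    congr 1
    have : (n : ℝ) = Real.sqrt n * Real.sqrt n := (Real.mul_self_sqrt (by positivity)).symm
    rw [mul_neg, mul_one_div]
    congr 1
    rw [div_eq_iff hs.ne']
    exact this
  rw [h4] at h1
  have h5 : (Fintype.card (Nat.Partition n) : ℝ) = (Fintype.card (Nat.Partition n) : ℝ) * Real.exp (-Real.sqrt n) * Real.exp (Real.sqrt n) := by
    rw [mul_assoc, ← Real.exp_add]; simp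
  rw [h5]
  calc (Fintype.card (Nat.Partition n) : ℝ) * Real.exp (-Real.sqrt n) * Real.exp (Real.sqrt n)
      ≤ Real.exp (2 * Real.sqrt n) * Real.exp (Real.sqrt n) := by
        apply mul_le_mul_of_nonneg_right _ (Real.exp_pos _).le
        exact h1.trans (Real.exp_le_exp.mpr h2)
    _ = Real.exp (3 * Real.sqrt n) := by
        rw [← Real.exp_add]; congr 1; ring

end Crest.Agent.R155
end

-- ▼ part R155/AsympS3
section

/-!
R155, Part R, task AsympS3.
-/

set_option autoImplicit false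

namespace Crest.Agent.R155

open Filter

theorem s3_half_le (e : ℕ) : ((K0 e / 2 : ℕ) : ℝ) ≤ Real.sqrt ((2 ^ e : ℕ) : ℝ) := by
  apply Real.le_sqrt_of_sq_le
  have h1 : K0 e / 2 * 2 ≤ K0 e := Nat.div_mul_le_self _ _
  have h2 : K0 e * K0 e ≤ 4 * 2 ^ e := Nat.sqrt_le (4 * 2 ^ e)
  have h4 : (K0 e / 2 * 2) * (K0 e / 2 * 2) ≤ K0 e * K0 e := Nat.mul_le_mul h1 h1
  have h3 : (K0 e / 2) ^ 2 ≤ 2 ^ e := by nlinarith
  exact_mod_cast h3

theorem s3_le_half (e : ℕ) : Real.sqrt ((2 ^ e : ℕ) : ℝ) ≤ ((K0 e / 2 : ℕ) : ℝ) + 1 := by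
  rw [Real.sqrt_le_left (by positivity)]
  have h1 : K0 e + 1 ≤ 2 * (K0 e / 2 + 1) := by omega
  have h2 : 4 * 2 ^ e < (K0 e + 1) * (K0 e + 1) := Nat.lt_succ_sqrt (4 * 2 ^ e)
  have h3 : 2 ^ e ≤ (K0 e / 2 + 1) ^ 2 := by nlinarith
  exact_mod_cast h3

theorem s3_pow_le_choose (e : ℕ) :
    (3 * Real.sqrt ((2 ^ e : ℕ) : ℝ)) ^ (K0 e / 2) ≤
      (((4 * 2 ^ e).choose (K0 e / 2) : ℕ) : ℝ) := by
  set h := K0 e / 2 with hh
  set r : ℕ := 2 ^ e with hr
  have hhle : (h : ℝ) ≤ Real.sqrt (r : ℝ) := s3_half_le e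
  have hr1 : 1 ≤ r := Nat.one_le_two_pow
  have hs0 : 0 ≤ Real.sqrt (r : ℝ) := Real.sqrt_nonneg _
  have hss : Real.sqrt (r : ℝ) * Real.sqrt (r : ℝ) = r := Real.mul_self_sqrt (by positivity)
  have hr1' : (1 : ℝ) ≤ r := by exact_mod_cast hr1
  have hs1 : 1 ≤ Real.sqrt (r : ℝ) := by
    rw [Real.one_le_sqrt]; exact hr1'
  have hhr : h ≤ r := by
    have : (h : ℝ) ≤ r := by nlinarith
    exact_mod_cast this
  have hfac : (0 : ℝ) < (h.factorial : ℝ) := by exact_mod_cast Nat.factorial_pos h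
  have h1 : (h.factorial : ℝ) ≤ (h : ℝ) ^ h := by exact_mod_cast Nat.factorial_le_pow h
  have h2 : (3 * Real.sqrt (r : ℝ)) ^ h * (h : ℝ) ^ h ≤ (3 * (r : ℝ)) ^ h := by
    rw [← mul_pow]
    apply pow_le_pow_left₀ (by positivity)
    nlinarith
  have h3 : (3 * (r : ℝ)) ^ h ≤ (((4 * r + 1 - h : ℕ) : ℝ)) ^ h := by
    apply pow_le_pow_left₀ (by positivity)
    have : 3 * r ≤ 4 * r + 1 - h := by omega
    exact_mod_cast this
  have h4 : ((((4 * r + 1 - h : ℕ) : ℝ)) ^ h) ≤ (h.factorial : ℝ) * (((4 * r).choose h : ℕ) : ℝ) := by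
    have := Nat.pow_le_choose (α := ℝ) h (4 * r)
    rw [div_le_iff₀ hfac] at this
    linarith
  have h5 : (3 * Real.sqrt (r : ℝ)) ^ h * (h.factorial : ℝ) ≤
      (h.factorial : ℝ) * (((4 * r).choose h : ℕ) : ℝ) := by
    calc (3 * Real.sqrt (r : ℝ)) ^ h * (h.factorial : ℝ)
        ≤ (3 * Real.sqrt (r : ℝ)) ^ h * (h : ℝ) ^ h :=
          mul_le_mul_of_nonneg_left h1 (by positivity)
      _ ≤ _ := h2.trans (h3.trans h4)
  rw [mul_comm] at h5
  exact le_of_mul_le_mul_left h5 hfac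

theorem NN_le (e : ℕ) : (NN e : ℝ) ≤ 222 * ((2 ^ e : ℕ) : ℝ) ^ 2 := by
  have h1 : 1 ≤ 2 ^ e := Nat.one_le_two_pow
  have h2 : e + 3 ≤ 4 * 2 ^ e := by
    have : e + 1 ≤ 2 ^ e := Nat.lt_two_pow_self
    omega
  have h3 : NN e ≤ 222 * (2 ^ e) ^ 2 := by
    unfold NN
    generalize 2 ^ e = r at h1 h2
    nlinarith
  exact_mod_cast h3

theorem S3_le (e : ℕ) (he : Real.exp 20 ≤ 3 * Real.sqrt ((2 ^ e : ℕ) : ℝ)) :
    S3 e ≤ (65536 * (32 * 222 ^ 2) ^ 6 * Real.exp 40) *
      ((Real.sqrt ((2 ^ e : ℕ) : ℝ)) ^ 48 * Real.exp (-(Real.sqrt ((2 ^ e : ℕ) : ℝ)))) := by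
  set s := Real.sqrt ((2 ^ e : ℕ) : ℝ) with hs
  have hs0 : 0 ≤ s := Real.sqrt_nonneg _
  have hr : ((2 ^ e : ℕ) : ℝ) = s ^ 2 := by
    rw [hs, Real.sq_sqrt (by positivity)]
  have hp1 : (Fintype.card (Nat.Partition (8 * 2 ^ e)) : ℝ) ≤ Real.exp (9 * s) := by
    refine (card_partition_le _).trans ?_
    apply Real.exp_le_exp.mpr
    have h8 : Real.sqrt ((8 * 2 ^ e : ℕ) : ℝ) ≤ 3 * s := by
      rw [Real.sqrt_le_left (by positivity)]
      push_cast
      push_cast at hr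
      rw [hr]
      nlinarith [sq_nonneg s]
    linarith
  have hp2 : (Fintype.card (Nat.Partition (2 ^ e)) : ℝ) ≤ Real.exp (3 * s) :=
    card_partition_le _
  have hNN : (NN e : ℝ) ≤ 222 * s ^ 4 := by
    refine (NN_le e).trans (le_of_eq ?_)
    rw [hr]
    ring
  have hX : 32 * (NN e : ℝ) ^ 2 * (Fintype.card (Nat.Partition (2 ^ e)) : ℝ) ≤
      (32 * 222 ^ 2) * s ^ 8 * Real.exp (3 * s) := by
    have h1 : (NN e : ℝ) ^ 2 ≤ (222 * s ^ 4) ^ 2 :=
      pow_le_pow_left₀ (by positivity) hNN 2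
    calc 32 * (NN e : ℝ) ^ 2 * (Fintype.card (Nat.Partition (2 ^ e)) : ℝ)
        ≤ 32 * (222 * s ^ 4) ^ 2 * Real.exp (3 * s) := by gcongr
      _ = _ := by ring
  have hden : Real.exp (40 * (s - 1)) ≤ (((4 * 2 ^ e).choose (K0 e / 2) : ℝ)) ^ 2 := by
    have h1 := s3_pow_le_choose e
    have h2 : Real.exp (20 * (K0 e / 2 : ℕ)) ≤ (((4 * 2 ^ e).choose (K0 e / 2) : ℕ) : ℝ) := by
      refine le_trans ?_ h1
      rw [mul_comm, Real.exp_nat_mul]
      exact pow_le_pow_left₀ (Real.exp_nonneg _) he _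
    have h3 : s - 1 ≤ ((K0 e / 2 : ℕ) : ℝ) := by
      have := s3_le_half e
      linarith
    calc Real.exp (40 * (s - 1)) ≤ Real.exp (40 * ((K0 e / 2 : ℕ) : ℝ)) := by
          apply Real.exp_le_exp.mpr; linarith
      _ = (Real.exp (20 * (K0 e / 2 : ℕ))) ^ 2 := by
          rw [← Real.exp_nat_mul]; congr 1; push_cast; ring
      _ ≤ _ := pow_le_pow_left₀ (Real.exp_nonneg _) h2 2
  unfold S3
  calc (Fintype.card (Nat.Partition (8 * 2 ^ e)) : ℝ) *
      (65536 * (32 * (NN e : ℝ) ^ 2 * (Fintype.card (Nat.Partition (2 ^ e)) : ℝ)) ^ 6 /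
        (((4 * 2 ^ e).choose (K0 e / 2) : ℝ)) ^ 2)
      ≤ Real.exp (9 * s) * (65536 * ((32 * 222 ^ 2) * s ^ 8 * Real.exp (3 * s)) ^ 6 /
        Real.exp (40 * (s - 1))) := by
        gcongr
    _ = (65536 * (32 * 222 ^ 2) ^ 6) * s ^ 48 *
        (Real.exp (9 * s) * (Real.exp (3 * s)) ^ 6 / Real.exp (40 * (s - 1))) := by
        ring
    _ ≤ (65536 * (32 * 222 ^ 2) ^ 6) * s ^ 48 * (Real.exp 40 * Real.exp (-s)) := by
        apply mul_le_mul_of_nonneg_left _ (by positivity)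
        rw [← Real.exp_nat_mul, ← Real.exp_add, ← Real.exp_sub, ← Real.exp_add]
        apply Real.exp_le_exp.mpr
        push_cast
        nlinarith
    _ = _ := by ring

/-- `C(n/2,h) ≥ (n/(2h))^h`, `h ≈ √n/(2√2)`: `exp (c √n log n)` beats the powers of `exp (3 √n)`
(`card_partition_le`). -/
theorem S3_tendsto : Tendsto S3 atTop (nhds 0) := by
  have hr : Tendsto (fun e : ℕ => ((2 ^ e : ℕ) : ℝ)) atTop atTop :=
    tendsto_natCast_atTop_atTop.comp (tendsto_pow_atTop_atTop_of_one_lt (by norm_num))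
  have hs : Tendsto (fun e : ℕ => Real.sqrt ((2 ^ e : ℕ) : ℝ)) atTop atTop :=
    Real.tendsto_sqrt_atTop.comp hr
  have hlim : Tendsto (fun e : ℕ => (65536 * (32 * 222 ^ 2) ^ 6 * Real.exp 40) *
      ((Real.sqrt ((2 ^ e : ℕ) : ℝ)) ^ 48 * Real.exp (-(Real.sqrt ((2 ^ e : ℕ) : ℝ)))))
      atTop (nhds 0) := by
    have h1 := (Real.tendsto_pow_mul_exp_neg_atTop_nhds_zero 48).comp hs
    have h2 := h1.const_mul (65536 * (32 * 222 ^ 2) ^ 6 * Real.exp 40)
    rw [mul_zero] at h2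
    exact h2
  refine squeeze_zero' (Eventually.of_forall fun e => ?_) ?_ hlim
  · unfold S3
    positivity
  · filter_upwards [hs.eventually_ge_atTop (Real.exp 20)] with e he
    refine S3_le e ?_
    have := Real.exp_pos 20
    linarith

end Crest.Agent.R155
end

-- ▼ part R155/PartR

/-!
R155, task PartR: assembly of the representation theoretic part (helper505).
-/

set_option autoImplicit false
set_option linter.unusedSectionVars false
set_option linter.unusedVariables false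

namespace Crest.Agent.R155

open Finset Equiv

section
variable {α : Type} [Fintype α] [DecidableEq α]

/-- decomposition along the levels -/
theorem norm_sq_levels (u : L2 (Perm α)) (k : ℕ) (hk : k ≤ Fintype.card α) :
    ‖u - pr (junta α 0) u‖ ^ 2 = ∑ t ∈ Finset.Icc 1 k, ‖pr (lev α t) u‖ ^ 2 +
      ‖u - pr (junta α k) u‖ ^ 2 := by
  induction k with
  | zero => simp
  | succ k ih =>
    rw [ih (by omega), Finset.sum_Icc_succ_top (by omega)]
    have h1 := norm_sq_sub_pr_nested (junta_mono (α := α) (Nat.le_succ k) hk) u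
    have h2 : lev α (k + 1) = junta α (k + 1) ⊓ (junta α k)ᗮ := rfl
    rw [h1, h2]; ring

/-- the constant part -/
theorem pr_junta_zero (u : L2 (Perm α)) (g : Perm α) :
    (pr (junta α 0) u) g = (∑ x, u x) / (Fintype.card (Perm α) : ℝ) := by
  have h1 := pr_mem (junta α 0) u
  rw [mem_junta_zero] at h1
  let one : L2 (Perm α) := WithLp.toLp 2 (fun _ => (1 : ℝ))
  have hone : one ∈ junta α 0 := by
    rw [mem_junta_zero]; intro g; rfl
  have h2 : inner ℝ one (u - pr (junta α 0) u) = 0 := (sub_pr_mem _ u) _ hone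
  rw [inner_sub_right, sub_eq_zero, inner_def', inner_def'] at h2
  have h3 : ∀ x, one x = 1 := fun x => rfl
  simp only [h3, one_mul] at h2
  rw [h2, Finset.sum_congr rfl fun x _ => h1 x, Finset.sum_const, Finset.card_univ, nsmul_eq_mul,
    h1 g]
  have : (Fintype.card (Perm α) : ℝ) ≠ 0 := by
    have := Fintype.card_pos (α := Perm α); positivity
  field_simp

theorem one_sub_pow_six_le {x : ℝ} (h0 : 0 ≤ x) (h1 : x ≤ 1) : 1 - x ^ 6 ≤ 6 * (1 - x) := by
  have := one_add_mul_le_pow (a := x - 1) (by linarith) 6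
  norm_num at this
  linarith

end

/-- finite version -/
theorem partR_finite (e : ℕ) (he : 1 ≤ e) (α : Type) [Fintype α] [DecidableEq α]
    (hcard : Fintype.card α = 8 * 2 ^ e)
    (ν μ : Perm α → ℝ) (hν : ∀ g, 0 ≤ ν g) (hν1 : ∑ g, ν g = 1)
    (hkill : ∀ f ∈ sjunta α (K0 e), cv (fun g => ν g⁻¹) f = 0) (ε : ℝ)
    (hμ : MargClose α (7 * 2 ^ e) ε μ) :
    ∑ g, |(cv ν ((fun f => cv μ f)^[6] (dl 1))) g - 1 / ((8 * 2 ^ e).factorial : ℝ)| ≤
      Real.sqrt (S1 e + S3 e) + 192 * ε := by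
  classical
  set r : ℕ := 2 ^ e with hr
  have hr1 : 1 ≤ r := Nat.one_le_two_pow
  have hr2 : 2 ≤ r := by
    calc 2 = 2 ^ 1 := rfl
      _ ≤ 2 ^ e := Nat.pow_le_pow_right (by norm_num) he
  obtain ⟨ι0, a, ha⟩ := exists_parts hcard
  let ι : Fin 8 → (Fin r ↪ α) := fun i => ι0.trans (a i).toEmbedding
  obtain ⟨F, hF0, hFμ, hFt, hFs⟩ := exists_trunc hcard ε μ hμ 8 ι
  have hF1 : ∑ g, F g ≤ 1 := by
    rw [← hμ.2.1]; exact Finset.sum_le_sum fun g _ => hFμ g
  let D : Data8 α r F :=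
    { ι := ι, disj := fun i i' hii' x y => ha i i' hii' x y, card := hcard, nonneg := hF0,
      sum_le := hF1, trunc := hFt }
  set δ : ℝ := 16 * ε with hδ
  have hFs' : ∑ g, (μ g - F g) ≤ δ := by
    refine hFs.trans (le_of_eq ?_); rw [hδ]; push_cast; ring
  set f : L2 (Perm α) := cv ν ((fun f => cv F f)^[6] (dl 1)) with hf
  set N : ℝ := ((8 * r).factorial : ℝ) with hN
  have hN0 : 0 < N := by rw [hN]; positivity
  have hG : (Fintype.card (Perm α) : ℝ) = N := by
    rw [Fintype.card_perm, hcard]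
  -- step 1
  have hν1' : ∑ g, |ν g| = 1 := by
    rw [← hν1]; exact Finset.sum_congr rfl fun g _ => abs_of_nonneg (hν g)
  have step1 : l1 (cv ν ((fun f => cv μ f)^[6] (dl 1)) - f) ≤ 6 * δ := by
    rw [hf, ← map_sub]
    refine (l1_cv_le _ _).trans ?_
    rw [hν1', one_mul]
    have := l1_iter_sub_le μ F hμ.1 hμ.2.1 hF0 hFμ δ hFs' 6
    exact_mod_cast this
  -- mass
  set m : ℝ := ∑ g, F g with hm
  have hm0 : 0 ≤ m := Finset.sum_nonneg fun g _ => hF0 g
  have hm1 : 1 - m ≤ δ := by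
    rw [Finset.sum_sub_distrib, hμ.2.1] at hFs'
    exact hFs'
  have hsum : ∑ g, f g = m ^ 6 := by
    rw [hf, sum_cv, hν1, one_mul, sum_iter]
  -- step 2
  have step2 : ∑ g : Perm α, |(pr (junta α 0) f) g - 1 / N| ≤ 6 * δ := by
    have h1 : ∀ g : Perm α, |(pr (junta α 0) f) g - 1 / N| = (1 - m ^ 6) / N := by
      intro g
      rw [pr_junta_zero, hsum, hG, ← sub_div, abs_div, abs_of_pos hN0, abs_sub_comm,
        abs_of_nonneg]
      have : m ^ 6 ≤ 1 := pow_le_one₀ hm0 hF1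
      linarith
    rw [Finset.sum_congr rfl fun g _ => h1 g, Finset.sum_const, Finset.card_univ, nsmul_eq_mul, hG,
      mul_div_cancel₀ _ hN0.ne']
    have := one_sub_pow_six_le hm0 hF1
    linarith
  -- step 3 : the l2 estimate
  have hK0 : K0 e * K0 e ≤ 4 * r := Nat.sqrt_le (4 * 2 ^ e)
  have hK0' : K0 e ≤ 4 * r := (Nat.le_mul_self _).trans hK0
  have hKcard : K0 e ≤ Fintype.card α := by rw [hcard]; omega
  have hlev : ∑ t ∈ Finset.Icc 1 (K0 e), N * ‖pr (lev α t) f‖ ^ 2 ≤ S1 e := by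
    unfold S1
    apply Finset.sum_le_sum
    intro k hk
    rw [Finset.mem_Icc] at hk
    have hkk : k * k + k ≤ 8 * r := by
      have h1 : k * k ≤ K0 e * K0 e := Nat.mul_le_mul hk.2 hk.2
      have h2 : k ≤ k * k := Nat.le_mul_self k
      omega
    have h1 := class_estimate (lev_biInv k) ν F hν hν1 _ (by positivity)
      (D.level_bound hk.1 hkk) 6
    rw [hG] at h1
    refine h1.trans ?_
    have h2 : (Module.finrank ℝ (lev α k) : ℝ) ≤
        ((8 * 2 ^ e).choose k : ℝ) ^ 2 * (k.factorial : ℝ) := by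
      have := finrank_lev_le (α := α) k
      rw [hcard] at this
      exact_mod_cast this
    have h3 : 128 * ((r.choose (k / 8) : ℝ) ^ 2 * ((k / 8).factorial : ℝ)) /
        ((((8 * r - k) / k : ℕ) : ℝ) ^ k) ≤ (2 * (Nk e k : ℝ)) ^ 2 *
      (2 * (((2 ^ e).choose (k / 8) : ℝ) ^ 2 * ((k / 8).factorial : ℝ)) /
        ((((8 * 2 ^ e - k) / k : ℕ) : ℝ) ^ k)) := by
      have hNk : (4 : ℝ) ≤ (Nk e k : ℝ) := by
        have : 4 ≤ Nk e k := by unfold Nk; omega
        exact_mod_cast this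
      have h4 : (64 : ℝ) ≤ (2 * (Nk e k : ℝ)) ^ 2 := by nlinarith
      have h5 : 128 * ((r.choose (k / 8) : ℝ) ^ 2 * ((k / 8).factorial : ℝ)) /
          ((((8 * r - k) / k : ℕ) : ℝ) ^ k) =
          64 * (2 * (((2 ^ e).choose (k / 8) : ℝ) ^ 2 * ((k / 8).factorial : ℝ)) /
        ((((8 * 2 ^ e - k) / k : ℕ) : ℝ) ^ k)) := by rw [← hr]; ring
      rw [h5]
      exact mul_le_mul_of_nonneg_right h4 (by positivity)
    gcongr
  -- the orthogonal part
  set w : L2 (Perm α) := f - pr (junta α (K0 e)) f with hw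
  have hwo : w ∈ (junta α (K0 e))ᗮ := sub_pr_mem _ _
  have hws : w ∈ (sjunta α (K0 e))ᗮ := by
    rw [Submodule.mem_orthogonal]
    intro s hs
    have h1 : w = cv ν ((fun f => cv F f)^[6] (dl 1) -
        pr (junta α (K0 e)) ((fun f => cv F f)^[6] (dl 1))) := by
      rw [hw, hf, pr_cv (junta_biInv _).1, map_sub]
    have h2 : inner ℝ s (cv ν ((fun f => cv F f)^[6] (dl 1) -
        pr (junta α (K0 e)) ((fun f => cv F f)^[6] (dl 1)))) = 0 := by
      rw [real_inner_comm]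
      unfold cv
      rw [inner_cvH]
      have h3 := hkill s hs
      unfold cv at h3
      rw [h3, inner_zero_right]
    rw [h1]; exact h2
  set Kinf : Submodule ℝ (L2 (Perm α)) := (junta α (K0 e))ᗮ ⊓ (sjunta α (K0 e))ᗮ with hKinf
  have hKbi : BiInv Kinf := (junta_biInv _).orth.inf (sjunta_biInv _).orth
  obtain ⟨M, Kb, hM, hmin, hle, horth, hsup⟩ := exists_blocks Kinf hKbi
  have hwK : w ∈ ⨆ i, Kb i := by rw [hsup]; exact ⟨hwo, hws⟩
  have hwn := norm_sq_of_mem_iSup Kb horth hwK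
  have hprw : ∀ i, pr (Kb i) w = pr (Kb i) f := by
    intro i
    rw [hw, map_sub]
    have : pr (Kb i) (pr (junta α (K0 e)) f) = 0 := by
      apply pr_eq_of (Submodule.zero_mem _)
      rw [sub_zero, Submodule.mem_orthogonal]
      intro u hu
      have h1 := (hle i hu).1
      rw [real_inner_comm]
      exact h1 _ (pr_mem _ _)
    rw [this, sub_zero]
  set c3 : ℝ := 65536 * (512 * (Fintype.card (Nat.Partition r) : ℝ)) ^ 6 /
        ((((4 * r).choose (K0 e / 2) : ℕ) : ℝ)) ^ 2 with hc3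
  have hblk : ∀ i, N * ‖pr (Kb i) f‖ ^ 2 ≤ c3 := by
    intro i
    refine D.block_bound (k := K0 e) (h := K0 e / 2) (by omega) (by omega) ?_ (Kb i) (hmin i)
      ((hle i).trans inf_le_left) ((hle i).trans inf_le_right) ν hν hν1
    -- 2 * (K0 e / 2) + 3 ≤ 4 r
    have h1 : 2 * (K0 e / 2) ≤ K0 e := by omega
    have h2 : K0 e + 3 ≤ 4 * r := by
      by_contra hc
      have h3 : 4 * r - 2 ≤ K0 e := by omega
      have h4 : (4 * r - 2) * (4 * r - 2) ≤ 4 * r := (Nat.mul_le_mul h3 h3).trans hK0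
      have h5 : 6 * (4 * r - 2) ≤ (4 * r - 2) * (4 * r - 2) := Nat.mul_le_mul_right _ (by omega)
      omega
    omega
  have hS3 : ∑ i, N * ‖pr (Kb i) f‖ ^ 2 ≤ S3 e := by
    calc ∑ i, N * ‖pr (Kb i) f‖ ^ 2 ≤ ∑ _i : Fin M, c3 := Finset.sum_le_sum fun i _ => hblk i
      _ = (M : ℝ) * c3 := by simp
      _ ≤ (Fintype.card (Nat.Partition (8 * 2 ^ e)) : ℝ) * c3 := by
          apply mul_le_mul_of_nonneg_right _ (by positivity)
          rw [hcard] at hM
          exact_mod_cast hM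
      _ ≤ S3 e := by
          unfold S3
          apply mul_le_mul_of_nonneg_left _ (by positivity)
          rw [hc3]
          have hNN : (4 : ℝ) ≤ (NN e : ℝ) := by
            have : 4 ≤ NN e := by unfold NN; omega
            exact_mod_cast this
          have h4 : 512 * (Fintype.card (Nat.Partition r) : ℝ) ≤
              32 * (NN e : ℝ) ^ 2 * (Fintype.card (Nat.Partition (2 ^ e)) : ℝ) := by
            apply mul_le_mul_of_nonneg_right _ (by positivity)
            nlinarith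
          gcongr
  have hl2 : N * ‖f - pr (junta α 0) f‖ ^ 2 ≤ S1 e + S3 e := by
    rw [norm_sq_levels f (K0 e) hKcard, mul_add, Finset.mul_sum]
    have h1 : N * ‖f - pr (junta α (K0 e)) f‖ ^ 2 = ∑ i, N * ‖pr (Kb i) f‖ ^ 2 := by
      change N * ‖w‖ ^ 2 = _
      rw [hwn, Finset.mul_sum]
      exact Finset.sum_congr rfl fun i _ => by rw [hprw]
    rw [h1]
    exact add_le_add hlev hS3
  have step3 : l1 (f - pr (junta α 0) f) ≤ Real.sqrt (S1 e + S3 e) := by
    refine (l1_le_norm _).trans ?_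
    rw [hG]
    have h1 : Real.sqrt N * ‖f - pr (junta α 0) f‖ =
        Real.sqrt (N * ‖f - pr (junta α 0) f‖ ^ 2) := by
      rw [Real.sqrt_mul hN0.le, Real.sqrt_sq (norm_nonneg _)]
    rw [h1]
    exact Real.sqrt_le_sqrt hl2
  -- conclusion
  set u : L2 (Perm α) := cv ν ((fun f => cv μ f)^[6] (dl 1)) with hu
  have htri : ∀ g, |u g - 1 / N| ≤ |(u - f) g| + |(f - pr (junta α 0) f) g| +
      |(pr (junta α 0) f) g - 1 / N| := by
    intro g
    have h1 : u g - 1 / N = (u - f) g + (f - pr (junta α 0) f) g +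
        ((pr (junta α 0) f) g - 1 / N) := by
      simp
    rw [h1]
    exact (abs_add_le _ _).trans (add_le_add (abs_add_le _ _) le_rfl)
  calc ∑ g, |u g - 1 / N| ≤ ∑ g, (|(u - f) g| + |(f - pr (junta α 0) f) g| +
      |(pr (junta α 0) f) g - 1 / N|) := Finset.sum_le_sum fun g _ => htri g
    _ = l1 (u - f) + l1 (f - pr (junta α 0) f) + ∑ g, |(pr (junta α 0) f) g - 1 / N| := by
        rw [Finset.sum_add_distrib, Finset.sum_add_distrib]; rfl
    _ ≤ 6 * δ + Real.sqrt (S1 e + S3 e) + 6 * δ := add_le_add (add_le_add step1 step3) step2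
    _ = Real.sqrt (S1 e + S3 e) + 192 * ε := by rw [hδ]; ring

/-- `n = 8 * 2^e`; `ν` is one layer, `μ` the law of a long run. -/
theorem partR (η : ℝ) (hη : 0 < η) : ∃ e0 : ℕ, ∀ e, e0 ≤ e →
    ∀ (α : Type) [Fintype α] [DecidableEq α] (_ : Fintype.card α = 8 * 2 ^ e)
      (ν μ : Perm α → ℝ) (_ : ∀ g, 0 ≤ ν g) (_ : ∑ g, ν g = 1)
      (_ : ∀ f ∈ sjunta α (K0 e), cv (fun g => ν g⁻¹) f = 0)
      (_ : MargClose α (7 * 2 ^ e) ((2 : ℝ) ^ (-(11 / 10 : ℝ) * ((e : ℝ) + 3))) μ),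
      ∑ g, |(cv ν ((fun f => cv μ f)^[6] (dl 1))) g - 1 / ((8 * 2 ^ e).factorial : ℝ)| ≤ η := by
  have h1 : Filter.Tendsto (fun e => Real.sqrt (S1 e + S3 e)) Filter.atTop (nhds 0) := by
    have := (S1_tendsto.add S3_tendsto).sqrt
    simpa using this
  have h2 : Filter.Tendsto (fun e : ℕ => 192 * (2 : ℝ) ^ (-(11 / 10 : ℝ) * ((e : ℝ) + 3)))
      Filter.atTop (nhds 0) := by
    have h3 : Filter.Tendsto (fun e : ℕ => ((e : ℝ) + 3)) Filter.atTop Filter.atTop :=
      Filter.tendsto_atTop_add_const_right _ _ tendsto_natCast_atTop_atTop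
    have h4 : Filter.Tendsto (fun e : ℕ => -(11 / 10 : ℝ) * ((e : ℝ) + 3)) Filter.atTop
        Filter.atBot := Filter.Tendsto.const_mul_atTop_of_neg (by norm_num) h3
    have h5 : Filter.Tendsto (fun x : ℝ => (2 : ℝ) ^ x) Filter.atBot (nhds 0) :=
      tendsto_rpow_atBot_of_base_gt_one 2 (by norm_num)
    have h6 := (h5.comp h4).const_mul 192
    simpa using h6
  have h3 := h1.add h2
  rw [add_zero] at h3
  have h4 := (h3.eventually (gt_mem_nhds hη)).and (Filter.eventually_ge_atTop 1)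
  obtain ⟨e0, he0⟩ := Filter.eventually_atTop.1 h4
  refine ⟨e0, fun e he α _ _ hcard ν μ hν hν1 hkill hμ => ?_⟩
  obtain ⟨h5, h6⟩ := he0 e he
  exact (partR_finite e h6 α hcard ν μ hν hν1 hkill _ hμ).trans h5.le

end Crest.Agent.R155
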